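import Vale.Agent.P287.MathlibUsed
import Vale.Agent.P287.Defs

set_option linter.all false

section

section

set_option maxSynthPendingDepth 3

namespace Vale.Agent.P287

open MvPolynomial

theorem pderiv_comm' {σ : Type*} (i j : σ) (f : MvPolynomial σ ℂ) :
    pderiv i (pderiv j f) = pderiv j (pderiv i f) := by
  classical
  have h : ⁅(pderiv i : Derivation ℂ (MvPolynomial σ ℂ) (MvPolynomial σ ℂ)),
      (pderiv j : Derivation ℂ (MvPolynomial σ ℂ) (MvPolynomial σ ℂ))⁆ = 0 := by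
    apply MvPolynomial.derivation_ext
    intro k
    rw [Derivation.commutator_apply]
    simp only [pderiv_X, Derivation.coe_zero, Pi.zero_apply]
    by_cases h1 : j = k
    · by_cases h2 : i = k
      · subst h1; subst h2; simp
      · simp [Pi.single_apply, h1, h2]
    · by_cases h2 : i = k
      · simp only [h2, ne_eq, h1, not_false_eq_true, Pi.single_eq_of_ne', map_zero, Pi.single_eq_same, Derivation.map_one_eq_zero, sub_self]
      · simp [Pi.single_apply, h1, h2]
  have h2 := congrArg (fun D => D f) h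
  simp only [Derivation.commutator_apply, Derivation.coe_zero, Pi.zero_apply] at h2
  exact sub_eq_zero.mp h2

/-- The trilinear polar form data of a cubic form. -/
structure IsPolar (f : MvPolynomial (Fin 6) ℂ)
    (B : (Fin 6 → ℂ) →ₗ[ℂ] (Fin 6 → ℂ) →ₗ[ℂ] (Fin 6 → ℂ) →ₗ[ℂ] ℂ) : Prop where
  s12 : ∀ x y z, B x y z = B y x z
  s23 : ∀ x y z, B x y z = B x z y
  diag : ∀ x, eval x f = B x x x
  deriv : ∀ x i, eval x (pderiv i f) = 3 * B x x (Pi.single i 1)

theorem eval_eq_of_homog_zero {p : MvPolynomial (Fin 6) ℂ} (hp : p.IsHomogeneous 0)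
    (x : Fin 6 → ℂ) : eval x p = coeff 0 p := by
  rw [← totalDegree_zero_iff_isHomogeneous, totalDegree_eq_zero_iff_eq_C] at hp
  rw [hp]; simp

theorem euler_eval {p : MvPolynomial (Fin 6) ℂ} {n : ℕ} (hp : p.IsHomogeneous n)
    (x : Fin 6 → ℂ) : ∑ i, x i * eval x (pderiv i p) = n * eval x p := by
  have h := congrArg (eval x) hp.sum_X_mul_pderiv
  simpa only [map_sum, map_mul, eval_X, nsmul_eq_mul, map_natCast] using h

theorem exists_polar {f : MvPolynomial (Fin 6) ℂ} (hf : f.IsHomogeneous 3) :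
    ∃ B, IsPolar f B := by
  classical
  set c : Fin 6 → Fin 6 → Fin 6 → ℂ := fun i j k =>
    (1 / 6) * coeff 0 (pderiv i (pderiv j (pderiv k f))) with hc
  have hc12 : ∀ i j k, c i j k = c j i k := by
    intro i j k; simp only [hc]; rw [pderiv_comm' i j]
  have hc23 : ∀ i j k, c i j k = c i k j := by
    intro i j k; simp only [hc]; rw [pderiv_comm' j k]
  set B : (Fin 6 → ℂ) →ₗ[ℂ] (Fin 6 → ℂ) →ₗ[ℂ] (Fin 6 → ℂ) →ₗ[ℂ] ℂ :=
    ∑ i, ∑ j, ∑ k, c i j k • (LinearMap.proj i : (Fin 6 → ℂ) →ₗ[ℂ] ℂ).smulRight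
      ((LinearMap.proj j : (Fin 6 → ℂ) →ₗ[ℂ] ℂ).smulRight
        (LinearMap.proj k : (Fin 6 → ℂ) →ₗ[ℂ] ℂ)) with hB
  have hBa : ∀ x y z, B x y z = ∑ i, ∑ j, ∑ k, c i j k * (x i * (y j * z k)) := by
    intro x y z
    simp only [hB, LinearMap.sum_apply, LinearMap.smul_apply, LinearMap.coe_smulRight, LinearMap.coe_proj, Function.eval, smul_eq_mul]
  have h3 : ∀ (x : Fin 6 → ℂ) (j k : Fin 6),
      ∑ i, x i * coeff 0 (pderiv i (pderiv j (pderiv k f))) = eval x (pderiv j (pderiv k f)) := by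
    intro x j k
    have h1 : (pderiv j (pderiv k f)).IsHomogeneous 1 := hf.pderiv.pderiv
    have h0 : ∀ i, (pderiv i (pderiv j (pderiv k f))).IsHomogeneous 0 := fun i => h1.pderiv
    have := euler_eval h1 x
    simp only [Nat.cast_one, one_mul] at this
    rw [← this]
    exact Finset.sum_congr rfl fun i _ => by rw [eval_eq_of_homog_zero (h0 i)]
  have h2 : ∀ (x : Fin 6 → ℂ) (k : Fin 6),
      ∑ j, x j * eval x (pderiv j (pderiv k f)) = 2 * eval x (pderiv k f) := by
    intro x k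
    have h2 : (pderiv k f).IsHomogeneous 2 := hf.pderiv
    have := euler_eval h2 x
    simpa only [Nat.cast_ofNat] using this
  have h1 : ∀ (x : Fin 6 → ℂ), ∑ k, x k * eval x (pderiv k f) = 3 * eval x f := by
    intro x
    have := euler_eval hf x
    simpa only [Nat.cast_ofNat] using this
  have hxx : ∀ x z, B x x z = ∑ k, z k * ((1 / 3) * eval x (pderiv k f)) := by
    intro x z
    rw [hBa]
    have e1 : ∀ k, (1 / 3 : ℂ) * eval x (pderiv k f) = ∑ j, ∑ i, c i j k * (x i * x j) := by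
      intro k
      have : ∀ j, ∑ i, c i j k * (x i * x j) =
          (1 / 6) * (x j * eval x (pderiv j (pderiv k f))) := by
        intro j
        rw [← h3 x j k, Finset.mul_sum, Finset.mul_sum]
        refine Finset.sum_congr rfl fun i _ => ?_
        simp only [hc]; ring
      rw [Finset.sum_congr rfl fun j _ => this j, ← Finset.mul_sum, h2 x k]
      ring
    have : ∀ k, z k * ((1 / 3 : ℂ) * eval x (pderiv k f)) =
        ∑ i, ∑ j, c i j k * (x i * (x j * z k)) := by
      intro k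
      rw [e1 k, Finset.sum_comm, Finset.mul_sum]
      refine Finset.sum_congr rfl fun i _ => ?_
      rw [Finset.mul_sum]
      refine Finset.sum_congr rfl fun j _ => ?_
      ring
    rw [Finset.sum_congr rfl fun k _ => this k]
    symm
    rw [Finset.sum_comm]
    refine Finset.sum_congr rfl fun i _ => ?_
    exact Finset.sum_comm
  refine ⟨B, ?_, ?_, ?_, ?_⟩
  · intro x y z
    rw [hBa, hBa, Finset.sum_comm]
    refine Finset.sum_congr rfl fun i _ => Finset.sum_congr rfl fun j _ =>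
      Finset.sum_congr rfl fun k _ => ?_
    rw [hc12 j i k]; ring
  · intro x y z
    rw [hBa, hBa]
    refine Finset.sum_congr rfl fun i _ => ?_
    rw [Finset.sum_comm]
    refine Finset.sum_congr rfl fun j _ => Finset.sum_congr rfl fun k _ => ?_
    rw [hc23 i k j]; ring
  · intro x
    rw [hxx]
    have := h1 x
    have h4 : ∑ k, x k * ((1 / 3) * eval x (pderiv k f)) =
        (1 / 3) * ∑ k, x k * eval x (pderiv k f) := by
      rw [Finset.mul_sum]
      exact Finset.sum_congr rfl fun k _ => by ring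
    rw [h4, this]; ring
  · intro x i
    rw [hxx]
    simp only [Pi.single_apply, one_div, ite_mul, one_mul, zero_mul, Finset.sum_ite_eq', Finset.mem_univ, ↓reduceIte, ne_eq, OfNat.ofNat_ne_zero, not_false_eq_true, mul_inv_cancel_left₀]

theorem IsPolar.smooth {f : MvPolynomial (Fin 6) ℂ}
    {B : (Fin 6 → ℂ) →ₗ[ℂ] (Fin 6 → ℂ) →ₗ[ℂ] (Fin 6 → ℂ) →ₗ[ℂ] ℂ} (hB : IsPolar f B)
    (hf : IsSmoothCubic f) {x : Fin 6 → ℂ} (hx : x ≠ 0) : ∃ y, B x x y ≠ 0 := by
  obtain ⟨i, hi⟩ := hf.2 x hx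
  rw [hB.deriv] at hi
  exact ⟨_, fun h => hi (by rw [h, mul_zero])⟩

end Vale.Agent.P287
end
end

section

section

set_option maxSynthPendingDepth 3

namespace Vale.Agent.P287

open MvPolynomial

abbrev V6 : Type := Fin 6 → ℂ

abbrev Tri6 : Type := (Fin 6 → ℂ) →ₗ[ℂ] (Fin 6 → ℂ) →ₗ[ℂ] (Fin 6 → ℂ) →ₗ[ℂ] ℂ

/-- symmetric trilinear form of a smooth cubic -/
structure Good (B : Tri6) : Prop where
  s12 : ∀ x y z, B x y z = B y x z
  s23 : ∀ x y z, B x y z = B x z y
  smooth : ∀ x, x ≠ 0 → ∃ y, B x x y ≠ 0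

/-- isotropic subspace -/
def Iso (B : Tri6) (W : Submodule ℂ V6) : Prop :=
  ∀ x ∈ W, ∀ y ∈ W, ∀ z ∈ W, B x y z = 0

theorem iso_of_diag {B : Tri6} (hB : Good B) {W : Submodule ℂ V6}
    (h : ∀ x ∈ W, B x x x = 0) : Iso B W := by
  have h1 : ∀ x ∈ W, ∀ y ∈ W, B x y y = 0 := by
    intro x hx y hy
    have e1 := h _ (W.add_mem hx hy)
    have e2 := h _ (W.sub_mem hx hy)
    have e3 := h _ hx
    have e4 := h _ hy
    simp only [map_add, map_sub, LinearMap.add_apply, LinearMap.sub_apply] at e1 e2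
    have a1 := hB.s12 x y x
    have a2 := hB.s23 x y x
    have a3 := hB.s12 x y y
    have a4 := hB.s23 y x y
    linear_combination (1 / 6) * e1 + (1 / 6) * e2 - (1 / 3) * e3 + (1/3) * a3 + (1/3) * (a4 + a3)
  intro x hx y hy z hz
  have e1 := h1 x hx _ (W.add_mem hy hz)
  have e2 := h1 x hx _ hy
  have e3 := h1 x hx _ hz
  simp only [map_add, LinearMap.add_apply] at e1
  have a1 := hB.s23 x y z
  linear_combination (1 / 2) * e1 - (1 / 2) * e2 - (1 / 2) * e3 + (1 / 2) * a1

theorem IsPolar.good {f : MvPolynomial (Fin 6) ℂ} {B : Tri6} (hB : IsPolar f B)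
    (hf : IsSmoothCubic f) : Good B :=
  ⟨hB.s12, hB.s23, fun _ hx => hB.smooth hf hx⟩

theorem IsPlane.iso {f : MvPolynomial (Fin 6) ℂ} {B : Tri6} (hB : IsPolar f B)
    (hf : IsSmoothCubic f) {W : Submodule ℂ V6} (hW : IsPlane f W) : Iso B W :=
  iso_of_diag (hB.good hf) fun x hx => by rw [← hB.diag]; exact hW.2 x hx

end Vale.Agent.P287
end
end

section

section

set_option maxSynthPendingDepth 3

namespace Vale.Agent.P287

open Module

theorem exists_zero_pair (a b c : ℂ) :
    ∃ s t : ℂ, (s ≠ 0 ∨ t ≠ 0) ∧ a * s ^ 2 + b * (s * t) + c * t ^ 2 = 0 := by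
  by_cases ha : a = 0
  · exact ⟨1, 0, Or.inl one_ne_zero, by simp [ha]⟩
  · obtain ⟨d, hd⟩ := IsAlgClosed.exists_pow_nat_eq (discrim a b c) (n := 2) (by norm_num)
    obtain ⟨x, hx⟩ := exists_quadratic_eq_zero ha ⟨d, by rw [← hd]; ring⟩
    exact ⟨x, 1, Or.inr one_ne_zero, by linear_combination hx⟩

variable {V : Type*} [AddCommGroup V] [Module ℂ V] [FiniteDimensional ℂ V]

theorem exists_notMem_of_finrank_lt {U W : Submodule ℂ V} (h : finrank ℂ U < finrank ℂ W) :
    ∃ x ∈ W, x ∉ U := by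
  by_contra hcon
  push Not at hcon
  have : W ≤ U := hcon
  have := Submodule.finrank_mono this
  omega

theorem finrank_span_singleton_le (k : V) : finrank ℂ (Submodule.span ℂ {k}) ≤ 1 := by
  have := finrank_span_le_card (R := ℂ) ({k} : Set V)
  simpa only [ge_iff_le, Set.toFinset_singleton, Finset.card_singleton] using this

theorem finrank_span_pair_le (k v : V) : finrank ℂ (Submodule.span ℂ {k, v}) ≤ 2 := by
  classical
  have h := finrank_span_finset_le_card (R := ℂ) ({k, v} : Finset V)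
  have h2 : (({k, v} : Finset V) : Set V) = {k, v} := by simp
  rw [h2] at h
  exact h.trans Finset.card_le_two

/-- A quadratic function has a nonzero zero on every plane through the origin. -/
theorem exists_zero_of_two {M : Submodule ℂ V} (hM : 2 ≤ finrank ℂ M)
    (Q : V →ₗ[ℂ] V →ₗ[ℂ] ℂ) : ∃ x ∈ M, x ≠ 0 ∧ Q x x = 0 := by
  obtain ⟨v1, h1, h1'⟩ := exists_notMem_of_finrank_lt (U := ⊥) (W := M) (by simp; omega)
  obtain ⟨v2, h2, h2'⟩ := exists_notMem_of_finrank_lt (U := Submodule.span ℂ {v1}) (W := M)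
    (by have := finrank_span_singleton_le v1; omega)
  obtain ⟨s, t, hst, he⟩ := exists_zero_pair (Q v1 v1) (Q v1 v2 + Q v2 v1) (Q v2 v2)
  refine ⟨s • v1 + t • v2, M.add_mem (M.smul_mem _ h1) (M.smul_mem _ h2), ?_, ?_⟩
  · intro h0
    by_cases ht : t = 0
    · have hs : s ≠ 0 := by
        rcases hst with h | h
        · exact h
        · exact absurd ht h
      rw [ht, zero_smul, add_zero] at h0
      rcases smul_eq_zero.mp h0 with h | h
      · exact hs h
      · exact h1' (by simp only [h, zero_mem])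
    · apply h2'
      have : v2 = (-(t⁻¹ * s)) • v1 := by
        have e : t • v2 = -(s • v1) := by
          rw [add_comm] at h0; exact eq_neg_of_add_eq_zero_left h0
        calc v2 = t⁻¹ • (t • v2) := by rw [smul_smul, inv_mul_cancel₀ ht, one_smul]
          _ = _ := by rw [e, smul_neg, smul_smul, neg_smul]
      rw [this]
      exact Submodule.smul_mem _ _ (Submodule.mem_span_singleton_self _)
  · simp only [map_add, map_smul, LinearMap.add_apply, LinearMap.smul_apply, smul_eq_mul]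
    linear_combination he

theorem exists_common_zero_aux {W : Submodule ℂ V} (hW : finrank ℂ W = 3)
    (Q Q' : V →ₗ[ℂ] V →ₗ[ℂ] ℂ) (hs : ∀ x y, Q x y = Q y x) {k : V} (hk : k ∈ W) (hk0 : k ≠ 0)
    (hker : ∀ y ∈ W, Q k y = 0) : ∃ x ∈ W, x ≠ 0 ∧ Q x x = 0 ∧ Q' x x = 0 := by
  obtain ⟨v1, h1, h1'⟩ := exists_notMem_of_finrank_lt (U := Submodule.span ℂ {k}) (W := W)
    (by have := finrank_span_singleton_le k; omega)
  obtain ⟨v2, h2, h2'⟩ := exists_notMem_of_finrank_lt (U := Submodule.span ℂ {k, v1}) (W := W)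
    (by have := finrank_span_pair_le k v1; omega)
  obtain ⟨s, t, hst, he⟩ := exists_zero_pair (Q v1 v1) (Q v1 v2 + Q v2 v1) (Q v2 v2)
  set v := s • v1 + t • v2 with hv
  have hvW : v ∈ W := W.add_mem (W.smul_mem _ h1) (W.smul_mem _ h2)
  have hQv : Q v v = 0 := by
    simp only [hv, map_add, map_smul, LinearMap.add_apply, LinearMap.smul_apply, smul_eq_mul]
    linear_combination he
  have hvk : v ∉ Submodule.span ℂ {k} := by
    intro hmem
    by_cases ht : t = 0
    · have hs : s ≠ 0 := by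
        rcases hst with h | h
        · exact h
        · exact absurd ht h
      apply h1'
      have : v1 = s⁻¹ • v := by
        rw [hv, ht, zero_smul, add_zero, smul_smul, inv_mul_cancel₀ hs, one_smul]
      rw [this]
      exact Submodule.smul_mem _ _ hmem
    · apply h2'
      have : v2 = t⁻¹ • v - (t⁻¹ * s) • v1 := by
        rw [hv, smul_add, smul_smul, smul_smul, inv_mul_cancel₀ ht, one_smul, add_sub_cancel_left]
      rw [this]
      refine Submodule.sub_mem _ (Submodule.smul_mem _ _ ?_) (Submodule.smul_mem _ _ ?_)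
      · exact Submodule.span_mono (by simp) hmem
      · exact Submodule.subset_span (by simp)
  have hkv : 2 ≤ finrank ℂ (Submodule.span ℂ {k, v}) := by
    by_contra hlt
    have hle : Submodule.span ℂ {k} ≤ Submodule.span ℂ {k, v} :=
      Submodule.span_mono (by simp)
    have h1k : finrank ℂ (Submodule.span ℂ {k}) = 1 := finrank_span_singleton hk0
    have heq : Submodule.span ℂ {k} = Submodule.span ℂ {k, v} :=
      Submodule.eq_of_le_of_finrank_le hle (by omega)
    apply hvk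
    rw [heq]
    exact Submodule.subset_span (by simp)
  obtain ⟨x, hx, hx0, hQ'⟩ := exists_zero_of_two hkv Q'
  obtain ⟨a, b, rfl⟩ := Submodule.mem_span_pair.mp hx
  refine ⟨_, W.add_mem (W.smul_mem _ hk) (W.smul_mem _ hvW), hx0, ?_, hQ'⟩
  have e1 := hker k hk
  have e2 := hker v hvW
  have e3 := hs v k
  simp only [map_add, map_smul, LinearMap.add_apply, LinearMap.smul_apply, smul_eq_mul]
  rw [e1, e3, e2, hQv]
  ring

/-- Two conics meet. -/
theorem exists_common_zero {W : Submodule ℂ V} (hW : finrank ℂ W = 3)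
    (Q1 Q2 : V →ₗ[ℂ] V →ₗ[ℂ] ℂ) (hs1 : ∀ x y, Q1 x y = Q1 y x) (hs2 : ∀ x y, Q2 x y = Q2 y x) :
    ∃ x ∈ W, x ≠ 0 ∧ Q1 x x = 0 ∧ Q2 x x = 0 := by
  set f1 : W →ₗ[ℂ] Module.Dual ℂ W := Q1.domRestrict₁₂ W W with hf1
  set f2 : W →ₗ[ℂ] Module.Dual ℂ W := Q2.domRestrict₁₂ W W with hf2
  by_cases hinj : Function.Injective f2
  · have hd : finrank ℂ W = finrank ℂ (Module.Dual ℂ W) := Subspace.dual_finrank_eq.symm
    set e := LinearMap.linearEquivOfInjective f2 hinj hd with he
    haveI : Nontrivial W := Module.nontrivial_of_finrank_pos (R := ℂ) (by omega)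
    obtain ⟨μ, hμ⟩ := Module.End.exists_eigenvalue (e.symm.toLinearMap ∘ₗ f1 : Module.End ℂ W)
    obtain ⟨k, hk⟩ := hμ.exists_hasEigenvector
    have h1 := hk.apply_eq_smul
    have h2 : f1 k = μ • f2 k := by
      have : e (e.symm (f1 k)) = e (μ • k) := by
        congr 1
      rw [e.apply_symm_apply, map_smul] at this
      rw [this]
      simp [he]
    have h3 : ∀ y ∈ W, (Q1 - μ • Q2) (k : V) y = 0 := by
      intro y hy
      have := congrArg (fun g => g ⟨y, hy⟩) h2
      simp only [hf1, hf2, LinearMap.domRestrict₁₂_apply, LinearMap.smul_apply] at this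
      simp only [LinearMap.sub_apply, LinearMap.smul_apply]
      rw [this]; simp
    have hk0 : (k : V) ≠ 0 := by
      intro h; exact hk.2 (Subtype.ext h)
    obtain ⟨x, hx, hx0, hq1, hq2⟩ := exists_common_zero_aux hW (Q1 - μ • Q2) Q2
      (by intro x y; simp only [LinearMap.sub_apply, LinearMap.smul_apply, hs1 x y, hs2 x y, smul_eq_mul]) k.2 hk0 h3
    refine ⟨x, hx, hx0, ?_, hq2⟩
    simp only [LinearMap.sub_apply, LinearMap.smul_apply, hq2, smul_zero, sub_zero] at hq1
    exact hq1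
  · rw [injective_iff_map_eq_zero] at hinj
    push Not at hinj
    obtain ⟨k, hk, hk0⟩ := hinj
    have h3 : ∀ y ∈ W, Q2 (k : V) y = 0 := by
      intro y hy
      have := congrArg (fun g => g ⟨y, hy⟩) hk
      exact this
    obtain ⟨x, hx, hx0, hq1, hq2⟩ := exists_common_zero_aux hW Q2 Q1 hs2 k.2
      (by intro h; exact hk0 (Subtype.ext h)) h3
    exact ⟨x, hx, hx0, hq2, hq1⟩

end Vale.Agent.P287
end
end

section

section

set_option maxSynthPendingDepth 3

namespace Vale.Agent.P287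

open Module

/-- a plane in the cubic, in terms of the trilinear form -/
structure Pl (B : Tri6) (W : Submodule ℂ V6) : Prop where
  rk : finrank ℂ W = 3
  iso : Iso B W

theorem finrank_V6 : finrank ℂ V6 = 6 := by simp

theorem finrank_le_six (W : Submodule ℂ V6) : finrank ℂ W ≤ 6 := by
  have := Submodule.finrank_le W
  rwa [finrank_V6] at this

/-- if a three dimensional `W` is conormal to a space of dimension at least four, the cubic is
singular -/
theorem no_small {B : Tri6} (hB : Good B) {W L : Submodule ℂ V6} (hW : finrank ℂ W = 3)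
    (hL : 4 ≤ finrank ℂ L) (h : ∀ x ∈ W, ∀ y ∈ L, B x x y = 0) : False := by
  obtain ⟨D, hD⟩ := Submodule.exists_isCompl L
  have hDr : finrank ℂ D ≤ 2 := by
    have := Submodule.finrank_add_eq_of_isCompl hD
    rw [finrank_V6] at this; omega
  -- two spanning vectors of D
  obtain ⟨d1, d2, hd⟩ : ∃ d1 d2 : V6, D ≤ Submodule.span ℂ {d1, d2} := by
    by_cases h0 : finrank ℂ D = 0
    · refine ⟨0, 0, ?_⟩
      have : D = ⊥ := Submodule.finrank_eq_zero.mp h0
      rw [this]; exact bot_le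
    · obtain ⟨d1, h1, h1'⟩ := exists_notMem_of_finrank_lt (U := ⊥) (W := D) (by simp; omega)
      by_cases h1r : finrank ℂ D = 1
      · refine ⟨d1, d1, ?_⟩
        have hle : Submodule.span ℂ {d1} ≤ D := by
          rw [Submodule.span_singleton_le_iff_mem]; exact h1
        have hd1 : d1 ≠ 0 := by intro h; apply h1'; simp only [h, zero_mem]
        have : Submodule.span ℂ {d1} = D :=
          Submodule.eq_of_le_of_finrank_le hle (by rw [finrank_span_singleton hd1]; omega)
        rw [← this]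
        exact Submodule.span_mono (by simp)
      · obtain ⟨d2, h2, h2'⟩ := exists_notMem_of_finrank_lt (U := Submodule.span ℂ {d1})
          (W := D) (by have := finrank_span_singleton_le d1; omega)
        refine ⟨d1, d2, ?_⟩
        have hle : Submodule.span ℂ {d1, d2} ≤ D := by
          rw [Submodule.span_le]
          intro x hx
          simp only [Set.mem_insert_iff, Set.mem_singleton_iff] at hx
          rcases hx with rfl | rfl
          · exact h1
          · exact h2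
        have hr : 2 ≤ finrank ℂ (Submodule.span ℂ {d1, d2}) := by
          by_contra hlt
          have hle1 : Submodule.span ℂ {d1} ≤ Submodule.span ℂ {d1, d2} :=
            Submodule.span_mono (by simp)
          have hd1 : d1 ≠ 0 := by intro h; apply h1'; simp only [h, zero_mem]
          have h1k : finrank ℂ (Submodule.span ℂ {d1}) = 1 := finrank_span_singleton hd1
          have heq : Submodule.span ℂ {d1} = Submodule.span ℂ {d1, d2} :=
            Submodule.eq_of_le_of_finrank_le hle1 (by omega)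
          apply h2'
          rw [heq]
          exact Submodule.subset_span (by simp)
        rw [Submodule.eq_of_le_of_finrank_le hle (by omega)]
  obtain ⟨x, hx, hx0, h1, h2⟩ := exists_common_zero hW (B d1) (B d2)
    (fun x y => hB.s23 d1 x y) (fun x y => hB.s23 d2 x y)
  have h1' : B x x d1 = 0 := by rw [hB.s23, hB.s12]; exact h1
  have h2' : B x x d2 = 0 := by rw [hB.s23, hB.s12]; exact h2
  obtain ⟨y, hy⟩ := hB.smooth x hx0
  apply hy
  obtain ⟨l, hl, d, hdD, rfl⟩ := Submodule.mem_sup.mp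
    (show y ∈ L ⊔ D by rw [hD.sup_eq_top]; exact Submodule.mem_top)
  obtain ⟨a, b, rfl⟩ := Submodule.mem_span_pair.mp (hd hdD)
  rw [map_add, h x hx l hl, map_add, map_smul, map_smul, h1', h2']
  simp

/-- a line cannot be conormal to a space of dimension at least five -/
theorem no_line {B : Tri6} (hB : Good B) {M L : Submodule ℂ V6} (hM : 2 ≤ finrank ℂ M)
    (hL : 5 ≤ finrank ℂ L) (h : ∀ x ∈ M, ∀ y ∈ L, B x x y = 0) : False := by
  by_cases h6 : finrank ℂ L = 6
  · have htop : L = ⊤ := Submodule.eq_top_of_finrank_eq (by rw [h6, finrank_V6])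
    obtain ⟨x, hx, hx'⟩ := exists_notMem_of_finrank_lt (U := ⊥) (W := M) (by simp; omega)
    obtain ⟨y, hy⟩ := hB.smooth x (by intro h0; apply hx'; simp only [h0, zero_mem])
    exact hy (h x hx y (by rw [htop]; exact Submodule.mem_top))
  have h5 : finrank ℂ L = 5 := by have := finrank_le_six L; omega
  obtain ⟨d, _, hd⟩ := exists_notMem_of_finrank_lt (U := L) (W := ⊤) (by simp [h5])
  obtain ⟨x, hx, hx0, h1⟩ := exists_zero_of_two hM (B d)
  have h1' : B x x d = 0 := by rw [hB.s23, hB.s12]; exact h1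
  obtain ⟨y, hy⟩ := hB.smooth x hx0
  apply hy
  have htop : L ⊔ Submodule.span ℂ {d} = ⊤ := by
    apply Submodule.eq_top_of_finrank_eq
    have hlt : L < L ⊔ Submodule.span ℂ {d} := by
      refine lt_of_le_of_ne le_sup_left fun heq => hd ?_
      rw [heq]
      exact Submodule.mem_sup_right (Submodule.mem_span_singleton_self d)
    have h1 := Submodule.finrank_lt_finrank_of_lt hlt
    have h2 := finrank_le_six (L ⊔ Submodule.span ℂ {d})
    rw [finrank_V6]; omega
  obtain ⟨l, hl, e, he, rfl⟩ := Submodule.mem_sup.mp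
    (show y ∈ L ⊔ Submodule.span ℂ {d} by rw [htop]; exact Submodule.mem_top)
  obtain ⟨a, rfl⟩ := Submodule.mem_span_singleton.mp he
  rw [map_add, h x hx l hl, map_smul, h1']
  simp

/-- Pencil-type trichotomy, one case. -/
theorem adj_case {B : Tri6} (hB : Good B) {W1 W2 W3 Q : Submodule ℂ V6}
    (h1 : Pl B W1) (h2 : Pl B W2) (h3 : Pl B W3) (hQ : Pl B Q)
    (h12 : finrank ℂ (W1 ⊓ W2 : Submodule ℂ V6) = 2)
    (h13 : finrank ℂ (W1 ⊓ W3 : Submodule ℂ V6) = 2)
    (hle3 : W3 ≤ W1 ⊔ W2) (hne : Q ≠ W1)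
    (m2 : Q ⊓ W2 ≠ ⊥)
    (hQL : Q ⊓ (W1 ⊔ W2) ≤ W1) :
    finrank ℂ (Q ⊓ W1 : Submodule ℂ V6) = 2 ∧ finrank ℂ (Q ⊓ W2 : Submodule ℂ V6) ≠ 2 ∧
      finrank ℂ (Q ⊓ W3 : Submodule ℂ V6) ≠ 2 := by
  set L := W1 ⊔ W2 with hLdef
  have hLr : finrank ℂ L = 4 := by
    have := Submodule.finrank_sup_add_finrank_inf_eq W1 W2
    rw [h12, h1.rk, h2.rk] at this
    rw [hLdef]; omega
  have e1 : Q ⊓ W1 = Q ⊓ L := by
    apply le_antisymm
    · exact inf_le_inf_left _ le_sup_left
    · exact le_inf inf_le_left hQL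
  have hsum := Submodule.finrank_sup_add_finrank_inf_eq Q L
  rw [hQ.rk, hLr] at hsum
  have h6 := finrank_le_six (Q ⊔ L)
  have hle3' : finrank ℂ (Q ⊓ L : Submodule ℂ V6) ≤ 2 := by
    by_contra hgt
    have hle : finrank ℂ (Q ⊓ L : Submodule ℂ V6) ≤ 3 := by
      have := Submodule.finrank_mono (inf_le_left : Q ⊓ L ≤ Q)
      rw [hQ.rk] at this; exact this
    have : Q ⊓ L = Q := Submodule.eq_of_le_of_finrank_le inf_le_left (by rw [hQ.rk]; omega)
    apply hne
    have hQW : Q ≤ W1 := by rw [← this]; exact hQL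
    exact Submodule.eq_of_le_of_finrank_le hQW (by rw [hQ.rk, h1.rk])
  have hvan : ∀ x ∈ Q, ∀ y ∈ Q, B x x y = 0 := fun x hx y hy => hQ.iso x hx x hx y hy
  have hv1 : ∀ x ∈ W1, ∀ y ∈ W1, B x x y = 0 := fun x hx y hy => h1.iso x hx x hx y hy
  have hv2 : ∀ x ∈ W2, ∀ y ∈ W2, B x x y = 0 := fun x hx y hy => h2.iso x hx x hx y hy
  have hv3 : ∀ x ∈ W3, ∀ y ∈ W3, B x x y = 0 := fun x hx y hy => h3.iso x hx x hx y hy
  have hsup : ∀ x, x ∈ Q → x ∈ W1 → x ∈ W2 → ∀ y ∈ Q ⊔ L, B x x y = 0 := by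
    intro x hxQ hx1 hx2 y hy
    obtain ⟨q, hq, l, hl, rfl⟩ := Submodule.mem_sup.mp hy
    obtain ⟨a, ha, b, hb, rfl⟩ := Submodule.mem_sup.mp hl
    rw [map_add, map_add, hvan x hxQ q hq, hv1 x hx1 a ha, hv2 x hx2 b hb]
    simp
  -- dimension is not one
  have hne1 : finrank ℂ (Q ⊓ L : Submodule ℂ V6) ≠ 1 := by
    intro h1'
    have hle : Q ⊓ W2 ≤ Q ⊓ L := inf_le_inf_left _ le_sup_right
    have hpos : 0 < finrank ℂ (Q ⊓ W2 : Submodule ℂ V6) := by
      rw [Nat.pos_iff_ne_zero]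
      intro h0
      exact m2 (Submodule.finrank_eq_zero.mp h0)
    have heq : Q ⊓ W2 = Q ⊓ L := Submodule.eq_of_le_of_finrank_le hle (by omega)
    obtain ⟨x, hx, hx'⟩ := exists_notMem_of_finrank_lt (U := ⊥)
      (W := (Q ⊓ L : Submodule ℂ V6)) (by simp; omega)
    have hx2 : x ∈ W2 := by rw [← heq] at hx; exact hx.2
    have hx1 : x ∈ W1 := hQL hx
    obtain ⟨y, hy⟩ := hB.smooth x (by intro h0; apply hx'; simp only [h0, zero_mem])
    apply hy
    apply hsup x hx.1 hx1 hx2
    have htop : Q ⊔ L = ⊤ := Submodule.eq_top_of_finrank_eq (by rw [finrank_V6]; omega)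
    rw [htop]; exact Submodule.mem_top
  have h2' : finrank ℂ (Q ⊓ L : Submodule ℂ V6) = 2 := by omega
  have h5 : 5 ≤ finrank ℂ (Q ⊔ L : Submodule ℂ V6) := by omega
  refine ⟨by rw [e1]; exact h2', ?_, ?_⟩
  · intro hc
    have hle : Q ⊓ W2 ≤ Q ⊓ L := inf_le_inf_left _ le_sup_right
    have heq : Q ⊓ W2 = Q ⊓ L := Submodule.eq_of_le_of_finrank_le hle (by omega)
    refine no_line hB (M := Q ⊓ L) (L := Q ⊔ L) (by omega) h5 ?_
    intro x hx y hy
    have hx2 : x ∈ W2 := by rw [← heq] at hx; exact hx.2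
    exact hsup x hx.1 (hQL hx) hx2 y hy
  · intro hc
    have hle : Q ⊓ W3 ≤ Q ⊓ L := inf_le_inf_left _ hle3
    have heq : Q ⊓ W3 = Q ⊓ L := Submodule.eq_of_le_of_finrank_le hle (by omega)
    refine no_line hB (M := Q ⊓ L) (L := Q ⊔ L) (by omega) h5 ?_
    intro x hx y hy
    have hx3 : x ∈ W3 := by rw [← heq] at hx; exact hx.2
    have hL13 : W1 ⊔ W3 = L := by
      apply Submodule.eq_of_le_of_finrank_le (sup_le le_sup_left hle3)
      have := Submodule.finrank_sup_add_finrank_inf_eq W1 W3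
      rw [h13, h1.rk, h3.rk] at this
      show finrank ℂ L ≤ _
      rw [hLr]; omega
    rw [← hL13] at hy
    obtain ⟨q, hq, l, hl, rfl⟩ := Submodule.mem_sup.mp hy
    obtain ⟨a, ha, b, hb, rfl⟩ := Submodule.mem_sup.mp hl
    rw [map_add, map_add, hvan x hx.1 q hq, hv1 x (hQL hx) a ha, hv3 x hx3 b hb]
    simp

/-- vector decomposition of `W` over a hyperplane of it -/
theorem decomp {W M : Submodule ℂ V6} (hle : M ≤ W) (hr : finrank ℂ W = finrank ℂ M + 1)
    {c : V6} (hc : c ∈ W) (hcM : c ∉ M) {x : V6} (hx : x ∈ W) :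
    ∃ m ∈ M, ∃ a : ℂ, x = m + a • c := by
  have hsup : M ⊔ Submodule.span ℂ {c} = W := by
    apply Submodule.eq_of_le_of_finrank_le
    · exact sup_le hle (by rw [Submodule.span_singleton_le_iff_mem]; exact hc)
    · have hlt : M < M ⊔ Submodule.span ℂ {c} := by
        refine lt_of_le_of_ne le_sup_left fun heq => hcM ?_
        rw [heq]
        exact Submodule.mem_sup_right (Submodule.mem_span_singleton_self c)
      have := Submodule.finrank_lt_finrank_of_lt hlt
      omega
  rw [← hsup] at hx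
  obtain ⟨m, hm, e, he, rfl⟩ := Submodule.mem_sup.mp hx
  obtain ⟨a, rfl⟩ := Submodule.mem_span_singleton.mp he
  exact ⟨m, hm, a, rfl⟩

theorem finrank_inf_ker {M : Submodule ℂ V6} {l : V6 →ₗ[ℂ] ℂ} (h : ∃ x ∈ M, l x ≠ 0) :
    finrank ℂ (M ⊓ LinearMap.ker l : Submodule ℂ V6) + 1 = finrank ℂ M := by
  obtain ⟨x, hx, hlx⟩ := h
  have hker : finrank ℂ (LinearMap.ker l) = 5 := by
    have h1 := LinearMap.finrank_range_add_finrank_ker l
    have h2 : LinearMap.range l = ⊤ := by
      apply LinearMap.range_eq_top.mpr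
      intro a
      exact ⟨(a * (l x)⁻¹) • x, by simp [hlx]⟩
    rw [h2, finrank_top, finrank_V6] at h1
    simp at h1
    omega
  have htop : M ⊔ LinearMap.ker l = ⊤ := by
    apply Submodule.eq_top_of_finrank_eq
    have hlt : LinearMap.ker l < M ⊔ LinearMap.ker l := by
      refine lt_of_le_of_ne le_sup_right fun heq => hlx ?_
      have : x ∈ LinearMap.ker l := by rw [heq]; exact Submodule.mem_sup_left hx
      exact this
    have h1 := Submodule.finrank_lt_finrank_of_lt hlt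
    have h2 := finrank_le_six (M ⊔ LinearMap.ker l)
    rw [finrank_V6]; omega
  have hsum := Submodule.finrank_sup_add_finrank_inf_eq M (LinearMap.ker l)
  rw [htop, hker, finrank_top, finrank_V6] at hsum
  omega

theorem exists_third {B : Tri6} (hB : Good B) {W W' : Submodule ℂ V6}
    (h1 : Pl B W) (h2 : Pl B W') (h12 : finrank ℂ (W ⊓ W' : Submodule ℂ V6) = 2) :
    ∃ W'' : Submodule ℂ V6, Pl B W'' ∧ W'' ≤ W ⊔ W' ∧
      finrank ℂ (W ⊓ W'' : Submodule ℂ V6) = 2 ∧ finrank ℂ (W' ⊓ W'' : Submodule ℂ V6) = 2 ∧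
      (∀ Q : Submodule ℂ V6, Iso B Q → Q ⊓ (W ⊔ W') ≤ W ∨ Q ⊓ (W ⊔ W') ≤ W' ∨
        Q ⊓ (W ⊔ W') ≤ W'') := by
  obtain ⟨c, hc, hcM⟩ := exists_notMem_of_finrank_lt (U := W ⊓ W') (W := W)
    (by rw [h12, h1.rk]; omega)
  obtain ⟨c', hc', hcM'⟩ := exists_notMem_of_finrank_lt (U := W ⊓ W') (W := W')
    (by rw [h12, h2.rk]; omega)
  have hcW' : c ∉ W' := fun h => hcM ⟨hc, h⟩
  have hcW : c' ∉ W := fun h => hcM' ⟨h, hc'⟩
  obtain ⟨g0, hg0, hg0'⟩ := Submodule.exists_dual_map_eq_bot_of_notMem hcW' inferInstance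
  obtain ⟨k0, hk0, hk0'⟩ := Submodule.exists_dual_map_eq_bot_of_notMem hcW inferInstance
  set g : V6 →ₗ[ℂ] ℂ := (g0 c)⁻¹ • g0 with hgdef
  set k : V6 →ₗ[ℂ] ℂ := (k0 c')⁻¹ • k0 with hkdef
  have gW' : ∀ x ∈ W', g x = 0 := by
    intro x hx
    have : g0 x ∈ W'.map g0 := Submodule.mem_map_of_mem hx
    rw [hg0', Submodule.mem_bot] at this
    simp [hgdef, this]
  have kW : ∀ x ∈ W, k x = 0 := by
    intro x hx
    have : k0 x ∈ W.map k0 := Submodule.mem_map_of_mem hx
    rw [hk0', Submodule.mem_bot] at this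
    simp [hkdef, this]
  have gc : g c = 1 := by simp [hgdef, hg0]
  have kc : k c' = 1 := by simp [hkdef, hk0]
  -- decomposition of elements of the span
  have hdec : ∀ x ∈ W ⊔ W', ∃ m ∈ W ⊓ W', x = m + g x • c + k x • c' := by
    intro x hx
    obtain ⟨a, ha, b, hb, rfl⟩ := Submodule.mem_sup.mp hx
    obtain ⟨m, hm, s, rfl⟩ := decomp inf_le_left (by rw [h12, h1.rk]) hc hcM ha
    obtain ⟨m', hm', s', rfl⟩ := decomp inf_le_right (by rw [h12, h2.rk]) hc' hcM' hb
    refine ⟨m + m', Submodule.add_mem _ hm hm', ?_⟩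
    have e1 : g (m + s • c + (m' + s' • c')) = s := by
      rw [map_add, map_add, map_add, map_smul, map_smul, gW' m hm.2, gW' m' hm'.2, gW' c' hc', gc]
      simp
    have e2 : k (m + s • c + (m' + s' • c')) = s' := by
      rw [map_add, map_add, map_add, map_smul, map_smul, kW m hm.1, kW m' hm'.1, kW c hc, kc]
      simp
    rw [e1, e2]
    abel
  set l : V6 →ₗ[ℂ] ℂ := (2 : ℂ) • B c c' - B c c c' • g - B c c' c' • k with hl
  -- the cubic on the span
  have hcub : ∀ x ∈ W ⊔ W', B x x x = 3 * (g x * k x * l x) := by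
    intro x hx
    obtain ⟨m, hm, hxm⟩ := hdec x hx
    have e1 : l x = 2 * B c c' m + g x * B c c c' + k x * B c c' c' := by
      have : B c c' x = B c c' m + g x * B c c c' + k x * B c c' c' := by
        conv_lhs => rw [hxm]
        rw [map_add, map_add, map_smul, map_smul, hB.s23 c c' c]
        simp
      rw [hl]
      simp only [LinearMap.sub_apply, LinearMap.smul_apply, smul_eq_mul]
      rw [this]; ring
    have a1 : B m m m = 0 := h1.iso m hm.1 m hm.1 m hm.1
    have a2 : B m m c = 0 := h1.iso m hm.1 m hm.1 c hc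
    have a3 : B m m c' = 0 := h2.iso m hm.2 m hm.2 c' hc'
    have a4 : B m c c = 0 := h1.iso m hm.1 c hc c hc
    have a5 : B m c' c' = 0 := h2.iso m hm.2 c' hc' c' hc'
    have a6 : B c c c = 0 := h1.iso c hc c hc c hc
    have a7 : B c' c' c' = 0 := h2.iso c' hc' c' hc' c' hc'
    have b1 : B m c m = 0 := h1.iso m hm.1 c hc m hm.1
    have b2 : B m c' m = 0 := h2.iso m hm.2 c' hc' m hm.2
    have b3 : B c m m = 0 := h1.iso c hc m hm.1 m hm.1
    have b4 : B c' m m = 0 := h2.iso c' hc' m hm.2 m hm.2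
    have b5 : B c m c = 0 := h1.iso c hc m hm.1 c hc
    have b6 : B c c m = 0 := h1.iso c hc c hc m hm.1
    have b7 : B c' m c' = 0 := h2.iso c' hc' m hm.2 c' hc'
    have b8 : B c' c' m = 0 := h2.iso c' hc' c' hc' m hm.2
    have d1 : B m c c' = B c c' m := by rw [hB.s12, hB.s23]
    have d2 : B m c' c = B c c' m := by rw [hB.s23, d1]
    have d3 : B c m c' = B c c' m := by rw [hB.s23]
    have d4 : B c' m c = B c c' m := by rw [hB.s12, d2]
    have d5 : B c' c m = B c c' m := by rw [hB.s12]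
    have f1 : B c c' c = B c c c' := by rw [hB.s23]
    have f2 : B c' c c = B c c c' := by rw [hB.s12, f1]
    have f3 : B c' c c' = B c c' c' := by rw [hB.s12]
    have f4 : B c' c' c = B c c' c' := by rw [hB.s23, f3]
    rw [e1]
    conv_lhs => rw [hxm]
    simp only [map_add, map_smul, LinearMap.add_apply, LinearMap.smul_apply, smul_eq_mul]
    rw [a1, a2, a3, a4, a5, a6, a7, b1, b2, b3, b4, b5, b6, b7, b8, d1, d2, d3, d4, d5, f1, f2,
      f3, f4]
    ring
  have hlin : ∀ x, l x = 2 * B c c' x - B c c c' * g x - B c c' c' * k x := by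
    intro x
    rw [hl]
    simp only [LinearMap.sub_apply, LinearMap.smul_apply, smul_eq_mul]
  have hWy : ∀ x ∈ W, ∀ y ∈ W ⊔ W', B x x y = g x * l x * k y := by
    intro x hx y hy
    obtain ⟨m, hm, hxm⟩ := hdec x (Submodule.mem_sup_left hx)
    obtain ⟨n, hn, hyn⟩ := hdec y hy
    rw [kW x hx, zero_smul, add_zero] at hxm
    have e0 : B x x y = k y * B x x c' := by
      conv_lhs => rw [hyn]
      rw [map_add, map_add, map_smul, map_smul, h1.iso x hx x hx n hn.1, h1.iso x hx x hx c hc]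
      simp
    have a3 : B m m c' = 0 := h2.iso m hm.2 m hm.2 c' hc'
    have e1 : B x x c' = g x * (2 * B m c c' + g x * B c c c') := by
      conv_lhs => rw [hxm]
      simp only [map_add, map_smul, LinearMap.add_apply, LinearMap.smul_apply, smul_eq_mul]
      rw [a3, hB.s12 c m c']
      ring
    have e2 : B c c' x = B m c c' + g x * B c c c' := by
      conv_lhs => rw [hxm]
      rw [map_add, map_smul, hB.s23 c c' c, hB.s23 c c' m, hB.s12 c m c']
      simp
    rw [e0, e1, hlin x, e2, kW x hx]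
    ring
  have hW'y : ∀ x ∈ W', ∀ y ∈ W ⊔ W', B x x y = k x * l x * g y := by
    intro x hx y hy
    obtain ⟨m, hm, hxm⟩ := hdec x (Submodule.mem_sup_right hx)
    obtain ⟨n, hn, hyn⟩ := hdec y hy
    rw [gW' x hx, zero_smul, add_zero] at hxm
    have e0 : B x x y = g y * B x x c := by
      conv_lhs => rw [hyn]
      rw [map_add, map_add, map_smul, map_smul, h2.iso x hx x hx n hn.2, h2.iso x hx x hx c' hc']
      simp
    have a3 : B m m c = 0 := h1.iso m hm.1 m hm.1 c hc
    have e1 : B x x c = k x * (2 * B m c c' + k x * B c c' c') := by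
      conv_lhs => rw [hxm]
      simp only [map_add, map_smul, LinearMap.add_apply, LinearMap.smul_apply, smul_eq_mul]
      rw [a3, hB.s12 c' m c, hB.s23 m c' c, hB.s23 c' c' c, hB.s12 c' c c']
      ring
    have e2 : B c c' x = B m c c' + k x * B c c' c' := by
      conv_lhs => rw [hxm]
      rw [map_add, map_smul, hB.s23 c c' m, hB.s12 c m c']
      simp
    rw [e0, e1, hlin x, e2, gW' x hx]
    ring
  have hL4 : finrank ℂ (W ⊔ W' : Submodule ℂ V6) = 4 := by
    have := Submodule.finrank_sup_add_finrank_inf_eq W W'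
    rw [h12, h1.rk, h2.rk] at this
    omega
  have nW : ∃ x ∈ W, l x ≠ 0 := by
    by_contra hcon
    push Not at hcon
    exact no_small hB h1.rk hL4.ge fun x hx y hy => by rw [hWy x hx y hy, hcon x hx]; simp
  have nW' : ∃ x ∈ W', l x ≠ 0 := by
    by_contra hcon
    push Not at hcon
    exact no_small hB h2.rk hL4.ge fun x hx y hy => by rw [hW'y x hx y hy, hcon x hx]; simp
  have nL : ∃ x ∈ W ⊔ W', l x ≠ 0 := by
    obtain ⟨x, hx, h⟩ := nW
    exact ⟨x, Submodule.mem_sup_left hx, h⟩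
  have r3 : finrank ℂ ((W ⊔ W') ⊓ LinearMap.ker l : Submodule ℂ V6) = 3 := by
    have := finrank_inf_ker nL
    (clear * - hL4 this; omega)
  refine ⟨(W ⊔ W') ⊓ LinearMap.ker l, ⟨r3, ?_⟩, inf_le_left, ?_, ?_, ?_⟩
  · apply iso_of_diag hB
    intro x hx
    rw [hcub x hx.1, show l x = 0 from hx.2]
    simp
  · rw [← inf_assoc, inf_eq_left.mpr (le_sup_left : W ≤ W ⊔ W')]
    have := finrank_inf_ker nW
    rw [h1.rk] at this
    (clear * - this; omega)
  · rw [← inf_assoc, inf_eq_left.mpr (le_sup_right : W' ≤ W ⊔ W')]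
    have := finrank_inf_ker nW'
    rw [h2.rk] at this
    (clear * - this; omega)
  · intro Q hQ
    by_contra hcon
    push Not at hcon
    obtain ⟨n1, n2, n3⟩ := hcon
    have m1 : ∃ x ∈ Q ⊓ (W ⊔ W'), k x ≠ 0 := by
      by_contra hc1
      push Not at hc1
      apply n1
      intro x hx
      obtain ⟨m, hm, hxm⟩ := hdec x hx.2
      rw [hc1 x hx, zero_smul, add_zero] at hxm
      rw [hxm]
      exact W.add_mem hm.1 (W.smul_mem _ hc)
    have m2 : ∃ x ∈ Q ⊓ (W ⊔ W'), g x ≠ 0 := by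
      by_contra hc1
      push Not at hc1
      apply n2
      intro x hx
      obtain ⟨m, hm, hxm⟩ := hdec x hx.2
      rw [hc1 x hx, zero_smul, add_zero] at hxm
      rw [hxm]
      exact W'.add_mem hm.2 (W'.smul_mem _ hc')
    have m3 : ∃ x ∈ Q ⊓ (W ⊔ W'), l x ≠ 0 := by
      by_contra hc1
      push Not at hc1
      apply n3
      intro x hx
      exact ⟨hx.2, hc1 x hx⟩
    obtain ⟨x, hx, hx3⟩ := Module.Dual.exists_forall_mem_ne_zero_of_forall_exists
      (Q ⊓ (W ⊔ W')) (![g, k, l] : Fin 3 → Module.Dual ℂ V6) (by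
        intro i
        fin_cases i
        · exact m2
        · exact m1
        · exact m3)
    have e1 := hcub x hx.2
    rw [hQ x hx.1 x hx.1 x hx.1] at e1
    have c0 : g x ≠ 0 := hx3 0
    have c1 : k x ≠ 0 := hx3 1
    have c2 : l x ≠ 0 := hx3 2
    exact mul_ne_zero (by norm_num) (mul_ne_zero (mul_ne_zero c0 c1) c2) e1.symm

end Vale.Agent.P287
end
end

section

section

set_option maxSynthPendingDepth 3

namespace Vale.Agent.P287

open Module

/-- the two planes meet in a line -/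
def Adj (W Q : Submodule ℂ V6) : Prop := finrank ℂ (W ⊓ Q : Submodule ℂ V6) = 2

theorem Adj.symm {W Q : Submodule ℂ V6} (h : Adj W Q) : Adj Q W := by
  unfold Adj at *
  rwa [inf_comm]

theorem not_adj_self {B : Tri6} {W : Submodule ℂ V6} (h : Pl B W) : ¬ Adj W W := by
  unfold Adj
  rw [inf_idem, h.rk]
  norm_num

theorem exists_third' {B : Tri6} (hB : Good B)
    (hpair : ∀ W W', Pl B W → Pl B W' → W ⊓ W' ≠ ⊥) {W W' : Submodule ℂ V6}
    (h1 : Pl B W) (h2 : Pl B W') (h12 : Adj W W') :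
    ∃ W'', Pl B W'' ∧ W'' ≠ W ∧ W'' ≠ W' ∧ Adj W W'' ∧ Adj W' W'' ∧
      ∀ Q, Pl B Q → Q ≠ W → Q ≠ W' → Q ≠ W'' →
        (Adj Q W ∧ ¬ Adj Q W' ∧ ¬ Adj Q W'') ∨ (¬ Adj Q W ∧ Adj Q W' ∧ ¬ Adj Q W'') ∨
        (¬ Adj Q W ∧ ¬ Adj Q W' ∧ Adj Q W'') := by
  obtain ⟨W'', h3, hle, h13, h23, hQ⟩ := exists_third hB h1 h2 h12
  have hL : finrank ℂ (W ⊔ W' : Submodule ℂ V6) = 4 := by
    have := Submodule.finrank_sup_add_finrank_inf_eq W W'
    rw [show finrank ℂ (W ⊓ W' : Submodule ℂ V6) = 2 from h12, h1.rk, h2.rk] at this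
    (clear * - this; omega)
  have hL3 : W'' ⊔ W = W ⊔ W' := by
    apply Submodule.eq_of_le_of_finrank_le (sup_le hle le_sup_left)
    have := Submodule.finrank_sup_add_finrank_inf_eq W'' W
    rw [inf_comm W'' W, h13, h3.rk, h1.rk] at this
    omega
  refine ⟨W'', h3, ?_, ?_, h13, h23, ?_⟩
  · rintro rfl
    exact not_adj_self h3 h13
  · rintro rfl
    exact not_adj_self h3 h23
  · intro Q hQp n1 n2 n3
    rcases hQ Q hQp.iso with hc | hc | hc
    · left
      exact adj_case hB h1 h2 h3 hQp h12 h13 hle n1 (hpair _ _ hQp h2) hc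
    · right; left
      have := adj_case hB h2 h1 h3 hQp (by rw [inf_comm]; exact h12) h23
        (by rw [sup_comm]; exact hle) n2 (hpair _ _ hQp h1) (by rw [sup_comm]; exact hc)
      exact ⟨this.2.1, this.1, this.2.2⟩
    · right; right
      have := adj_case hB h3 h1 h2 hQp (by rw [inf_comm]; exact h13)
        (by rw [inf_comm]; exact h23) (by rw [hL3]; exact le_sup_right) n3
        (hpair _ _ hQp h1) (by rw [hL3]; exact hc)
      exact ⟨this.2.1, this.2.2, this.1⟩

/-- planes that are neither equal nor adjacent nor disjoint meet in a point -/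
theorem meet_point {B : Tri6} (hpair : ∀ W W', Pl B W → Pl B W' → W ⊓ W' ≠ ⊥)
    {W W' : Submodule ℂ V6} (h1 : Pl B W) (h2 : Pl B W') (hne : W ≠ W') (hna : ¬ Adj W W') :
    finrank ℂ (W ⊓ W' : Submodule ℂ V6) = 1 := by
  have hpos : finrank ℂ (W ⊓ W' : Submodule ℂ V6) ≠ 0 := fun h =>
    hpair _ _ h1 h2 (Submodule.finrank_eq_zero.mp h)
  have hle : finrank ℂ (W ⊓ W' : Submodule ℂ V6) ≤ 3 := by
    have := Submodule.finrank_mono (inf_le_left : W ⊓ W' ≤ W)
    rw [h1.rk] at this; exact this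
  have hne3 : finrank ℂ (W ⊓ W' : Submodule ℂ V6) ≠ 3 := by
    intro h3
    apply hne
    have e1 : W ⊓ W' = W := Submodule.eq_of_le_of_finrank_le inf_le_left (by rw [h1.rk, h3])
    have e2 : W ⊓ W' = W' := Submodule.eq_of_le_of_finrank_le inf_le_right (by rw [h2.rk, h3])
    rw [← e1, e2]
  have : finrank ℂ (W ⊓ W' : Submodule ℂ V6) ≠ 2 := hna
  omega

end Vale.Agent.P287
end
end

section

section

set_option maxSynthPendingDepth 3

namespace Vale.Agent.P287

open Module

abbrev E3 : Type := Fin 3 → ℂ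

theorem exists_zero_cubic (a b c d : ℂ) :
    ∃ s t : ℂ, (s ≠ 0 ∨ t ≠ 0) ∧
      a * s ^ 3 + b * (s ^ 2 * t) + c * (s * t ^ 2) + d * t ^ 3 = 0 := by
  by_cases ha : a = 0
  · exact ⟨1, 0, Or.inl one_ne_zero, by simp [ha]⟩
  · set p : Polynomial ℂ := Polynomial.C a * Polynomial.X ^ 3 + Polynomial.C b * Polynomial.X ^ 2 +
      Polynomial.C c * Polynomial.X + Polynomial.C d with hp
    have hdeg : p.degree = 3 := Polynomial.degree_cubic ha
    obtain ⟨x, hx⟩ := IsAlgClosed.exists_root p (by rw [hdeg]; norm_num)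
    refine ⟨x, 1, Or.inr one_ne_zero, ?_⟩
    have : p.eval x = 0 := hx
    simp only [hp, Polynomial.eval_add, Polynomial.eval_mul, Polynomial.eval_C,
      Polynomial.eval_pow, Polynomial.eval_X] at this
    linear_combination this

/-- the Hankel lemma -/
theorem hankel (u0 u1 u2 u3 : ℂ) (hu : u0 ≠ 0 ∨ u1 ≠ 0 ∨ u2 ≠ 0 ∨ u3 ≠ 0) :
    ∃ s t : ℂ, (s ≠ 0 ∨ t ≠ 0) ∧ ∀ α β γ : ℂ, α * u0 + β * u1 + γ * u2 = 0 →
      α * u1 + β * u2 + γ * u3 = 0 → α * s ^ 2 + β * (s * t) + γ * t ^ 2 = 0 := by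
  set q0 := u1 * u3 - u2 ^ 2 with hq0
  set q1 := u1 * u2 - u0 * u3 with hq1
  set q2 := u0 * u2 - u1 ^ 2 with hq2
  by_cases hq : q0 = 0 ∧ q1 = 0 ∧ q2 = 0
  · obtain ⟨h0, h1, h2⟩ := hq
    by_cases hu0 : u0 = 0
    · have hu1 : u1 = 0 := by
        rw [hu0] at hq2
        have : u1 ^ 2 = 0 := by linear_combination hq2 - h2
        exact pow_eq_zero_iff (by norm_num) |>.mp this
      have hu2 : u2 = 0 := by
        rw [hu1] at hq0
        have : u2 ^ 2 = 0 := by linear_combination hq0 - h0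
        exact pow_eq_zero_iff (by norm_num) |>.mp this
      have hu3 : u3 ≠ 0 := by
        rcases hu with h | h | h | h
        · exact absurd hu0 h
        · exact absurd hu1 h
        · exact absurd hu2 h
        · exact h
      refine ⟨0, 1, Or.inr one_ne_zero, ?_⟩
      intro α β γ e1 e2
      rw [hu1, hu2] at e2
      have : γ = 0 := by
        have : γ * u3 = 0 := by linear_combination e2
        exact (mul_eq_zero.mp this).resolve_right hu3
      rw [this]; ring
    · refine ⟨u0, u1, Or.inl hu0, ?_⟩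
      intro α β γ e1 e2
      have h2' : u1 ^ 2 = u0 * u2 := by linear_combination hq2 - h2
      linear_combination u0 * e1 + γ * h2'
  · obtain ⟨s, t, hst, he⟩ := exists_zero_pair q0 q1 q2
    refine ⟨s, t, hst, ?_⟩
    intro α β γ e1 e2
    -- (α, β, γ) is proportional to (q0, q1, q2)
    have c1 : α * q1 = β * q0 := by
      rw [hq0, hq1]; linear_combination u2 * e2 - u3 * e1
    have c2 : α * q2 = γ * q0 := by
      rw [hq0, hq2]; linear_combination u2 * e1 - u1 * e2
    have c3 : β * q2 = γ * q1 := by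
      rw [hq1, hq2]; linear_combination u0 * e2 - u1 * e1
    by_cases h0 : q0 = 0
    · by_cases h1 : q1 = 0
      · have h2 : q2 ≠ 0 := fun h2 => hq ⟨h0, h1, h2⟩
        have a0 : α = 0 := by
          have : α * q2 = 0 := by rw [c2, h0]; ring
          exact (mul_eq_zero.mp this).resolve_right h2
        have b0 : β = 0 := by
          have : β * q2 = 0 := by rw [c3, h1]; ring
          exact (mul_eq_zero.mp this).resolve_right h2
        have t0 : t ^ 2 = 0 := by
          have : q2 * t ^ 2 = 0 := by rw [h0, h1] at he; linear_combination he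
          exact (mul_eq_zero.mp this).resolve_left h2
        rw [a0, b0, t0]; ring
      · have : q1 * (α * s ^ 2 + β * (s * t) + γ * t ^ 2) = 0 := by
          linear_combination s ^ 2 * c1 - t ^ 2 * c3 + β * he
        exact (mul_eq_zero.mp this).resolve_left h1
    · have : q0 * (α * s ^ 2 + β * (s * t) + γ * t ^ 2) = 0 := by
        linear_combination -(s * t) * c1 - t ^ 2 * c2 + α * he
      exact (mul_eq_zero.mp this).resolve_left h0

theorem prod_zero {V : Type*} [AddCommGroup V] [Module ℂ V] {H : Submodule ℂ V}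
    (A : V →ₗ[ℂ] ℂ) (q : V → ℂ)
    (hq : ∀ y v, ∃ a b : ℂ, ∀ t : ℂ, q (y + t • v) = q y + t * a + t ^ 2 * b)
    (h : ∀ y ∈ H, A y * q y = 0) (hA : ∃ v ∈ H, A v ≠ 0) : ∀ y ∈ H, q y = 0 := by
  intro y hy
  obtain ⟨v, hv, hAv⟩ := hA
  by_cases hAy : A y = 0
  · obtain ⟨a, b, hab⟩ := hq y v
    have key : ∀ t : ℂ, t ≠ 0 → q y + t * a + t ^ 2 * b = 0 := by
      intro t ht
      rw [← hab t]
      have h1 := h (y + t • v) (H.add_mem hy (H.smul_mem t hv))
      rw [map_add, map_smul, hAy, zero_add, smul_eq_mul] at h1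
      exact (mul_eq_zero.mp h1).resolve_left (mul_ne_zero ht hAv)
    have k1 := key 1 one_ne_zero
    have k2 := key (-1) (by norm_num)
    have k3 := key 2 (by norm_num)
    linear_combination k1 + (1 / 3) * k2 - (1 / 3) * k3
  · exact (mul_eq_zero.mp (h y hy)).resolve_left hAy

theorem quad_line {V : Type*} [AddCommGroup V] [Module ℂ V] (G : V →ₗ[ℂ] V →ₗ[ℂ] ℂ)
    (y v : V) : ∃ a b : ℂ, ∀ t : ℂ, G (y + t • v) (y + t • v) = G y y + t * a + t ^ 2 * b :=
  ⟨G y v + G v y, G v v, fun t => by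
    simp only [map_add, map_smul, LinearMap.add_apply, LinearMap.smul_apply, smul_eq_mul]
    ring⟩

theorem finrank_E3 : finrank ℂ E3 = 3 := by simp

/-- no relation `A g0 = C g1` -/
theorem no_syz {G0 G1 G2 : E3 →ₗ[ℂ] E3 →ₗ[ℂ] ℂ} (s0 : ∀ x y, G0 x y = G0 y x)
    (s1 : ∀ x y, G1 x y = G1 y x) (s2 : ∀ x y, G2 x y = G2 y x)
    (hG : ∀ y, G0 y y = 0 → G1 y y = 0 → G2 y y = 0 → y = 0)
    {A C : E3 →ₗ[ℂ] ℂ} (h : ∀ y, A y * G0 y y = C y * G1 y y) : A = 0 ∧ C = 0 := by
  have top3 : finrank ℂ (⊤ : Submodule ℂ E3) = 3 := by rw [finrank_top, finrank_E3]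
  -- C times g1 zero implies C zero
  have one : ∀ (H0 H1 : E3 →ₗ[ℂ] E3 →ₗ[ℂ] ℂ), (∀ x y, H0 x y = H0 y x) →
      (∀ y, H0 y y = 0 → H1 y y = 0 → G2 y y = 0 → y = 0) →
      ∀ D : E3 →ₗ[ℂ] ℂ, (∀ y, D y * H1 y y = 0) → D = 0 := by
    intro H0 H1 t0 hH D hD
    by_contra hne
    have hex : ∃ v ∈ (⊤ : Submodule ℂ E3), D v ≠ 0 := by
      by_contra hcon
      push Not at hcon
      exact hne (LinearMap.ext fun v => hcon v Submodule.mem_top)
    have hz := prod_zero (H := ⊤) D (fun y => H1 y y) (fun y v => quad_line H1 y v)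
      (fun y _ => hD y) hex
    obtain ⟨x, _, hx0, e0, e2⟩ := exists_common_zero top3 H0 G2 t0 s2
    exact hx0 (hH x e0 (hz x Submodule.mem_top) e2)
  by_cases hA : A = 0
  · refine ⟨hA, one G0 G1 s0 hG C fun y => ?_⟩
    rw [← h y, hA]; simp
  exfalso
  have hexA : ∃ v, A v ≠ 0 := by
    by_contra hcon
    push Not at hcon
    exact hA (LinearMap.ext fun v => hcon v)
  obtain ⟨v, hv⟩ := hexA
  by_cases hC : ∀ y, A y = 0 → C y = 0
  · -- C is a multiple of A
    have hCA : ∀ y, C y = (C v / A v) * A y := by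
      intro y
      have := hC (y - (A y / A v) • v) (by simp only [map_sub, map_smul, smul_eq_mul, isUnit_iff_ne_zero, ne_eq, hv, not_false_eq_true, IsUnit.div_mul_cancel, sub_self])
      rw [map_sub, map_smul, smul_eq_mul, sub_eq_zero] at this
      rw [this]; field_simp
    have hz := prod_zero (H := (⊤ : Submodule ℂ E3)) A
      (fun y => (G0 - (C v / A v) • G1) y y)
      (fun y v => quad_line _ y v)
      (fun y _ => by
        simp only [LinearMap.sub_apply, LinearMap.smul_apply, smul_eq_mul]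
        have := h y
        rw [hCA y] at this
        linear_combination this) ⟨v, Submodule.mem_top, hv⟩
    obtain ⟨x, _, hx0, e1, e2⟩ := exists_common_zero top3 G1 G2 s1 s2
    have e0 := hz x Submodule.mem_top
    simp only [LinearMap.sub_apply, LinearMap.smul_apply, smul_eq_mul, e1, mul_zero,
      sub_zero] at e0
    exact hx0 (hG x e0 e1 e2)
  · push Not at hC
    obtain ⟨w, hAw, hCw⟩ := hC
    -- g1 vanishes on A = 0
    have hz := prod_zero (H := LinearMap.ker A) C (fun y => G1 y y) (fun y v => quad_line G1 y v)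
      (fun y hy => by
        have h1 := h y
        rw [show A y = 0 from hy, zero_mul] at h1
        exact h1.symm) ⟨w, hAw, hCw⟩
    set v' := (A v)⁻¹ • v with hv'
    have hAv' : A v' = 1 := by simp [hv', hv]
    set m : E3 →ₗ[ℂ] ℂ := (2 : ℂ) • G1.flip v' - (G1 v' v') • A with hm
    have hg1 : ∀ y, G1 y y = A y * m y := by
      intro y
      have h0 := hz (y - A y • v') (by
        show A (y - A y • v') = 0
        rw [map_sub, map_smul, hAv']; simp)
      simp only [map_sub, map_smul, LinearMap.sub_apply, LinearMap.smul_apply, smul_eq_mul] at h0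
      simp only [hm, LinearMap.sub_apply, LinearMap.smul_apply, LinearMap.flip_apply, smul_eq_mul]
      have := s1 v' y
      linear_combination h0 + A y * this
    have hg0 := prod_zero (H := (⊤ : Submodule ℂ E3)) A (fun y => G0 y y - C y * m y)
      (fun y v => by
        obtain ⟨a, b, hab⟩ := quad_line G0 y v
        refine ⟨a - (C y * m v + C v * m y), b - C v * m v, fun t => ?_⟩
        rw [hab t]
        simp only [map_add, map_smul, smul_eq_mul]
        ring)
      (fun y _ => by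
        have := h y
        rw [hg1 y] at this
        linear_combination this) ⟨v, Submodule.mem_top, hv⟩
    have hker : 2 ≤ finrank ℂ (LinearMap.ker m) := by
      have h1 := LinearMap.finrank_range_add_finrank_ker m
      have h2 := Submodule.finrank_le (LinearMap.range m)
      rw [finrank_E3] at h1
      simp only [finrank_self] at h2
      omega
    obtain ⟨x, hx, hx0, e2⟩ := exists_zero_of_two hker G2
    have hmx : m x = 0 := hx
    have e1 : G1 x x = 0 := by rw [hg1 x, hmx, mul_zero]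
    have e0 : G0 x x = 0 := by
      have := hg0 x Submodule.mem_top
      rw [hmx, mul_zero, sub_zero] at this
      exact this
    exact hx0 (hG x e0 e1 e2)

end Vale.Agent.P287
end
end

section

section

set_option maxSynthPendingDepth 3

namespace Vale.Agent.P287

open Module

theorem lin_vec (l : E3 →ₗ[ℂ] ℂ) (s t z : ℂ) :
    l ![s, t, z] = s * l ![1, 0, 0] + t * l ![0, 1, 0] + z * l ![0, 0, 1] := by
  have : (![s, t, z] : E3) = s • ![1, 0, 0] + t • ![0, 1, 0] + z • ![0, 0, 1] := by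
    ext i; fin_cases i <;> simp
  rw [this, map_add, map_add, map_smul, map_smul, map_smul]
  simp only [smul_eq_mul]

theorem caseB {G0 G1 G2 : E3 →ₗ[ℂ] E3 →ₗ[ℂ] ℂ} (s0 : ∀ x y, G0 x y = G0 y x)
    (s1 : ∀ x y, G1 x y = G1 y x) (s2 : ∀ x y, G2 x y = G2 y x)
    (hG : ∀ y, G0 y y = 0 → G1 y y = 0 → G2 y y = 0 → y = 0)
    (R00 R01 R10 R11 : E3 →ₗ[ℂ] ℂ)
    (h0 : ∀ y, G0 y y = y 0 * R00 y + y 1 * R10 y)
    (h1 : ∀ y, G1 y y = y 0 * R01 y + y 1 * R11 y) (α β γ : ℂ)
    (hD : ∀ y, R00 y * R11 y - R01 y * R10 y = α * G0 y y + β * G1 y y + γ * G2 y y) :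
    False := by
  have top3 : finrank ℂ (⊤ : Submodule ℂ E3) = 3 := by rw [finrank_top, finrank_E3]
  by_cases hγ : γ = 0
  · set y0 : E3 →ₗ[ℂ] ℂ := LinearMap.proj 0 with hy0
    set y1 : E3 →ₗ[ℂ] ℂ := LinearMap.proj 1 with hy1
    have e0 : ∀ y : E3, y0 y = y 0 := fun y => rfl
    have e1 : ∀ y : E3, y1 y = y 1 := fun y => rfl
    have k1 := no_syz s0 s1 s2 hG (A := R11 - α • y0) (C := R10 + β • y0) (by
      intro y
      simp only [LinearMap.sub_apply, LinearMap.add_apply, LinearMap.smul_apply, smul_eq_mul, e0]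
      have a := hD y
      rw [hγ] at a
      have b0 := h0 y
      have b1 := h1 y
      linear_combination R11 y * b0 - R10 y * b1 + y 0 * a)
    have k2 := no_syz s0 s1 s2 hG (A := R01 + α • y1) (C := R00 - β • y1) (by
      intro y
      simp only [LinearMap.sub_apply, LinearMap.add_apply, LinearMap.smul_apply, smul_eq_mul, e1]
      have a := hD y
      rw [hγ] at a
      have b0 := h0 y
      have b1 := h1 y
      linear_combination R01 y * b0 - R00 y * b1 - y 1 * a)
    have z0 : ∀ y, G0 y y = 0 := by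
      intro y
      have c1 := congrArg (fun l : E3 →ₗ[ℂ] ℂ => l y) k1.2
      have c2 := congrArg (fun l : E3 →ₗ[ℂ] ℂ => l y) k2.2
      simp only [LinearMap.sub_apply, LinearMap.add_apply, LinearMap.smul_apply, smul_eq_mul,
        e0, e1, LinearMap.zero_apply] at c1 c2
      rw [h0 y]
      linear_combination y 0 * c2 + y 1 * c1
    obtain ⟨x, _, hx0, b1, b2⟩ := exists_common_zero top3 G1 G2 s1 s2
    exact hx0 (hG x (z0 x) b1 b2)
  · set e : E3 := ![0, 0, 1] with he
    have he0 : e ≠ 0 := by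
      intro h
      have := congrFun h 2
      simp [he] at this
    have g0e : G0 e e = 0 := by rw [h0 e]; simp [he]
    have g1e : G1 e e = 0 := by rw [h1 e]; simp [he]
    have g2e : G2 e e ≠ 0 := fun h => he0 (hG e g0e g1e h)
    set a00 := R00 e
    set a01 := R01 e
    set a10 := R10 e
    set a11 := R11 e
    have hdet : a00 * a11 - a01 * a10 ≠ 0 := by
      rw [hD e, g0e, g1e]
      simp only [mul_zero, zero_add]
      exact mul_ne_zero hγ g2e
    set b00 := R00 ![1, 0, 0]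
    set b01 := R01 ![1, 0, 0]
    set b10 := R10 ![1, 0, 0]
    set b11 := R11 ![1, 0, 0]
    set c00 := R00 ![0, 1, 0]
    set c01 := R01 ![0, 1, 0]
    set c10 := R10 ![0, 1, 0]
    set c11 := R11 ![0, 1, 0]
    obtain ⟨s, t, hst, hc⟩ := exists_zero_cubic (a00 * b01 - a01 * b00)
      (a00 * (c01 + b11) + a10 * b01 - a01 * (c00 + b10) - a11 * b00)
      (a00 * c11 + a10 * (c01 + b11) - a01 * c10 - a11 * (c00 + b10))
      (a10 * c11 - a11 * c10)
    set A0 := s * a00 + t * a10 with hA0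
    set A1 := s * a01 + t * a11 with hA1
    set Q0 := s * (s * b00 + t * c00) + t * (s * b10 + t * c10) with hQ0
    set Q1 := s * (s * b01 + t * c01) + t * (s * b11 + t * c11) with hQ1
    have hcub : A0 * Q1 - A1 * Q0 = 0 := by
      rw [hA0, hA1, hQ0, hQ1]; linear_combination hc
    have hz : ∃ z : ℂ, z * A0 + Q0 = 0 ∧ z * A1 + Q1 = 0 := by
      by_cases hA : A0 = 0
      · have hA1' : A1 ≠ 0 := by
          intro hA'
          have d1 : s * (a00 * a11 - a01 * a10) = 0 := by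
            linear_combination a11 * (hA0.symm.trans hA) - a10 * (hA1.symm.trans hA')
          have d2 : t * (a00 * a11 - a01 * a10) = 0 := by
            linear_combination -a01 * (hA0.symm.trans hA) + a00 * (hA1.symm.trans hA')
          rcases hst with h | h
          · exact h ((mul_eq_zero.mp d1).resolve_right hdet)
          · exact h ((mul_eq_zero.mp d2).resolve_right hdet)
        refine ⟨-(Q1 / A1), ?_, by field_simp; ring⟩
        have : A1 * Q0 = 0 := by rw [hA] at hcub; linear_combination -hcub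
        rw [hA, mul_zero, zero_add]
        exact (mul_eq_zero.mp this).resolve_left hA1'
      · refine ⟨-(Q0 / A0), by field_simp; ring, ?_⟩
        have : A0 * (-(Q0 / A0) * A1 + Q1) = 0 := by
          field_simp
          linear_combination hcub
        exact (mul_eq_zero.mp this).resolve_left hA
    obtain ⟨z, hz0, hz1⟩ := hz
    set y : E3 := ![s, t, z] with hy
    have ey0 : y 0 = s := rfl
    have ey1 : y 1 = t := rfl
    have f0 : s * R00 y + t * R10 y = 0 := by
      rw [hy, lin_vec R00, lin_vec R10]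
      linear_combination hz0
    have f1 : s * R01 y + t * R11 y = 0 := by
      rw [hy, lin_vec R01, lin_vec R11]
      linear_combination hz1
    have g0y : G0 y y = 0 := by rw [h0 y, ey0, ey1]; exact f0
    have g1y : G1 y y = 0 := by rw [h1 y, ey0, ey1]; exact f1
    have hΔ : R00 y * R11 y - R01 y * R10 y = 0 := by
      rcases hst with h | h
      · have : s * (R00 y * R11 y - R01 y * R10 y) = 0 := by
          linear_combination R11 y * f0 - R10 y * f1
        exact (mul_eq_zero.mp this).resolve_left h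
      · have : t * (R00 y * R11 y - R01 y * R10 y) = 0 := by
          linear_combination -R01 y * f0 + R00 y * f1
        exact (mul_eq_zero.mp this).resolve_left h
    have g2y : G2 y y = 0 := by
      have := hD y
      rw [hΔ, g0y, g1y] at this
      have : γ * G2 y y = 0 := by linear_combination -this
      exact (mul_eq_zero.mp this).resolve_left hγ
    have hy0 := hG y g0y g1y g2y
    rcases hst with h | h
    · exact h (by rw [← ey0, hy0]; rfl)
    · exact h (by rw [← ey1, hy0]; rfl)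

/-- nondegeneracy of functionals killing the degree three part of the ideal -/
theorem nondeg {G : Fin 3 → (E3 →ₗ[ℂ] E3 →ₗ[ℂ] ℂ)} (hs : ∀ a x y, G a x y = G a y x)
    (hG : ∀ y, (∀ a, G a y y = 0) → y = 0) (φ : (E3 → ℂ) →ₗ[ℂ] ℂ)
    (hφ : ∃ l m n : E3 →ₗ[ℂ] ℂ, φ (fun y => l y * m y * n y) ≠ 0)
    (hK : ∀ (l : E3 →ₗ[ℂ] ℂ) a, φ (fun y => l y * G a y y) = 0)
    (l0 : E3 →ₗ[ℂ] ℂ) (hl0 : l0 ≠ 0)
    (hz : ∀ m n : E3 →ₗ[ℂ] ℂ, φ (fun y => l0 y * m y * n y) = 0) : False := by
  obtain ⟨v, hv⟩ : ∃ v, l0 v ≠ 0 := by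
    by_contra hcon
    push Not at hcon
    exact hl0 (LinearMap.ext fun v => hcon v)
  set v2 : E3 := (l0 v)⁻¹ • v with hv2
  have hl2 : l0 v2 = 1 := by simp [hv2, hv]
  have hker : finrank ℂ (LinearMap.ker l0) = 2 := by
    have h1 := LinearMap.finrank_range_add_finrank_ker l0
    have h2 : LinearMap.range l0 = ⊤ := by
      apply LinearMap.range_eq_top.mpr
      intro a
      exact ⟨a • v2, by simp [hl2]⟩
    rw [h2, finrank_top, finrank_E3] at h1
    simp at h1
    omega
  set bk := Module.finBasisOfFinrankEq ℂ (LinearMap.ker l0) hker with hbk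
  set pr : E3 →ₗ[ℂ] LinearMap.ker l0 := LinearMap.codRestrict (LinearMap.ker l0)
    (LinearMap.id - l0.smulRight v2) (by
      intro x
      show l0 (x - l0 x • v2) = 0
      rw [map_sub, map_smul, hl2]; simp) with hpr
  set m0 : E3 →ₗ[ℂ] ℂ := (bk.coord 0).comp pr with hm0
  set m1 : E3 →ₗ[ℂ] ℂ := (bk.coord 1).comp pr with hm1
  set v0 : E3 := ((bk 0 : LinearMap.ker l0) : E3) with hv0
  set v1 : E3 := ((bk 1 : LinearMap.ker l0) : E3) with hv1
  have hx : ∀ x : E3, x = m0 x • v0 + m1 x • v1 + l0 x • v2 := by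
    intro x
    have h1 := bk.sum_repr (pr x)
    rw [Fin.sum_univ_two] at h1
    have h2 := congrArg (fun z : LinearMap.ker l0 => (z : E3)) h1
    simp only [Submodule.coe_add, Submodule.coe_smul] at h2
    have h3 : ((pr x : LinearMap.ker l0) : E3) = x - l0 x • v2 := rfl
    rw [h3] at h2
    have h4 : m0 x = (bk.repr (pr x)) 0 := rfl
    have h5 : m1 x = (bk.repr (pr x)) 1 := rfl
    rw [h4, h5, h2]
    abel
  set f0 : E3 → ℂ := fun y => m0 y * m0 y * m0 y with hf0
  set f1 : E3 → ℂ := fun y => m0 y * m0 y * m1 y with hf1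
  set f2 : E3 → ℂ := fun y => m0 y * m1 y * m1 y with hf2
  set f3 : E3 → ℂ := fun y => m1 y * m1 y * m1 y with hf3
  have hu : φ f0 ≠ 0 ∨ φ f1 ≠ 0 ∨ φ f2 ≠ 0 ∨ φ f3 ≠ 0 := by
    by_contra hcon
    push Not at hcon
    obtain ⟨z0, z1, z2, z3⟩ := hcon
    obtain ⟨l, m, n, hlmn⟩ := hφ
    apply hlmn
    have el : ∀ k : E3 →ₗ[ℂ] ℂ, ∀ y, k y = k v0 * m0 y + k v1 * m1 y + k v2 * l0 y := by
      intro k y
      conv_lhs => rw [hx y]
      simp only [map_add, map_smul, smul_eq_mul]
      ring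
    set l' : E3 →ₗ[ℂ] ℂ := l v0 • m0 + l v1 • m1 with hl'
    set m' : E3 →ₗ[ℂ] ℂ := m v0 • m0 + m v1 • m1 with hm'
    have e : (fun y => l y * m y * n y) =
        (l v0 * m v0 * n v0) • f0 +
        (l v0 * m v0 * n v1 + l v0 * m v1 * n v0 + l v1 * m v0 * n v0) • f1 +
        (l v0 * m v1 * n v1 + l v1 * m v0 * n v1 + l v1 * m v1 * n v0) • f2 +
        (l v1 * m v1 * n v1) • f3 +
        (fun y => l0 y * (l v2 • m) y * n y) + (fun y => l0 y * (m v2 • l') y * n y) +
        (fun y => l0 y * (n v2 • l') y * m' y) := by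
      funext y
      simp only [Pi.add_apply, Pi.smul_apply, smul_eq_mul, LinearMap.smul_apply,
        LinearMap.add_apply, hl', hm', hf0, hf1, hf2, hf3]
      rw [el l y, el m y, el n y]
      ring
    rw [e]
    simp only [map_add, map_smul, z0, z1, z2, z3, hz, smul_zero, add_zero]
  obtain ⟨s, t, hst, hh⟩ := hankel _ _ _ _ hu
  have hGx : ∀ a y, G a y y = m0 y * m0 y * G a v0 v0 + 2 * (m0 y * m1 y) * G a v0 v1 +
      m1 y * m1 y * G a v1 v1 + l0 y * (2 * m0 y * G a v0 v2 + 2 * m1 y * G a v1 v2 +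
      l0 y * G a v2 v2) := by
    intro a y
    conv_lhs => rw [hx y]
    simp only [map_add, map_smul, LinearMap.add_apply, LinearMap.smul_apply, smul_eq_mul]
    rw [hs a v1 v0, hs a v2 v0, hs a v2 v1]
    ring
  have hzero : ∀ a, G a (s • v0 + t • v1) (s • v0 + t • v1) = 0 := by
    intro a
    set n : E3 →ₗ[ℂ] ℂ := (2 * G a v0 v2) • m0 + (2 * G a v1 v2) • m1 + G a v2 v2 • l0 with hn
    have e0 := hK m0 a
    have e1 := hK m1 a
    have x0 : (fun y => m0 y * G a y y) = G a v0 v0 • f0 + (2 * G a v0 v1) • f1 +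
        G a v1 v1 • f2 + (fun y => l0 y * m0 y * n y) := by
      funext y
      simp only [Pi.add_apply, Pi.smul_apply, smul_eq_mul, hf0, hf1, hf2, hn, LinearMap.add_apply,
        LinearMap.smul_apply]
      rw [hGx a y]; ring
    have x1 : (fun y => m1 y * G a y y) = G a v0 v0 • f1 + (2 * G a v0 v1) • f2 +
        G a v1 v1 • f3 + (fun y => l0 y * m1 y * n y) := by
      funext y
      simp only [Pi.add_apply, Pi.smul_apply, smul_eq_mul, hf1, hf2, hf3, hn, LinearMap.add_apply,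
        LinearMap.smul_apply]
      rw [hGx a y]; ring
    rw [x0] at e0
    rw [x1] at e1
    simp only [map_add, map_smul, hz, smul_eq_mul, add_zero] at e0 e1
    have := hh _ _ _ e0 e1
    simp only [map_add, map_smul, LinearMap.add_apply, LinearMap.smul_apply, smul_eq_mul]
    rw [hs a v1 v0]
    linear_combination this
  have hv0' := hG _ hzero
  have hind := Fintype.linearIndependent_iff.mp bk.linearIndependent ![s, t] (by
    rw [Fin.sum_univ_two]
    apply Subtype.ext
    simpa only [Fin.isValue, Matrix.cons_val_zero, Matrix.cons_val_one, Matrix.cons_val_fin_one,     Submodule.coe_add, SetLike.val_smul, ZeroMemClass.coe_zero] using hv0')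
  rcases hst with h | h
  · exact h (hind 0)
  · exact h (hind 1)

end Vale.Agent.P287
end
end

section

section

set_option maxSynthPendingDepth 3

namespace Vale.Agent.P287

open Module

theorem lin_coord (l : E3 →ₗ[ℂ] ℂ) (y : E3) :
    l y = y 0 * l ![1, 0, 0] + y 1 * l ![0, 1, 0] + y 2 * l ![0, 0, 1] := by
  conv_lhs => rw [show y = ![y 0, y 1, y 2] from by ext i; fin_cases i <;> rfl]
  exact lin_vec l _ _ _

/-- cubic monomials -/
def mon3 : Fin 10 → (E3 → ℂ) :=
  ![fun y => y 0 * y 0 * y 0, fun y => y 0 * y 0 * y 1, fun y => y 0 * y 1 * y 1,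
    fun y => y 1 * y 1 * y 1, fun y => y 0 * y 0 * y 2, fun y => y 0 * y 1 * y 2,
    fun y => y 1 * y 1 * y 2, fun y => y 0 * y 2 * y 2, fun y => y 1 * y 2 * y 2,
    fun y => y 2 * y 2 * y 2]

theorem mon3_indep : LinearIndependent ℂ mon3 := by
  rw [Fintype.linearIndependent_iff]
  intro c hc
  have h : ∀ t : ℂ, c 0 + c 1 * t + c 2 * t ^ 2 + c 3 * t ^ 3 + c 4 * t ^ 4 + c 5 * t ^ 5 +
      c 6 * t ^ 6 + c 7 * t ^ 8 + c 8 * t ^ 9 + c 9 * t ^ 12 = 0 := by
    intro t
    have := congrFun hc ![1, t, t ^ 4]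
    simp only [Fin.sum_univ_succ, mon3, Pi.add_apply, Pi.smul_apply, smul_eq_mul, Pi.zero_apply,
      Finset.univ_eq_empty, Finset.sum_empty] at this
    simp only [Fin.isValue, Matrix.cons_val', Matrix.cons_val_zero, mul_one, Matrix.cons_val_one, one_mul, Matrix.cons_val, Matrix.cons_val_fin_one, Fin.succ_zero_eq_one, Fin.succ_one_eq_two, Fin.reduceSucc, add_zero] at this
    linear_combination this
  set p : Polynomial ℂ := Polynomial.C (c 0) + Polynomial.C (c 1) * Polynomial.X +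
    Polynomial.C (c 2) * Polynomial.X ^ 2 + Polynomial.C (c 3) * Polynomial.X ^ 3 +
    Polynomial.C (c 4) * Polynomial.X ^ 4 + Polynomial.C (c 5) * Polynomial.X ^ 5 +
    Polynomial.C (c 6) * Polynomial.X ^ 6 + Polynomial.C (c 7) * Polynomial.X ^ 8 +
    Polynomial.C (c 8) * Polynomial.X ^ 9 + Polynomial.C (c 9) * Polynomial.X ^ 12 with hp
  have hp0 : p = 0 := by
    apply Polynomial.funext
    intro t
    simp only [hp, Polynomial.eval_add, Polynomial.eval_mul, Polynomial.eval_C,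
      Polynomial.eval_pow, Polynomial.eval_X, Polynomial.eval_zero]
    exact h t
  have hcoef : ∀ k, p.coeff k = 0 := fun k => by rw [hp0, Polynomial.coeff_zero]
  have k0 := hcoef 0
  have k1 := hcoef 1
  have k2 := hcoef 2
  have k3 := hcoef 3
  have k4 := hcoef 4
  have k5 := hcoef 5
  have k6 := hcoef 6
  have k8 := hcoef 8
  have k9 := hcoef 9
  have k12 := hcoef 12
  simp only [hp, Polynomial.coeff_add, Polynomial.coeff_C_mul, Polynomial.coeff_X_pow,
    Polynomial.coeff_C, Polynomial.coeff_X] at k0 k1 k2 k3 k4 k5 k6 k8 k9 k12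
  norm_num at k0 k1 k2 k3 k4 k5 k6 k8 k9 k12
  intro i
  fin_cases i <;> assumption

theorem exists_functional (G : Fin 3 → (E3 →ₗ[ℂ] E3 →ₗ[ℂ] ℂ)) :
    ∃ φ : (E3 → ℂ) →ₗ[ℂ] ℂ,
      (∃ l m n : E3 →ₗ[ℂ] ℂ, φ (fun y => l y * m y * n y) ≠ 0) ∧
      (∀ (l : E3 →ₗ[ℂ] ℂ) a, φ (fun y => l y * G a y y) = 0) := by
  set gen : Fin 3 × Fin 3 → (E3 → ℂ) := fun ia y => y ia.1 * G ia.2 y y with hgen
  set K : Submodule ℂ (E3 → ℂ) := Submodule.span ℂ (Set.range gen) with hK
  have hK9 : finrank ℂ K ≤ 9 := by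
    have h : Set.finrank ℂ (Set.range gen) ≤ Fintype.card (Fin 3 × Fin 3) :=
      finrank_range_le_card gen
    have hc : Fintype.card (Fin 3 × Fin 3) = 9 := by simp
    rw [hc] at h
    exact h
  have : FiniteDimensional ℂ K := FiniteDimensional.span_of_finite ℂ (Set.finite_range gen)
  have hex : ∃ i, mon3 i ∉ K := by
    by_contra hcon
    push Not at hcon
    have hle : Submodule.span ℂ (Set.range mon3) ≤ K := by
      rw [Submodule.span_le]
      rintro _ ⟨i, rfl⟩
      exact hcon i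
    have h10 := finrank_span_eq_card mon3_indep
    have := Submodule.finrank_mono hle
    simp at h10
    omega
  obtain ⟨i, hi⟩ := hex
  obtain ⟨φ, hφ, hφK⟩ := Submodule.exists_dual_map_eq_bot_of_notMem hi inferInstance
  have hφK' : ∀ x ∈ K, φ x = 0 := by
    intro x hx
    have : φ x ∈ K.map φ := Submodule.mem_map_of_mem hx
    rwa [hφK, Submodule.mem_bot] at this
  refine ⟨φ, ?_, ?_⟩
  · have hmon : ∃ a b c : Fin 3, mon3 i = fun y => y a * y b * y c := by
      fin_cases i
      · exact ⟨0, 0, 0, rfl⟩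
      · exact ⟨0, 0, 1, rfl⟩
      · exact ⟨0, 1, 1, rfl⟩
      · exact ⟨1, 1, 1, rfl⟩
      · exact ⟨0, 0, 2, rfl⟩
      · exact ⟨0, 1, 2, rfl⟩
      · exact ⟨1, 1, 2, rfl⟩
      · exact ⟨0, 2, 2, rfl⟩
      · exact ⟨1, 2, 2, rfl⟩
      · exact ⟨2, 2, 2, rfl⟩
    obtain ⟨a, b, c, habc⟩ := hmon
    refine ⟨LinearMap.proj a, LinearMap.proj b, LinearMap.proj c, ?_⟩
    rw [habc] at hφ
    exact hφ
  · intro l a
    have e : (fun y => l y * G a y y) = l ![1, 0, 0] • gen (0, a) + l ![0, 1, 0] • gen (1, a) +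
        l ![0, 0, 1] • gen (2, a) := by
      funext y
      simp only [hgen, Pi.add_apply, Pi.smul_apply, smul_eq_mul]
      rw [lin_coord l y]; ring
    have hm : ∀ ia, gen ia ∈ K := fun ia => Submodule.subset_span ⟨ia, rfl⟩
    rw [e]
    exact hφK' _ (K.add_mem (K.add_mem (K.smul_mem _ (hm _)) (K.smul_mem _ (hm _)))
      (K.smul_mem _ (hm _)))

/-- quadratic monomials -/
def mon2 : Fin 6 → (E3 → ℂ) :=
  ![fun y => y 0 * y 0, fun y => y 0 * y 1, fun y => y 1 * y 1, fun y => y 0 * y 2,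
    fun y => y 1 * y 2, fun y => y 2 * y 2]

noncomputable def S2 : Submodule ℂ (E3 → ℂ) := Submodule.span ℂ (Set.range mon2)

instance : FiniteDimensional ℂ S2 := FiniteDimensional.span_of_finite ℂ (Set.finite_range mon2)

theorem finrank_S2 : finrank ℂ S2 ≤ 6 := by
  have h : Set.finrank ℂ (Set.range mon2) ≤ Fintype.card (Fin 6) :=
    finrank_range_le_card mon2
  rw [Fintype.card_fin] at h
  exact h

theorem quad_mem_S2 (a b c d e f : ℂ) :
    (fun y : E3 => a * (y 0 * y 0) + b * (y 0 * y 1) + c * (y 1 * y 1) + d * (y 0 * y 2) +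
      e * (y 1 * y 2) + f * (y 2 * y 2)) ∈ S2 := by
  have hm : ∀ i, mon2 i ∈ S2 := fun i => Submodule.subset_span ⟨i, rfl⟩
  have : (fun y : E3 => a * (y 0 * y 0) + b * (y 0 * y 1) + c * (y 1 * y 1) + d * (y 0 * y 2) +
      e * (y 1 * y 2) + f * (y 2 * y 2)) = a • mon2 0 + b • mon2 1 + c • mon2 2 + d • mon2 3 +
      e • mon2 4 + f • mon2 5 := by
    funext y
    simp only [Fin.isValue, mon2, Matrix.cons_val_zero, Matrix.cons_val_one, Matrix.cons_val, Pi.add_apply, Pi.smul_apply, smul_eq_mul]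
  rw [this]
  exact S2.add_mem (S2.add_mem (S2.add_mem (S2.add_mem (S2.add_mem (S2.smul_mem _ (hm 0))
    (S2.smul_mem _ (hm 1))) (S2.smul_mem _ (hm 2))) (S2.smul_mem _ (hm 3)))
    (S2.smul_mem _ (hm 4))) (S2.smul_mem _ (hm 5))

theorem mul_mem_S2 (m n : E3 →ₗ[ℂ] ℂ) : (fun y => m y * n y) ∈ S2 := by
  have := quad_mem_S2 (m ![1, 0, 0] * n ![1, 0, 0])
    (m ![1, 0, 0] * n ![0, 1, 0] + m ![0, 1, 0] * n ![1, 0, 0])
    (m ![0, 1, 0] * n ![0, 1, 0])
    (m ![1, 0, 0] * n ![0, 0, 1] + m ![0, 0, 1] * n ![1, 0, 0])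
    (m ![0, 1, 0] * n ![0, 0, 1] + m ![0, 0, 1] * n ![0, 1, 0])
    (m ![0, 0, 1] * n ![0, 0, 1])
  convert this using 1
  funext y
  rw [lin_coord m y, lin_coord n y]
  ring

theorem bil_mem_S2 (G : E3 →ₗ[ℂ] E3 →ₗ[ℂ] ℂ) : (fun y => G y y) ∈ S2 := by
  have h : (fun y => G y y) = (fun y => y 0 * G ![1, 0, 0] y) + (fun y => y 1 * G ![0, 1, 0] y) +
      (fun y => y 2 * G ![0, 0, 1] y) := by
    funext y
    have := lin_coord (G.flip y) y
    simp only [LinearMap.flip_apply] at this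
    simp only [Pi.add_apply]
    exact this
  rw [h]
  exact S2.add_mem (S2.add_mem (mul_mem_S2 (LinearMap.proj 0) (G ![1, 0, 0]))
    (mul_mem_S2 (LinearMap.proj 1) (G ![0, 1, 0]))) (mul_mem_S2 (LinearMap.proj 2) (G ![0, 0, 1]))

theorem caseA {G : Fin 3 → (E3 →ₗ[ℂ] E3 →ₗ[ℂ] ℂ)}
    (Q4 : Fin 4 → (E3 → ℂ)) (hQ : ∀ i, Q4 i ∈ S2) (hind : LinearIndependent ℂ Q4)
    (φ : (E3 → ℂ) →ₗ[ℂ] ℂ)
    (hK : ∀ (l : E3 →ₗ[ℂ] ℂ) i, φ (fun y => l y * Q4 i y) = 0) :
    ∃ l0 : E3 →ₗ[ℂ] ℂ, l0 ≠ 0 ∧ ∀ m n : E3 →ₗ[ℂ] ℂ, φ (fun y => l0 y * m y * n y) = 0 := by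
  set F : (E3 →ₗ[ℂ] ℂ) →ₗ[ℂ] (Module.Dual ℂ S2) := LinearMap.mk₂ ℂ
    (fun l (q : S2) => φ (fun y => l y * (q : E3 → ℂ) y))
    (by
      intro l l' q
      rw [← map_add]
      congr 1
      funext y
      simp only [LinearMap.add_apply, Pi.add_apply]; ring)
    (by
      intro c l q
      rw [← map_smul]
      congr 1
      funext y
      simp only [LinearMap.smul_apply, Pi.smul_apply, smul_eq_mul]; ring)
    (by
      intro l q q'
      rw [← map_add]
      congr 1
      funext y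
      simp only [Submodule.coe_add, Pi.add_apply]; ring)
    (by
      intro c l q
      rw [← map_smul]
      congr 1
      funext y
      simp only [Submodule.coe_smul, Pi.smul_apply, smul_eq_mul]; ring) with hF
  have hFa : ∀ l (q : S2), F l q = φ (fun y => l y * (q : E3 → ℂ) y) := fun l q => rfl
  set M : Submodule ℂ (E3 → ℂ) := Submodule.span ℂ (Set.range Q4) with hM
  have hMS : M ≤ S2 := by
    rw [hM, Submodule.span_le]
    rintro _ ⟨i, rfl⟩
    exact hQ i
  set M' : Submodule ℂ S2 := M.comap S2.subtype with hM'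
  have hM4 : finrank ℂ M' = 4 := by
    rw [(Submodule.comapSubtypeEquivOfLe hMS).finrank_eq, hM, finrank_span_eq_card hind]
    simp
  have hann := Subspace.finrank_add_finrank_dualAnnihilator_eq M'
  have hS := finrank_S2
  have hrange : LinearMap.range F ≤ M'.dualAnnihilator := by
    rintro _ ⟨l, rfl⟩
    rw [Submodule.mem_dualAnnihilator]
    intro q hq
    rw [hFa]
    have hq' : (q : E3 → ℂ) ∈ M := hq
    -- induction on span
    have key : ∀ f ∈ M, φ (fun y => l y * f y) = 0 := by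
      intro f hf
      rw [hM] at hf
      induction hf using Submodule.span_induction with
      | mem x hx =>
        obtain ⟨i, rfl⟩ := hx
        exact hK l i
      | zero =>
        have : (fun y => l y * (0 : E3 → ℂ) y) = 0 := by funext y; simp
        rw [this, map_zero]
      | add x y _ _ hx hy =>
        have : (fun z => l z * (x + y) z) = (fun z => l z * x z) + (fun z => l z * y z) := by
          funext z; simp only [Pi.add_apply]; ring
        rw [this, map_add, hx, hy, add_zero]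
      | smul a x _ hx =>
        have : (fun z => l z * (a • x) z) = a • (fun z => l z * x z) := by
          funext z; simp only [Pi.smul_apply, smul_eq_mul]; ring
        rw [this, map_smul, hx, smul_zero]
    exact key _ hq'
  have hr2 : finrank ℂ (LinearMap.range F) ≤ 2 := by
    have := Submodule.finrank_mono hrange
    omega
  have hdom : finrank ℂ (E3 →ₗ[ℂ] ℂ) = 3 := by
    have : finrank ℂ (Module.Dual ℂ E3) = finrank ℂ E3 := Subspace.dual_finrank_eq
    rw [finrank_E3] at this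
    exact this
  have hker := LinearMap.finrank_range_add_finrank_ker F
  rw [hdom] at hker
  have hpos : 0 < finrank ℂ (LinearMap.ker F) := by omega
  have hne : LinearMap.ker F ≠ ⊥ := by
    intro h
    rw [h, finrank_bot] at hpos
    exact lt_irrefl _ hpos
  obtain ⟨l0, hl0, hl0'⟩ := Submodule.exists_mem_ne_zero_of_ne_bot hne
  refine ⟨l0, hl0', fun m n => ?_⟩
  have h1 : F l0 = 0 := hl0
  have h2 := congrArg (fun g : Module.Dual ℂ S2 => g ⟨_, mul_mem_S2 m n⟩) h1
  have h3 : φ (fun y => l0 y * (m y * n y)) = 0 := h2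
  rw [← h3]
  congr 1
  funext y
  ring

/-- The socle lemma. -/
theorem socle {G : Fin 3 → (E3 →ₗ[ℂ] E3 →ₗ[ℂ] ℂ)} (hs : ∀ a x y, G a x y = G a y x)
    (hG : ∀ y, (∀ a, G a y y = 0) → y = 0)
    (R00 R01 R10 R11 : E3 →ₗ[ℂ] ℂ)
    (h0 : ∀ y, G 0 y y = y 0 * R00 y + y 1 * R10 y)
    (h1 : ∀ y, G 1 y y = y 0 * R01 y + y 1 * R11 y)
    (lam : Fin 3 → (E3 →ₗ[ℂ] ℂ))
    (hK : ∀ y, y 2 * (R00 y * R11 y - R01 y * R10 y) = ∑ a, lam a y * G a y y) : False := by
  have hG' : ∀ y, G 0 y y = 0 → G 1 y y = 0 → G 2 y y = 0 → y = 0 := by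
    intro y a b c
    apply hG
    intro i
    fin_cases i
    · exact a
    · exact b
    · exact c
  have top3 : finrank ℂ (⊤ : Submodule ℂ E3) = 3 := by rw [finrank_top, finrank_E3]
  obtain ⟨φ, hφ, hφK⟩ := exists_functional G
  set Δ : E3 → ℂ := fun y => R00 y * R11 y - R01 y * R10 y with hΔ
  have hφΔ : ∀ l : E3 →ₗ[ℂ] ℂ, φ (fun y => l y * Δ y) = 0 := by
    intro l
    have e : (fun y => l y * Δ y) =
        l ![1, 0, 0] • ((fun y => R11 y * G 0 y y) - (fun y => R10 y * G 1 y y)) +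
        l ![0, 1, 0] • ((fun y => R00 y * G 1 y y) - (fun y => R01 y * G 0 y y)) +
        l ![0, 0, 1] • ((fun y => lam 0 y * G 0 y y) + (fun y => lam 1 y * G 1 y y) +
          (fun y => lam 2 y * G 2 y y)) := by
      funext y
      simp only [Pi.add_apply, Pi.smul_apply, Pi.sub_apply, smul_eq_mul, hΔ]
      have h2 := hK y
      rw [Fin.sum_univ_three] at h2
      rw [lin_coord l y]
      have a0 := h0 y
      have a1 := h1 y
      linear_combination l ![0, 0, 1] * h2 + (-(l ![1, 0, 0]) * R11 y + l ![0, 1, 0] * R01 y) * a0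
        + ((l ![1, 0, 0]) * R10 y - l ![0, 1, 0] * R00 y) * a1
    rw [e]
    simp only [map_add, map_smul, map_sub, hφK, sub_zero, smul_zero, add_zero]
  have hΔS : Δ ∈ S2 := S2.sub_mem (mul_mem_S2 R00 R11) (mul_mem_S2 R01 R10)
  set Q4 : Fin 4 → (E3 → ℂ) := ![fun y => G 0 y y, fun y => G 1 y y, fun y => G 2 y y, Δ]
    with hQ4
  by_cases hind : LinearIndependent ℂ Q4
  · obtain ⟨l0, hl0, hz⟩ := caseA (G := G) Q4 (by
      intro i
      fin_cases i
      · exact bil_mem_S2 _
      · exact bil_mem_S2 _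
      · exact bil_mem_S2 _
      · exact hΔS) hind φ (by
      intro l i
      fin_cases i
      · exact hφK l 0
      · exact hφK l 1
      · exact hφK l 2
      · exact hφΔ l)
    exact nondeg hs hG φ hφ hφK l0 hl0 hz
  · rw [Fintype.linearIndependent_iff] at hind
    push Not at hind
    obtain ⟨c, hc, i, hi⟩ := hind
    have hc' : ∀ y, c 0 * G 0 y y + c 1 * G 1 y y + c 2 * G 2 y y + c 3 * Δ y = 0 := by
      intro y
      have := congrFun hc y
      simp only [Fin.sum_univ_four, hQ4, Pi.add_apply, Pi.smul_apply, smul_eq_mul,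
        Pi.zero_apply] at this
      simpa only [Fin.isValue, Matrix.cons_val', Matrix.cons_val_fin_one, Matrix.cons_val_zero, Matrix.cons_val_one,     Matrix.cons_val] using this
    by_cases h3 : c 3 = 0
    · -- g's dependent
      rw [h3] at hc'
      by_cases k0 : c 0 = 0
      · by_cases k1 : c 1 = 0
        · have k2 : c 2 ≠ 0 := by
            intro k2
            apply hi
            fin_cases i
            · exact k0
            · exact k1
            · exact k2
            · exact h3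
          obtain ⟨x, _, hx0, e0, e1⟩ := exists_common_zero top3 (G 0) (G 1) (hs 0) (hs 1)
          apply hx0
          apply hG' x e0 e1
          have := hc' x
          rw [e0, e1] at this
          have : c 2 * G 2 x x = 0 := by linear_combination this
          exact (mul_eq_zero.mp this).resolve_left k2
        · obtain ⟨x, _, hx0, e0, e2⟩ := exists_common_zero top3 (G 0) (G 2) (hs 0) (hs 2)
          apply hx0
          apply hG' x e0 _ e2
          have := hc' x
          rw [e0, e2] at this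
          have : c 1 * G 1 x x = 0 := by linear_combination this
          exact (mul_eq_zero.mp this).resolve_left k1
      · obtain ⟨x, _, hx0, e1, e2⟩ := exists_common_zero top3 (G 1) (G 2) (hs 1) (hs 2)
        apply hx0
        apply hG' x _ e1 e2
        have := hc' x
        rw [e1, e2] at this
        have : c 0 * G 0 x x = 0 := by linear_combination this
        exact (mul_eq_zero.mp this).resolve_left k0
    · refine caseB (hs 0) (hs 1) (hs 2) hG' R00 R01 R10 R11 h0 h1 (-(c 0 / c 3)) (-(c 1 / c 3))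
        (-(c 2 / c 3)) ?_
      intro y
      have := hc' y
      have hΔy : Δ y = R00 y * R11 y - R01 y * R10 y := rfl
      rw [← hΔy]
      field_simp
      linear_combination this

end Vale.Agent.P287
end
end

section

section

set_option maxSynthPendingDepth 3

namespace Vale.Agent.P287

open Module

/-- the point of a plane with given coordinates -/
def pt (u v w : V6) : E3 →ₗ[ℂ] V6 :=
  (LinearMap.proj 0 : E3 →ₗ[ℂ] ℂ).smulRight u + (LinearMap.proj 1 : E3 →ₗ[ℂ] ℂ).smulRight v +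
    (LinearMap.proj 2 : E3 →ₗ[ℂ] ℂ).smulRight w

theorem pt_apply (u v w : V6) (y : E3) : pt u v w y = y 0 • u + y 1 • v + y 2 • w := by
  simp only [pt, Fin.isValue, LinearMap.add_apply, LinearMap.coe_smulRight, LinearMap.coe_proj, Function.eval]

set_option maxHeartbeats 8000000 in
theorem adapted {B : Tri6} (hB : Good B) {P W : Submodule ℂ V6} (hp : Iso B P) (hw : Iso B W)
    (p0 p1 e w0 w1 c2 : V6) (mpp0 : p0 ∈ P) (mpp1 : p1 ∈ P) (mpe : e ∈ P) (mww0 : w0 ∈ W)
    (mww1 : w1 ∈ W) (mwe : e ∈ W) :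
    ∃ (R00 R01 R10 R11 : E3 →ₗ[ℂ] ℂ) (lam mu : Fin 3 → (E3 →ₗ[ℂ] ℂ)),
      (∀ y, B (pt p0 p1 e y) (pt p0 p1 e y) (w0 - p0) = y 0 * R00 y + y 1 * R10 y) ∧
      (∀ y, B (pt p0 p1 e y) (pt p0 p1 e y) (w1 - p1) = y 0 * R01 y + y 1 * R11 y) ∧
      (∀ y, Matrix.det (Matrix.of fun a b => B ((![w0 - p0, w1 - p1, c2] : Fin 3 → V6) a)
          (pt p0 p1 e y) ((![p0, p1, e] : Fin 3 → V6) b)) =
        B e e c2 * (y 2 * (R00 y * R11 y - R01 y * R10 y)) +
        ∑ a, mu a y * B (pt p0 p1 e y) (pt p0 p1 e y)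
          ((![w0 - p0, w1 - p1, c2] : Fin 3 → V6) a)) ∧
      (∀ y, Matrix.det (Matrix.of fun a b => B ((![w0 - p0, w1 - p1, c2] : Fin 3 → V6) a)
          (pt p0 p1 e y + pt w0 w1 e y) ((![w0, w1, e] : Fin 3 → V6) b)) =
        2 * Matrix.det (Matrix.of fun a b => B ((![w0 - p0, w1 - p1, c2] : Fin 3 → V6) a)
          (pt p0 p1 e y) ((![p0, p1, e] : Fin 3 → V6) b)) +
        ∑ a, lam a y * B (pt p0 p1 e y) (pt p0 p1 e y)
          ((![w0 - p0, w1 - p1, c2] : Fin 3 → V6) a)) := by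
  have qp1p0 : ∀ z, B p1 p0 z = B p0 p1 z := fun z => hB.s12 p1 p0 z
  have rp1p0 : ∀ x, B x p1 p0 = B x p0 p1 := fun x => hB.s23 x p1 p0
  have qep0 : ∀ z, B e p0 z = B p0 e z := fun z => hB.s12 e p0 z
  have rep0 : ∀ x, B x e p0 = B x p0 e := fun x => hB.s23 x e p0
  have qep1 : ∀ z, B e p1 z = B p1 e z := fun z => hB.s12 e p1 z
  have rep1 : ∀ x, B x e p1 = B x p1 e := fun x => hB.s23 x e p1
  have qw0p0 : ∀ z, B w0 p0 z = B p0 w0 z := fun z => hB.s12 w0 p0 z
  have rw0p0 : ∀ x, B x w0 p0 = B x p0 w0 := fun x => hB.s23 x w0 p0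
  have qw0p1 : ∀ z, B w0 p1 z = B p1 w0 z := fun z => hB.s12 w0 p1 z
  have rw0p1 : ∀ x, B x w0 p1 = B x p1 w0 := fun x => hB.s23 x w0 p1
  have qw0e : ∀ z, B w0 e z = B e w0 z := fun z => hB.s12 w0 e z
  have rw0e : ∀ x, B x w0 e = B x e w0 := fun x => hB.s23 x w0 e
  have qw1p0 : ∀ z, B w1 p0 z = B p0 w1 z := fun z => hB.s12 w1 p0 z
  have rw1p0 : ∀ x, B x w1 p0 = B x p0 w1 := fun x => hB.s23 x w1 p0
  have qw1p1 : ∀ z, B w1 p1 z = B p1 w1 z := fun z => hB.s12 w1 p1 z
  have rw1p1 : ∀ x, B x w1 p1 = B x p1 w1 := fun x => hB.s23 x w1 p1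
  have qw1e : ∀ z, B w1 e z = B e w1 z := fun z => hB.s12 w1 e z
  have rw1e : ∀ x, B x w1 e = B x e w1 := fun x => hB.s23 x w1 e
  have qw1w0 : ∀ z, B w1 w0 z = B w0 w1 z := fun z => hB.s12 w1 w0 z
  have rw1w0 : ∀ x, B x w1 w0 = B x w0 w1 := fun x => hB.s23 x w1 w0
  have qc2p0 : ∀ z, B c2 p0 z = B p0 c2 z := fun z => hB.s12 c2 p0 z
  have rc2p0 : ∀ x, B x c2 p0 = B x p0 c2 := fun x => hB.s23 x c2 p0
  have qc2p1 : ∀ z, B c2 p1 z = B p1 c2 z := fun z => hB.s12 c2 p1 z
  have rc2p1 : ∀ x, B x c2 p1 = B x p1 c2 := fun x => hB.s23 x c2 p1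
  have qc2e : ∀ z, B c2 e z = B e c2 z := fun z => hB.s12 c2 e z
  have rc2e : ∀ x, B x c2 e = B x e c2 := fun x => hB.s23 x c2 e
  have qc2w0 : ∀ z, B c2 w0 z = B w0 c2 z := fun z => hB.s12 c2 w0 z
  have rc2w0 : ∀ x, B x c2 w0 = B x w0 c2 := fun x => hB.s23 x c2 w0
  have qc2w1 : ∀ z, B c2 w1 z = B w1 c2 z := fun z => hB.s12 c2 w1 z
  have rc2w1 : ∀ x, B x c2 w1 = B x w1 c2 := fun x => hB.s23 x c2 w1
  have zp0p0p0 : B p0 p0 p0 = 0 := hp _ mpp0 _ mpp0 _ mpp0
  have zp0p0p1 : B p0 p0 p1 = 0 := hp _ mpp0 _ mpp0 _ mpp1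
  have zp0p0e : B p0 p0 e = 0 := hp _ mpp0 _ mpp0 _ mpe
  have zp0p1p1 : B p0 p1 p1 = 0 := hp _ mpp0 _ mpp1 _ mpp1
  have zp0p1e : B p0 p1 e = 0 := hp _ mpp0 _ mpp1 _ mpe
  have zp0ee : B p0 e e = 0 := hp _ mpp0 _ mpe _ mpe
  have zp1p1p1 : B p1 p1 p1 = 0 := hp _ mpp1 _ mpp1 _ mpp1
  have zp1p1e : B p1 p1 e = 0 := hp _ mpp1 _ mpp1 _ mpe
  have zp1ee : B p1 e e = 0 := hp _ mpp1 _ mpe _ mpe
  have zeee : B e e e = 0 := hp _ mpe _ mpe _ mpe
  have zeew0 : B e e w0 = 0 := hw _ mwe _ mwe _ mww0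
  have zeew1 : B e e w1 = 0 := hw _ mwe _ mwe _ mww1
  have zew0w0 : B e w0 w0 = 0 := hw _ mwe _ mww0 _ mww0
  have zew0w1 : B e w0 w1 = 0 := hw _ mwe _ mww0 _ mww1
  have zew1w1 : B e w1 w1 = 0 := hw _ mwe _ mww1 _ mww1
  have zw0w0w0 : B w0 w0 w0 = 0 := hw _ mww0 _ mww0 _ mww0
  have zw0w0w1 : B w0 w0 w1 = 0 := hw _ mww0 _ mww0 _ mww1
  have zw0w1w1 : B w0 w1 w1 = 0 := hw _ mww0 _ mww1 _ mww1
  have zw1w1w1 : B w1 w1 w1 = 0 := hw _ mww1 _ mww1 _ mww1
  set X : E3 →ₗ[ℂ] V6 := pt p0 p1 e with hX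
  set Θ : E3 →ₗ[ℂ] V6 := pt w0 w1 e with hΘ
  set t00 := B p0 e w0 with ht00
  set t01 := B p0 e w1 with ht01
  set t10 := B p1 e w0 with ht10
  set t11 := B p1 e w1 with ht11
  set s0 := B p1 w0 w0 - B p0 w0 w1 with hs0
  set s1 := B p1 w0 w1 - B p0 w1 w1 with hs1
  set s2 := t10 - t01 with hs2
  set κ := B e e c2 with hκ
  set n0 := B p0 e c2 with hn0
  set n1 := B p1 e c2 with hn1
  set m0 := n0 + B e w0 c2 with hm0
  set m1 := n1 + B e w1 c2 with hm1
  have fR00 : ∀ y : E3, B p0 (X y) w0 = B (w0 - p0) (X y) p0 := by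
    intro y
    simp only [hX, hΘ, ht00, ht01, ht10, ht11, hs0, hs1, hs2, hκ, hn0, hn1, hm0, hm1]
    simp only [pt_apply, map_add, map_smul, map_sub, LinearMap.add_apply,
      LinearMap.smul_apply, LinearMap.sub_apply, smul_eq_mul,
      qp1p0, rp1p0, qep0, rep0, qep1, rep1, qw0p0, rw0p0, qw0p1, rw0p1, qw0e, rw0e, qw1p0,
      rw1p0, qw1p1, rw1p1, qw1e, rw1e, qw1w0, rw1w0, qc2p0, rc2p0, qc2p1, rc2p1, qc2e, rc2e,
      qc2w0, rc2w0, qc2w1, rc2w1, zp0p0p0, zp0p0p1, zp0p0e, zp0p1p1, zp0p1e, zp0ee, zp1p1p1,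
      zp1p1e, zp1ee, zeee, zeew0, zeew1, zew0w0, zew0w1, zew1w1, zw0w0w0, zw0w0w1, zw0w1w1,
      zw1w1w1]
    ring
  have fR01 : ∀ y : E3, B p0 (X y) w1 = B (w1 - p1) (X y) p0 := by
    intro y
    simp only [hX, hΘ, ht00, ht01, ht10, ht11, hs0, hs1, hs2, hκ, hn0, hn1, hm0, hm1]
    simp only [pt_apply, map_add, map_smul, map_sub, LinearMap.add_apply,
      LinearMap.smul_apply, LinearMap.sub_apply, smul_eq_mul,
      qp1p0, rp1p0, qep0, rep0, qep1, rep1, qw0p0, rw0p0, qw0p1, rw0p1, qw0e, rw0e, qw1p0,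
      rw1p0, qw1p1, rw1p1, qw1e, rw1e, qw1w0, rw1w0, qc2p0, rc2p0, qc2p1, rc2p1, qc2e, rc2e,
      qc2w0, rc2w0, qc2w1, rc2w1, zp0p0p0, zp0p0p1, zp0p0e, zp0p1p1, zp0p1e, zp0ee, zp1p1p1,
      zp1p1e, zp1ee, zeee, zeew0, zeew1, zew0w0, zew0w1, zew1w1, zw0w0w0, zw0w0w1, zw0w1w1,
      zw1w1w1]
    ring
  have fR10 : ∀ y : E3, B p1 (X y) w0 = B (w0 - p0) (X y) p1 := by
    intro y
    simp only [hX, hΘ, ht00, ht01, ht10, ht11, hs0, hs1, hs2, hκ, hn0, hn1, hm0, hm1]
    simp only [pt_apply, map_add, map_smul, map_sub, LinearMap.add_apply,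
      LinearMap.smul_apply, LinearMap.sub_apply, smul_eq_mul,
      qp1p0, rp1p0, qep0, rep0, qep1, rep1, qw0p0, rw0p0, qw0p1, rw0p1, qw0e, rw0e, qw1p0,
      rw1p0, qw1p1, rw1p1, qw1e, rw1e, qw1w0, rw1w0, qc2p0, rc2p0, qc2p1, rc2p1, qc2e, rc2e,
      qc2w0, rc2w0, qc2w1, rc2w1, zp0p0p0, zp0p0p1, zp0p0e, zp0p1p1, zp0p1e, zp0ee, zp1p1p1,
      zp1p1e, zp1ee, zeee, zeew0, zeew1, zew0w0, zew0w1, zew1w1, zw0w0w0, zw0w0w1, zw0w1w1,
      zw1w1w1]
    ring
  have fR11 : ∀ y : E3, B p1 (X y) w1 = B (w1 - p1) (X y) p1 := by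
    intro y
    simp only [hX, hΘ, ht00, ht01, ht10, ht11, hs0, hs1, hs2, hκ, hn0, hn1, hm0, hm1]
    simp only [pt_apply, map_add, map_smul, map_sub, LinearMap.add_apply,
      LinearMap.smul_apply, LinearMap.sub_apply, smul_eq_mul,
      qp1p0, rp1p0, qep0, rep0, qep1, rep1, qw0p0, rw0p0, qw0p1, rw0p1, qw0e, rw0e, qw1p0,
      rw1p0, qw1p1, rw1p1, qw1e, rw1e, qw1w0, rw1w0, qc2p0, rc2p0, qc2p1, rc2p1, qc2e, rc2e,
      qc2w0, rc2w0, qc2w1, rc2w1, zp0p0p0, zp0p0p1, zp0p0e, zp0p1p1, zp0p1e, zp0ee, zp1p1p1,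
      zp1p1e, zp1ee, zeee, zeew0, zeew1, zew0w0, zew0w1, zew1w1, zw0w0w0, zw0w0w1, zw0w1w1,
      zw1w1w1]
    ring
  have fN02 : ∀ y : E3, B (w0 - p0) (X y) e = y 0 * t00 + y 1 * t10 := by
    intro y
    simp only [hX, hΘ, ht00, ht01, ht10, ht11, hs0, hs1, hs2, hκ, hn0, hn1, hm0, hm1]
    simp only [pt_apply, map_add, map_smul, map_sub, LinearMap.add_apply,
      LinearMap.smul_apply, LinearMap.sub_apply, smul_eq_mul,
      qp1p0, rp1p0, qep0, rep0, qep1, rep1, qw0p0, rw0p0, qw0p1, rw0p1, qw0e, rw0e, qw1p0,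
      rw1p0, qw1p1, rw1p1, qw1e, rw1e, qw1w0, rw1w0, qc2p0, rc2p0, qc2p1, rc2p1, qc2e, rc2e,
      qc2w0, rc2w0, qc2w1, rc2w1, zp0p0p0, zp0p0p1, zp0p0e, zp0p1p1, zp0p1e, zp0ee, zp1p1p1,
      zp1p1e, zp1ee, zeee, zeew0, zeew1, zew0w0, zew0w1, zew1w1, zw0w0w0, zw0w0w1, zw0w1w1,
      zw1w1w1]
    ring
  have fN12 : ∀ y : E3, B (w1 - p1) (X y) e = y 0 * t01 + y 1 * t11 := by
    intro y
    simp only [hX, hΘ, ht00, ht01, ht10, ht11, hs0, hs1, hs2, hκ, hn0, hn1, hm0, hm1]
    simp only [pt_apply, map_add, map_smul, map_sub, LinearMap.add_apply,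
      LinearMap.smul_apply, LinearMap.sub_apply, smul_eq_mul,
      qp1p0, rp1p0, qep0, rep0, qep1, rep1, qw0p0, rw0p0, qw0p1, rw0p1, qw0e, rw0e, qw1p0,
      rw1p0, qw1p1, rw1p1, qw1e, rw1e, qw1w0, rw1w0, qc2p0, rc2p0, qc2p1, rc2p1, qc2e, rc2e,
      qc2w0, rc2w0, qc2w1, rc2w1, zp0p0p0, zp0p0p1, zp0p0e, zp0p1p1, zp0p1e, zp0ee, zp1p1p1,
      zp1p1e, zp1ee, zeee, zeew0, zeew1, zew0w0, zew0w1, zew1w1, zw0w0w0, zw0w0w1, zw0w1w1,
      zw1w1w1]
    ring
  have fN22 : ∀ y : E3, B c2 (X y) e = κ * y 2 + n0 * y 0 + n1 * y 1 := by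
    intro y
    simp only [hX, hΘ, ht00, ht01, ht10, ht11, hs0, hs1, hs2, hκ, hn0, hn1, hm0, hm1]
    simp only [pt_apply, map_add, map_smul, map_sub, LinearMap.add_apply,
      LinearMap.smul_apply, LinearMap.sub_apply, smul_eq_mul,
      qp1p0, rp1p0, qep0, rep0, qep1, rep1, qw0p0, rw0p0, qw0p1, rw0p1, qw0e, rw0e, qw1p0,
      rw1p0, qw1p1, rw1p1, qw1e, rw1e, qw1w0, rw1w0, qc2p0, rc2p0, qc2p1, rc2p1, qc2e, rc2e,
      qc2w0, rc2w0, qc2w1, rc2w1, zp0p0p0, zp0p0p1, zp0p0e, zp0p1p1, zp0p1e, zp0ee, zp1p1p1,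
      zp1p1e, zp1ee, zeee, zeew0, zeew1, zew0w0, zew0w1, zew1w1, zw0w0w0, zw0w0w1, zw0w1w1,
      zw1w1w1]
    ring
  have fg0 : ∀ y : E3, B (X y) (X y) (w0 - p0) =
        y 0 * B (w0 - p0) (X y) p0 + y 1 * B (w0 - p0) (X y) p1 + y 2 * (y 0 * t00 + y 1 * t10) := by
    intro y
    simp only [hX, hΘ, ht00, ht01, ht10, ht11, hs0, hs1, hs2, hκ, hn0, hn1, hm0, hm1]
    simp only [pt_apply, map_add, map_smul, map_sub, LinearMap.add_apply,
      LinearMap.smul_apply, LinearMap.sub_apply, smul_eq_mul,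
      qp1p0, rp1p0, qep0, rep0, qep1, rep1, qw0p0, rw0p0, qw0p1, rw0p1, qw0e, rw0e, qw1p0,
      rw1p0, qw1p1, rw1p1, qw1e, rw1e, qw1w0, rw1w0, qc2p0, rc2p0, qc2p1, rc2p1, qc2e, rc2e,
      qc2w0, rc2w0, qc2w1, rc2w1, zp0p0p0, zp0p0p1, zp0p0e, zp0p1p1, zp0p1e, zp0ee, zp1p1p1,
      zp1p1e, zp1ee, zeee, zeew0, zeew1, zew0w0, zew0w1, zew1w1, zw0w0w0, zw0w0w1, zw0w1w1,
      zw1w1w1]
    ring
  have fg1 : ∀ y : E3, B (X y) (X y) (w1 - p1) =
        y 0 * B (w1 - p1) (X y) p0 + y 1 * B (w1 - p1) (X y) p1 + y 2 * (y 0 * t01 + y 1 * t11) := by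
    intro y
    simp only [hX, hΘ, ht00, ht01, ht10, ht11, hs0, hs1, hs2, hκ, hn0, hn1, hm0, hm1]
    simp only [pt_apply, map_add, map_smul, map_sub, LinearMap.add_apply,
      LinearMap.smul_apply, LinearMap.sub_apply, smul_eq_mul,
      qp1p0, rp1p0, qep0, rep0, qep1, rep1, qw0p0, rw0p0, qw0p1, rw0p1, qw0e, rw0e, qw1p0,
      rw1p0, qw1p1, rw1p1, qw1e, rw1e, qw1w0, rw1w0, qc2p0, rc2p0, qc2p1, rc2p1, qc2e, rc2e,
      qc2w0, rc2w0, qc2w1, rc2w1, zp0p0p0, zp0p0p1, zp0p0e, zp0p1p1, zp0p1e, zp0ee, zp1p1p1,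
      zp1p1e, zp1ee, zeee, zeew0, zeew1, zew0w0, zew0w1, zew1w1, zw0w0w0, zw0w0w1, zw0w1w1,
      zw1w1w1]
    ring
  have fg2 : ∀ y : E3, B (X y) (X y) c2 =
        y 0 * B c2 (X y) p0 + y 1 * B c2 (X y) p1 + y 2 * (κ * y 2 + n0 * y 0 + n1 * y 1) := by
    intro y
    simp only [hX, hΘ, ht00, ht01, ht10, ht11, hs0, hs1, hs2, hκ, hn0, hn1, hm0, hm1]
    simp only [pt_apply, map_add, map_smul, map_sub, LinearMap.add_apply,
      LinearMap.smul_apply, LinearMap.sub_apply, smul_eq_mul,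
      qp1p0, rp1p0, qep0, rep0, qep1, rep1, qw0p0, rw0p0, qw0p1, rw0p1, qw0e, rw0e, qw1p0,
      rw1p0, qw1p1, rw1p1, qw1e, rw1e, qw1w0, rw1w0, qc2p0, rc2p0, qc2p1, rc2p1, qc2e, rc2e,
      qc2w0, rc2w0, qc2w1, rc2w1, zp0p0p0, zp0p0p1, zp0p0e, zp0p1p1, zp0p1e, zp0ee, zp1p1p1,
      zp1p1e, zp1ee, zeee, zeew0, zeew1, zew0w0, zew0w1, zew1w1, zw0w0w0, zw0w0w1, zw0w1w1,
      zw1w1w1]
    ring
  have fM00 : ∀ y : E3, B (w0 - p0) (X y + Θ y) w0 = -(B (w0 - p0) (X y) p0 + y 2 * t00) + y 1 * s0 := by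
    intro y
    simp only [hX, hΘ, ht00, ht01, ht10, ht11, hs0, hs1, hs2, hκ, hn0, hn1, hm0, hm1]
    simp only [pt_apply, map_add, map_smul, map_sub, LinearMap.add_apply,
      LinearMap.smul_apply, LinearMap.sub_apply, smul_eq_mul,
      qp1p0, rp1p0, qep0, rep0, qep1, rep1, qw0p0, rw0p0, qw0p1, rw0p1, qw0e, rw0e, qw1p0,
      rw1p0, qw1p1, rw1p1, qw1e, rw1e, qw1w0, rw1w0, qc2p0, rc2p0, qc2p1, rc2p1, qc2e, rc2e,
      qc2w0, rc2w0, qc2w1, rc2w1, zp0p0p0, zp0p0p1, zp0p0e, zp0p1p1, zp0p1e, zp0ee, zp1p1p1,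
      zp1p1e, zp1ee, zeee, zeew0, zeew1, zew0w0, zew0w1, zew1w1, zw0w0w0, zw0w0w1, zw0w1w1,
      zw1w1w1]
    ring
  have fM01 : ∀ y : E3, B (w0 - p0) (X y + Θ y) w1 = -(B (w1 - p1) (X y) p0 + y 2 * t01) + y 1 * s1 := by
    intro y
    simp only [hX, hΘ, ht00, ht01, ht10, ht11, hs0, hs1, hs2, hκ, hn0, hn1, hm0, hm1]
    simp only [pt_apply, map_add, map_smul, map_sub, LinearMap.add_apply,
      LinearMap.smul_apply, LinearMap.sub_apply, smul_eq_mul,
      qp1p0, rp1p0, qep0, rep0, qep1, rep1, qw0p0, rw0p0, qw0p1, rw0p1, qw0e, rw0e, qw1p0,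
      rw1p0, qw1p1, rw1p1, qw1e, rw1e, qw1w0, rw1w0, qc2p0, rc2p0, qc2p1, rc2p1, qc2e, rc2e,
      qc2w0, rc2w0, qc2w1, rc2w1, zp0p0p0, zp0p0p1, zp0p0e, zp0p1p1, zp0p1e, zp0ee, zp1p1p1,
      zp1p1e, zp1ee, zeee, zeew0, zeew1, zew0w0, zew0w1, zew1w1, zw0w0w0, zw0w0w1, zw0w1w1,
      zw1w1w1]
    ring
  have fM02 : ∀ y : E3, B (w0 - p0) (X y + Θ y) e = y 1 * s2 := by
    intro y
    simp only [hX, hΘ, ht00, ht01, ht10, ht11, hs0, hs1, hs2, hκ, hn0, hn1, hm0, hm1]
    simp only [pt_apply, map_add, map_smul, map_sub, LinearMap.add_apply,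
      LinearMap.smul_apply, LinearMap.sub_apply, smul_eq_mul,
      qp1p0, rp1p0, qep0, rep0, qep1, rep1, qw0p0, rw0p0, qw0p1, rw0p1, qw0e, rw0e, qw1p0,
      rw1p0, qw1p1, rw1p1, qw1e, rw1e, qw1w0, rw1w0, qc2p0, rc2p0, qc2p1, rc2p1, qc2e, rc2e,
      qc2w0, rc2w0, qc2w1, rc2w1, zp0p0p0, zp0p0p1, zp0p0e, zp0p1p1, zp0p1e, zp0ee, zp1p1p1,
      zp1p1e, zp1ee, zeee, zeew0, zeew1, zew0w0, zew0w1, zew1w1, zw0w0w0, zw0w0w1, zw0w1w1,
      zw1w1w1]
    ring
  have fM10 : ∀ y : E3, B (w1 - p1) (X y + Θ y) w0 = -(B (w0 - p0) (X y) p1 + y 2 * t10) - y 0 * s0 := by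
    intro y
    simp only [hX, hΘ, ht00, ht01, ht10, ht11, hs0, hs1, hs2, hκ, hn0, hn1, hm0, hm1]
    simp only [pt_apply, map_add, map_smul, map_sub, LinearMap.add_apply,
      LinearMap.smul_apply, LinearMap.sub_apply, smul_eq_mul,
      qp1p0, rp1p0, qep0, rep0, qep1, rep1, qw0p0, rw0p0, qw0p1, rw0p1, qw0e, rw0e, qw1p0,
      rw1p0, qw1p1, rw1p1, qw1e, rw1e, qw1w0, rw1w0, qc2p0, rc2p0, qc2p1, rc2p1, qc2e, rc2e,
      qc2w0, rc2w0, qc2w1, rc2w1, zp0p0p0, zp0p0p1, zp0p0e, zp0p1p1, zp0p1e, zp0ee, zp1p1p1,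
      zp1p1e, zp1ee, zeee, zeew0, zeew1, zew0w0, zew0w1, zew1w1, zw0w0w0, zw0w0w1, zw0w1w1,
      zw1w1w1]
    ring
  have fM11 : ∀ y : E3, B (w1 - p1) (X y + Θ y) w1 = -(B (w1 - p1) (X y) p1 + y 2 * t11) - y 0 * s1 := by
    intro y
    simp only [hX, hΘ, ht00, ht01, ht10, ht11, hs0, hs1, hs2, hκ, hn0, hn1, hm0, hm1]
    simp only [pt_apply, map_add, map_smul, map_sub, LinearMap.add_apply,
      LinearMap.smul_apply, LinearMap.sub_apply, smul_eq_mul,
      qp1p0, rp1p0, qep0, rep0, qep1, rep1, qw0p0, rw0p0, qw0p1, rw0p1, qw0e, rw0e, qw1p0,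
      rw1p0, qw1p1, rw1p1, qw1e, rw1e, qw1w0, rw1w0, qc2p0, rc2p0, qc2p1, rc2p1, qc2e, rc2e,
      qc2w0, rc2w0, qc2w1, rc2w1, zp0p0p0, zp0p0p1, zp0p0e, zp0p1p1, zp0p1e, zp0ee, zp1p1p1,
      zp1p1e, zp1ee, zeee, zeew0, zeew1, zew0w0, zew0w1, zew1w1, zw0w0w0, zw0w0w1, zw0w1w1,
      zw1w1w1]
    ring
  have fM12 : ∀ y : E3, B (w1 - p1) (X y + Θ y) e = -(y 0 * s2) := by
    intro y
    simp only [hX, hΘ, ht00, ht01, ht10, ht11, hs0, hs1, hs2, hκ, hn0, hn1, hm0, hm1]
    simp only [pt_apply, map_add, map_smul, map_sub, LinearMap.add_apply,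
      LinearMap.smul_apply, LinearMap.sub_apply, smul_eq_mul,
      qp1p0, rp1p0, qep0, rep0, qep1, rep1, qw0p0, rw0p0, qw0p1, rw0p1, qw0e, rw0e, qw1p0,
      rw1p0, qw1p1, rw1p1, qw1e, rw1e, qw1w0, rw1w0, qc2p0, rc2p0, qc2p1, rc2p1, qc2e, rc2e,
      qc2w0, rc2w0, qc2w1, rc2w1, zp0p0p0, zp0p0p1, zp0p0e, zp0p1p1, zp0p1e, zp0ee, zp1p1p1,
      zp1p1e, zp1ee, zeee, zeew0, zeew1, zew0w0, zew0w1, zew1w1, zw0w0w0, zw0w0w1, zw0w1w1,
      zw1w1w1]
    ring
  have fM22 : ∀ y : E3, B c2 (X y + Θ y) e = 2 * κ * y 2 + m0 * y 0 + m1 * y 1 := by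
    intro y
    simp only [hX, hΘ, ht00, ht01, ht10, ht11, hs0, hs1, hs2, hκ, hn0, hn1, hm0, hm1]
    simp only [pt_apply, map_add, map_smul, map_sub, LinearMap.add_apply,
      LinearMap.smul_apply, LinearMap.sub_apply, smul_eq_mul,
      qp1p0, rp1p0, qep0, rep0, qep1, rep1, qw0p0, rw0p0, qw0p1, rw0p1, qw0e, rw0e, qw1p0,
      rw1p0, qw1p1, rw1p1, qw1e, rw1e, qw1w0, rw1w0, qc2p0, rc2p0, qc2p1, rc2p1, qc2e, rc2e,
      qc2w0, rc2w0, qc2w1, rc2w1, zp0p0p0, zp0p0p1, zp0p0e, zp0p1p1, zp0p1e, zp0ee, zp1p1p1,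
      zp1p1e, zp1ee, zeee, zeew0, zeew1, zew0w0, zew0w1, zew1w1, zw0w0w0, zw0w0w1, zw0w1w1,
      zw1w1w1]
    ring
  set L : V6 → V6 → (E3 →ₗ[ℂ] ℂ) := fun v u => ((B v).flip u).comp X with hL
  have La : ∀ v u y, L v u y = B v (X y) u := fun v u y => rfl
  set K : V6 → V6 → (E3 →ₗ[ℂ] ℂ) := fun v u => ((B v).flip u).comp (X + Θ) with hK
  have Ka : ∀ v u y, K v u y = B v (X y + Θ y) u := fun v u y => rfl
  set Y2 : E3 →ₗ[ℂ] ℂ := LinearMap.proj 2 with hY2
  have Ya : ∀ y, Y2 y = y 2 := fun y => rfl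
  set R00 : E3 →ₗ[ℂ] ℂ := L p0 w0 + t00 • Y2 with hR00
  set R01 : E3 →ₗ[ℂ] ℂ := L p0 w1 + t01 • Y2 with hR01
  set R10 : E3 →ₗ[ℂ] ℂ := L p1 w0 + t10 • Y2 with hR10
  set R11 : E3 →ₗ[ℂ] ℂ := L p1 w1 + t11 • Y2 with hR11
  have aR00 : ∀ y, R00 y = B (w0 - p0) (X y) p0 + t00 * y 2 := fun y => by
    rw [hR00, LinearMap.add_apply, La, LinearMap.smul_apply, Ya, fR00 y, smul_eq_mul]
  have aR01 : ∀ y, R01 y = B (w1 - p1) (X y) p0 + t01 * y 2 := fun y => by
    rw [hR01, LinearMap.add_apply, La, LinearMap.smul_apply, Ya, fR01 y, smul_eq_mul]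
  have aR10 : ∀ y, R10 y = B (w0 - p0) (X y) p1 + t10 * y 2 := fun y => by
    rw [hR10, LinearMap.add_apply, La, LinearMap.smul_apply, Ya, fR10 y, smul_eq_mul]
  have aR11 : ∀ y, R11 y = B (w1 - p1) (X y) p1 + t11 * y 2 := fun y => by
    rw [hR11, LinearMap.add_apply, La, LinearMap.smul_apply, Ya, fR11 y, smul_eq_mul]
  set τ : E3 →ₗ[ℂ] ℂ := t11 • L (w0 - p0) p0 + t00 • L (w1 - p1) p1 - t10 • L (w1 - p1) p0 -
    t01 • L (w0 - p0) p1 + (t00 * t11 - t01 * t10) • Y2 with hτ
  have aτ : ∀ y, τ y = t11 * B (w0 - p0) (X y) p0 + t00 * B (w1 - p1) (X y) p1 -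
      t10 * B (w1 - p1) (X y) p0 - t01 * B (w0 - p0) (X y) p1 +
      (t00 * t11 - t01 * t10) * y 2 := fun y => rfl
  refine ⟨R00, R01, R10, R11,
    ![-(s2 • K c2 w1) + s1 • K c2 e + (m0 - 2 * n0) • R11 - (m1 - 2 * n1) • R01 -
        (2 * t11) • L c2 p0 + (2 * t01) • L c2 p1,
      s2 • K c2 w0 - s0 • K c2 e - (m0 - 2 * n0) • R10 + (m1 - 2 * n1) • R00 +
        (2 * t10) • L c2 p0 - (2 * t00) • L c2 p1,
      (2 : ℂ) • τ],
    ![n0 • R11 - n1 • R01 + t11 • L c2 p0 - t01 • L c2 p1,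
      -(n0 • R10) + n1 • R00 - t10 • L c2 p0 + t00 • L c2 p1,
      -τ], ?_, ?_, ?_, ?_⟩
  · intro y
    rw [fg0 y, aR00, aR10]; ring
  · intro y
    rw [fg1 y, aR01, aR11]; ring
  · intro y
    rw [Matrix.det_fin_three, Fin.sum_univ_three]
    simp only [Matrix.of_apply, Matrix.cons_val_zero, Matrix.cons_val_one, Matrix.cons_val,
      LinearMap.add_apply, LinearMap.sub_apply, LinearMap.neg_apply, LinearMap.smul_apply,
      smul_eq_mul, La]
    rw [fg0 y, fg1 y, fg2 y, fN02 y, fN12 y, fN22 y, aR00, aR01, aR10, aR11, aτ]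
    ring
  · intro y
    rw [Matrix.det_fin_three, Matrix.det_fin_three, Fin.sum_univ_three]
    simp only [Matrix.of_apply, Matrix.cons_val_zero, Matrix.cons_val_one, Matrix.cons_val,
      LinearMap.add_apply, LinearMap.sub_apply, LinearMap.neg_apply, LinearMap.smul_apply,
      smul_eq_mul, La, Ka]
    rw [fg0 y, fg1 y, fg2 y, fN02 y, fN12 y, fN22 y, fM00 y, fM01 y, fM02 y, fM10 y, fM11 y,
      fM12 y, fM22 y, aR00, aR01, aR10, aR11, aτ]
    ring

end Vale.Agent.P287
end
end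

section

section

namespace Vale.Agent.P287

open Finset

/-- a (possibly degenerate) polar space of rank at most two with three points on every line -/
structure PS {α : Type*} (P : α → Prop) (adj : α → α → Prop) : Prop where
  symm : ∀ a b, adj a b → adj b a
  irr : ∀ a, P a → ¬ adj a a
  third : ∀ a b, P a → P b → adj a b → ∃ c, P c ∧ c ≠ a ∧ c ≠ b ∧ adj a c ∧ adj b c ∧
    ∀ q, P q → q ≠ a → q ≠ b → q ≠ c →
      (adj q a ∧ ¬ adj q b ∧ ¬ adj q c) ∨ (¬ adj q a ∧ adj q b ∧ ¬ adj q c) ∨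
      (¬ adj q a ∧ ¬ adj q b ∧ adj q c)

/-- no two members are adjacent -/
def Free {α : Type*} (adj : α → α → Prop) (M : Finset α) : Prop :=
  ∀ a ∈ M, ∀ b ∈ M, a ≠ b → ¬ adj a b

theorem exists_max_free {α : Type*} [DecidableEq α] (adj : α → α → Prop)
    (hs : ∀ a b, adj a b → adj b a) (N : Finset α) :
    ∃ M ⊆ N, Free adj M ∧ ∀ q ∈ N, q ∉ M → ∃ m ∈ M, adj q m := by
  classical
  obtain ⟨M, hM, hmax⟩ := Finset.exists_max_image (N.powerset.filter (fun M => Free adj M))
    Finset.card ⟨∅, by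
      rw [Finset.mem_filter, Finset.mem_powerset]
      exact ⟨Finset.empty_subset _, fun a ha => absurd ha (Finset.notMem_empty a)⟩⟩
  rw [Finset.mem_filter, Finset.mem_powerset] at hM
  refine ⟨M, hM.1, hM.2, ?_⟩
  intro q hq hqM
  by_contra hcon
  push Not at hcon
  have h1 := hmax (insert q M) (by
    rw [Finset.mem_filter, Finset.mem_powerset]
    refine ⟨Finset.insert_subset hq hM.1, ?_⟩
    intro a ha b hb hab
    rw [Finset.mem_insert] at ha hb
    rcases ha with rfl | ha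
    · rcases hb with rfl | hb
      · exact absurd rfl hab
      · exact hcon b hb
    · rcases hb with rfl | hb
      · exact fun h => hcon a ha (hs _ _ h)
      · exact hM.2 a ha b hb hab)
  rw [Finset.card_insert_of_notMem hqM] at h1
  omega

namespace PS

variable {α : Type*} {P : α → Prop} {adj : α → α → Prop}

theorem ne_of_adj (h : PS P adj) {a b : α} (ha : P a) (hab : adj a b) : a ≠ b := by
  rintro rfl
  exact h.irr a ha hab

theorem unique (h : PS P adj) {a b c c' : α} (ha : P a) (hb : P b) (hc : P c) (hc' : P c')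
    (hab : adj a b) (h1 : adj a c) (h2 : adj b c) (h3 : adj a c') (h4 : adj b c') : c = c' := by
  obtain ⟨d, hd, -, -, -, -, hq⟩ := h.third a b ha hb hab
  have key : ∀ x, P x → adj a x → adj b x → x = d := by
    intro x hx hax hbx
    by_contra hxd
    have := hq x hx (h.ne_of_adj hx (h.symm _ _ hax)) (h.ne_of_adj hx (h.symm _ _ hbx)) hxd
    have e1 := h.symm _ _ hax
    have e2 := h.symm _ _ hbx
    (clear * - this e2 e1; tauto)
  rw [key c hc h1 h2, key c' hc' h3 h4]

/-- neighbours of `p` are covered by a maximal free set and its thirds -/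
theorem nbr_le (h : PS P adj) {p : α} (hp : P p) (N : Finset α) (hN : ∀ q ∈ N, P q ∧ adj p q)
    {K : ℕ} (hK : ∀ M ⊆ N, Free adj M → M.card ≤ K) : N.card ≤ 2 * K := by
  classical
  obtain ⟨M, hMN, hfree, hmax⟩ := exists_max_free adj h.symm N
  have hex : ∀ m, ∃ c, m ∈ M → (P c ∧ adj p c ∧ adj m c) := by
    intro m
    by_cases hm : m ∈ M
    · obtain ⟨c, hc, -, -, h1, h2, -⟩ := h.third p m hp (hN m (hMN hm)).1 (hN m (hMN hm)).2
      exact ⟨c, fun _ => ⟨hc, h1, h2⟩⟩
    · exact ⟨m, fun h => absurd h hm⟩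
  choose τ hτ using hex
  have hsub : N ⊆ M ∪ M.image τ := by
    intro q hq
    rw [Finset.mem_union]
    by_cases hqM : q ∈ M
    · exact Or.inl hqM
    · right
      obtain ⟨m, hm, hqm⟩ := hmax q hq hqM
      rw [Finset.mem_image]
      refine ⟨m, hm, ?_⟩
      obtain ⟨hc, h1, h2⟩ := hτ m hm
      exact h.unique hp (hN m (hMN hm)).1 hc (hN q hq).1 (hN m (hMN hm)).2 h1 h2
        (hN q hq).2 (h.symm _ _ hqm)
  calc N.card ≤ (M ∪ M.image τ).card := Finset.card_le_card hsub
    _ ≤ M.card + (M.image τ).card := Finset.card_union_le _ _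
    _ ≤ M.card + M.card := Nat.add_le_add_left Finset.card_image_le _
    _ ≤ 2 * K := by have := hK M hMN hfree; omega

theorem card_le_117 (h : PS P adj)
    (hE : ∀ M : Finset α, (∀ a ∈ M, P a) → Free adj M → M.card ≤ 20)
    (F : Finset α) (hF : ∀ a ∈ F, P a) : F.card ≤ 117 := by
  classical
  by_cases hfree : Free adj F
  · exact (hE F hF hfree).trans (by norm_num)
  simp only [Free] at hfree
  push Not at hfree
  obtain ⟨a, haF, b, hbF, -, hab⟩ := hfree
  have ha := hF a haF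
  have hb := hF b hbF
  obtain ⟨c, hc, hca, hcb, hac, hbc, hq⟩ := h.third a b ha hb hab
  have hanb : a ≠ b := h.ne_of_adj ha hab
  -- the neighbours of a member of the line outside the line
  have key : ∀ x y z, P x → P y → P z → adj x y → adj x z → adj y z →
      (F.filter (fun q => adj x q ∧ q ≠ y ∧ q ≠ z)).card ≤ 38 := by
    intro x y z hx hy hz hxy hxz hyz
    refine h.nbr_le (K := 19) hx _ ?_ ?_
    · intro q hq
      rw [Finset.mem_filter] at hq
      exact ⟨hF q hq.1, hq.2.1⟩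
    · intro M hM hMf
      have hnot : ∀ m ∈ M, P m ∧ ¬ adj m y ∧ m ≠ y := by
        intro m hm
        have := hM hm
        rw [Finset.mem_filter] at this
        obtain ⟨h1, h2, h3, h4⟩ := this
        refine ⟨hF m h1, ?_, h3⟩
        intro hmy
        exact h4 (h.unique hx hy (hF m h1) hz hxy h2 (h.symm _ _ hmy) hxz hyz)
      have hyM : y ∉ M := fun hy' => (hnot y hy').2.2 rfl
      have := hE (insert y M) (by
          intro q hq
          rw [Finset.mem_insert] at hq
          rcases hq with rfl | hq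
          · exact hy
          · exact (hnot q hq).1) (by
          intro p hp q hq hpq
          rw [Finset.mem_insert] at hp hq
          rcases hp with rfl | hp
          · rcases hq with rfl | hq
            · exact absurd rfl hpq
            · exact fun hh => (hnot q hq).2.1 (h.symm _ _ hh)
          · rcases hq with rfl | hq
            · exact (hnot p hp).2.1
            · exact hMf p hp q hq hpq)
      rw [Finset.card_insert_of_notMem hyM] at this
      omega
  have hsub : F ⊆ ({a, b, c} : Finset α) ∪ (F.filter (fun q => adj a q ∧ q ≠ b ∧ q ≠ c) ∪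
      (F.filter (fun q => adj b q ∧ q ≠ a ∧ q ≠ c) ∪
        F.filter (fun q => adj c q ∧ q ≠ a ∧ q ≠ b))) := by
    intro q hqF
    simp only [Finset.mem_union, Finset.mem_filter, Finset.mem_insert, Finset.mem_singleton]
    by_cases h1 : q = a
    · (clear * - h1; tauto)
    by_cases h2 : q = b
    · (clear * - h2; tauto)
    by_cases h3 : q = c
    · (clear * - h3; tauto)
    have s1 := h.symm q a
    have s2 := h.symm q b
    have s3 := h.symm q c
    have := hq q (hF q hqF) h1 h2 h3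
    (clear * - s1 s2 s3 this hqF; tauto)
  have e1 := key a b c ha hb hc hab hac hbc
  have e2 := key b a c hb ha hc (h.symm _ _ hab) hbc hac
  have e3 := key c a b hc ha hb (h.symm _ _ hac) (h.symm _ _ hbc) hab
  have e4 : ({a, b, c} : Finset α).card ≤ 3 := Finset.card_le_three
  have := Finset.card_le_card hsub
  have u1 := Finset.card_union_le ({a, b, c} : Finset α)
    (F.filter (fun q => adj a q ∧ q ≠ b ∧ q ≠ c) ∪
      (F.filter (fun q => adj b q ∧ q ≠ a ∧ q ≠ c) ∪
        F.filter (fun q => adj c q ∧ q ≠ a ∧ q ≠ b)))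
  have u2 := Finset.card_union_le (F.filter (fun q => adj a q ∧ q ≠ b ∧ q ≠ c))
      (F.filter (fun q => adj b q ∧ q ≠ a ∧ q ≠ c) ∪
        F.filter (fun q => adj c q ∧ q ≠ a ∧ q ≠ b))
  have u3 := Finset.card_union_le (F.filter (fun q => adj b q ∧ q ≠ a ∧ q ≠ c))
        (F.filter (fun q => adj c q ∧ q ≠ a ∧ q ≠ b))
  omega

end PS

end Vale.Agent.P287
end
end

section

section

namespace Vale.Agent.P287

open Finset

namespace PS

variable {α : Type*} {P : α → Prop} {adj : α → α → Prop}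

/-- the third point of a line, as a function -/
theorem exists_tau (h : PS P adj) : ∃ τ : α → α → α, ∀ a b, P a → P b → adj a b →
    P (τ a b) ∧ τ a b ≠ a ∧ τ a b ≠ b ∧ adj a (τ a b) ∧ adj b (τ a b) ∧
    (∀ q, P q → q ≠ a → q ≠ b → q ≠ τ a b →
      (adj q a ∧ ¬ adj q b ∧ ¬ adj q (τ a b)) ∨ (¬ adj q a ∧ adj q b ∧ ¬ adj q (τ a b)) ∨
      (¬ adj q a ∧ ¬ adj q b ∧ adj q (τ a b))) ∧ τ a (τ a b) = b := by
  classical
  have hex : ∀ a b, ∃ c, P a → P b → adj a b → (P c ∧ c ≠ a ∧ c ≠ b ∧ adj a c ∧ adj b c ∧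
    ∀ q, P q → q ≠ a → q ≠ b → q ≠ c →
      (adj q a ∧ ¬ adj q b ∧ ¬ adj q c) ∨ (¬ adj q a ∧ adj q b ∧ ¬ adj q c) ∨
      (¬ adj q a ∧ ¬ adj q b ∧ adj q c)) := by
    intro a b
    by_cases hh : P a ∧ P b ∧ adj a b
    · obtain ⟨c, hc⟩ := h.third a b hh.1 hh.2.1 hh.2.2
      exact ⟨c, fun _ _ _ => hc⟩
    · exact ⟨a, fun h1 h2 h3 => absurd ⟨h1, h2, h3⟩ hh⟩
  choose τ hτ using hex
  refine ⟨τ, ?_⟩
  intro a b ha hb hab
  obtain ⟨h1, h2, h3, h4, h5, h6⟩ := hτ a b ha hb hab
  refine ⟨h1, h2, h3, h4, h5, h6, ?_⟩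
  obtain ⟨k1, k2, k3, k4, k5, k6⟩ := hτ a (τ a b) ha h1 h4
  exact h.unique ha h1 k1 hb h4 k4 k5 hab (h.symm _ _ h5)

end PS

open Classical in
/-- neighbourhood -/
noncomputable def Nb {α : Type*} (adj : α → α → Prop) (F : Finset α) (p : α) : Finset α :=
  F.filter (fun q => adj p q)

theorem mem_Nb {α : Type*} {adj : α → α → Prop} {F : Finset α} {p q : α} :
    q ∈ Nb adj F p ↔ q ∈ F ∧ adj p q := by
  simp [Nb]

open Classical in
/-- common neighbours -/
noncomputable def Cn {α : Type*} (adj : α → α → Prop) (F : Finset α) (p q : α) : Finset α :=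
  F.filter (fun x => adj p x ∧ adj q x)

theorem mem_Cn {α : Type*} {adj : α → α → Prop} {F : Finset α} {p q x : α} :
    x ∈ Cn adj F p q ↔ x ∈ F ∧ adj p x ∧ adj q x := by
  simp [Cn]

theorem Cn_comm {α : Type*} (adj : α → α → Prop) (F : Finset α) (p q : α) :
    Cn adj F p q = Cn adj F q p := by
  ext x
  rw [mem_Cn, mem_Cn]
  tauto

namespace PS

variable {α : Type*} {adj : α → α → Prop} {F : Finset α}

theorem deg_eq (h : PS (· ∈ F) adj) {p q : α} (hp : p ∈ F) (hq : q ∈ F) (hpq : p ≠ q)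
    (hn : ¬ adj p q) : (Nb adj F p).card = 2 * (Cn adj F p q).card := by
  classical
  obtain ⟨τ, hτ⟩ := h.exists_tau
  have e1 : ((Nb adj F p).filter (fun x => adj q x)).card =
      ((Nb adj F p).filter (fun x => ¬ adj q x)).card := by
    have hqp : ¬ adj q p := fun hh => hn (h.symm _ _ hh)
    apply Finset.card_nbij' (τ p) (τ p)
    · intro x hx
      simp only [Finset.coe_filter, Set.mem_ofPred_eq, mem_Nb] at hx ⊢
      obtain ⟨⟨hxF, hpx⟩, hqx⟩ := hx
      obtain ⟨h1, h2, h3, h4, h5, h6, h7⟩ := hτ p x hp hxF hpx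
      refine ⟨⟨h1, h4⟩, ?_⟩
      have := h6 q hq (Ne.symm hpq) (by rintro rfl; exact hn hpx) (by
        intro hh; rw [← hh] at h4; exact hn h4)
      (clear * - this hqp hqx; tauto)
    · intro x hx
      simp only [Finset.coe_filter, Set.mem_ofPred_eq, mem_Nb] at hx ⊢
      obtain ⟨⟨hxF, hpx⟩, hqx⟩ := hx
      obtain ⟨h1, h2, h3, h4, h5, h6, h7⟩ := hτ p x hp hxF hpx
      refine ⟨⟨h1, h4⟩, ?_⟩
      have := h6 q hq (Ne.symm hpq) (by rintro rfl; exact hn hpx) (by
        intro hh; rw [← hh] at h4; exact hn h4)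
      (clear * - this hqp hqx; tauto)
    · intro x hx
      simp only [Finset.coe_filter, Set.mem_ofPred_eq, mem_Nb] at hx
      exact (hτ p x hp hx.1.1 hx.1.2).2.2.2.2.2.2
    · intro x hx
      simp only [Finset.coe_filter, Set.mem_ofPred_eq, mem_Nb] at hx
      exact (hτ p x hp hx.1.1 hx.1.2).2.2.2.2.2.2
  have e2 := Finset.card_filter_add_card_filter_not (s := Nb adj F p) (fun x => adj q x)
  have e3 : (Nb adj F p).filter (fun x => adj q x) = Cn adj F p q := by
    ext x
    simp only [Finset.mem_filter, mem_Nb, mem_Cn]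
    (clear * -; tauto)
  rw [← e1, e3] at e2
  omega

theorem line_count (h : PS (· ∈ F) adj) {a b c : α} (ha : a ∈ F) (hb : b ∈ F) (hc : c ∈ F)
    (hab : adj a b) (hac : adj a c) (hbc : adj b c) :
    (Nb adj F a).card + (Nb adj F b).card + (Nb adj F c).card = F.card + 3 := by
  classical
  obtain ⟨d, hd, n1, n2, a1, a2, hq⟩ := h.third a b ha hb hab
  have hdc : d = c := h.unique ha hb hd hc hab a1 a2 hac hbc
  subst hdc
  have hanb : a ≠ b := h.ne_of_adj ha hab
  have e : ∀ x, (Nb adj F x).card = ∑ q ∈ F, if adj x q then 1 else 0 := by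
    intro x
    rw [Nb, Finset.card_filter]
  rw [e, e, e, ← Finset.sum_add_distrib, ← Finset.sum_add_distrib]
  have e2 : ∀ q ∈ F, ((if adj a q then 1 else 0) + (if adj b q then 1 else 0)) +
      (if adj d q then 1 else 0) = 1 + if q ∈ ({a, b, d} : Finset α) then 1 else 0 := by
    intro q hqF
    simp only [Finset.mem_insert, Finset.mem_singleton]
    have ia := h.irr a ha
    have ib := h.irr b hb
    have id' := h.irr d hc
    have sba := h.symm a b hab
    have sca := h.symm a d hac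
    have scb := h.symm b d hbc
    by_cases h1 : q = a
    · subst h1
      simp [ia, sba, sca]
    by_cases h2 : q = b
    · subst h2
      simp [ib, hab, scb]
    by_cases h3 : q = d
    · subst h3
      simp [id', hac, hbc]
    have hqa : adj q a ↔ adj a q := ⟨h.symm _ _, h.symm _ _⟩
    have hqb : adj q b ↔ adj b q := ⟨h.symm _ _, h.symm _ _⟩
    have hqd : adj q d ↔ adj d q := ⟨h.symm _ _, h.symm _ _⟩
    have hh := hq q hqF h1 h2 h3
    rw [hqa, hqb, hqd] at hh
    rcases hh with ⟨x1, x2, x3⟩ | ⟨x1, x2, x3⟩ | ⟨x1, x2, x3⟩ <;> simp [h1, h2, h3, x1, x2, x3]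
  rw [Finset.sum_congr rfl e2, Finset.sum_add_distrib, Finset.sum_const, ← Finset.card_filter]
  have e3 : F.filter (fun q => q ∈ ({a, b, d} : Finset α)) = {a, b, d} := by
    ext q
    simp only [Finset.mem_filter, Finset.mem_insert, Finset.mem_singleton]
    constructor
    · exact fun hh => hh.2
    · intro hh
      refine ⟨?_, hh⟩
      rcases hh with rfl | rfl | rfl
      · exact ha
      · exact hb
      · exact hc
  rw [e3, Finset.card_insert_of_notMem, Finset.card_insert_of_notMem, Finset.card_singleton]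
  · simp
  · simpa using Ne.symm n2
  · simp only [Finset.mem_insert, Finset.mem_singleton, not_or]
    exact ⟨hanb, Ne.symm n1⟩

/-- common neighbours of two points are pairwise non adjacent -/
theorem Cn_free (h : PS (· ∈ F) adj) {p q : α} (hp : p ∈ F) (hq : q ∈ F) (hpq : p ≠ q)
    {x y : α} (hx : x ∈ Cn adj F p q) (hy : y ∈ Cn adj F p q) : ¬ adj x y := by
  intro hxy
  rw [mem_Cn] at hx hy
  exact hpq (h.unique hx.1 hy.1 hp hq hxy (h.symm _ _ hx.2.1) (h.symm _ _ hy.2.1)
    (h.symm _ _ hx.2.2) (h.symm _ _ hy.2.2))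

/-- Higman's inequality -/
theorem higman (h : PS (· ∈ F) adj) {s : ℕ} (hdeg : ∀ x ∈ F, (Nb adj F x).card = 2 * s)
    {p q : α} (hp : p ∈ F) (hq : q ∈ F) (hpq : p ≠ q) (hn : ¬ adj p q)
    (hF : F.card + 3 = 6 * s) : s ≤ 5 := by
  classical
  obtain ⟨τ, hτ⟩ := h.exists_tau
  have hnq : ¬ adj q p := fun hh => hn (h.symm _ _ hh)
  have hCn : ∀ x ∈ F, ∀ y ∈ F, x ≠ y → ¬ adj x y → (Cn adj F x y).card = s := by
    intro x hx y hy hxy hnxy
    have := h.deg_eq hx hy hxy hnxy
    rw [hdeg x hx] at this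
    omega
  set C := Cn adj F p q with hC
  have hCs : C.card = s := hCn p hp q hq hpq hn
  set Z := F.filter (fun z => z ≠ p ∧ z ≠ q ∧ ¬ adj p z ∧ ¬ adj q z) with hZ
  -- the size of Z
  have hZc : Z.card + 5 = 3 * s := by
    have e1 : Z = F \ ({p, q} ∪ (Nb adj F p ∪ Nb adj F q)) := by
      ext z
      simp only [hZ, Finset.mem_filter, Finset.mem_sdiff, Finset.mem_union, Finset.mem_insert,
        Finset.mem_singleton, mem_Nb]
      (clear * -; tauto)
    have e2 : ({p, q} ∪ (Nb adj F p ∪ Nb adj F q)) ⊆ F := by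
      intro z hz
      simp only [Finset.mem_union, Finset.mem_insert, Finset.mem_singleton, mem_Nb] at hz
      rcases hz with (rfl | rfl) | (hz | hz)
      · exact hp
      · exact hq
      · exact hz.1
      · exact hz.1
    have e3 := Finset.card_sdiff_add_card_eq_card e2
    rw [← e1] at e3
    have e4 : Disjoint ({p, q} : Finset α) (Nb adj F p ∪ Nb adj F q) := by
      rw [Finset.disjoint_left]
      intro z hz
      simp only [Finset.mem_insert, Finset.mem_singleton] at hz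
      simp only [Finset.mem_union, mem_Nb]
      rcases hz with rfl | rfl
      · have := h.irr _ hp; (clear * - this hnq; tauto)
      · have := h.irr _ hq; (clear * - hn this; tauto)
    rw [Finset.card_union_of_disjoint e4, Finset.card_pair hpq] at e3
    have e5 := Finset.card_union_add_card_inter (Nb adj F p) (Nb adj F q)
    have e6 : Nb adj F p ∩ Nb adj F q = C := by
      ext z
      simp only [hC, Finset.mem_inter, mem_Nb, mem_Cn]
      (clear * -; tauto)
    rw [e6, hCs, hdeg p hp, hdeg q hq] at e5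
    omega
  -- degrees into Z
  have hA : ∀ a ∈ C, (Z.filter (fun z => adj a z)).card + 4 = 2 * s := by
    intro a ha
    rw [hC, mem_Cn] at ha
    obtain ⟨haF, hpa, hqa⟩ := ha
    have hap := h.symm _ _ hpa
    have haq := h.symm _ _ hqa
    obtain ⟨h1, h2, h3, h4, h5, h6, h7⟩ := hτ a p haF hp hap
    obtain ⟨k1, k2, k3, k4, k5, k6, k7⟩ := hτ a q haF hq haq
    set x := τ a p with hx
    set y := τ a q with hy
    have hqx : q ≠ x := by
      intro hh; rw [← hh] at h5; exact hn h5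
    have hpy : p ≠ y := by
      intro hh; rw [← hh] at k5; exact hnq k5
    have hxy : x ≠ y := by
      intro hh
      have := h6 q hq (h.ne_of_adj hq hqa) (Ne.symm hpq) hqx
      have h8 : adj q x := by rw [hh]; exact k5
      (clear * - this h8 hnq hqa; tauto)
    have e1 : Nb adj F a \ {p, q, x, y} = Z.filter (fun z => adj a z) := by
      ext z
      simp only [hZ, Finset.mem_filter, Finset.mem_sdiff, Finset.mem_insert,
        Finset.mem_singleton, mem_Nb]
      constructor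
      · rintro ⟨⟨hzF, haz⟩, hz⟩
        refine ⟨⟨hzF, ?_, ?_, ?_, ?_⟩, haz⟩
        · (clear * - hz; tauto)
        · (clear * - hz; tauto)
        · intro hpz
          apply hz
          right; right; left
          exact h.unique haF hp hzF h1 hap haz hpz h4 h5
        · intro hqz
          apply hz
          right; right; right
          exact h.unique haF hq hzF k1 haq haz hqz k4 k5
      · rintro ⟨⟨hzF, z1, z2, z3, z4⟩, haz⟩
        refine ⟨⟨hzF, haz⟩, ?_⟩
        rintro (rfl | rfl | rfl | rfl)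
        · exact z1 rfl
        · exact z2 rfl
        · exact z3 h5
        · exact z4 k5
    have e2 : ({p, q, x, y} : Finset α) ⊆ Nb adj F a := by
      intro z hz
      simp only [Finset.mem_insert, Finset.mem_singleton] at hz
      rw [mem_Nb]
      rcases hz with rfl | rfl | rfl | rfl
      · exact ⟨hp, hap⟩
      · exact ⟨hq, haq⟩
      · exact ⟨h1, h4⟩
      · exact ⟨k1, k4⟩
    have e3 := Finset.card_sdiff_add_card_eq_card e2
    have e4 : ({p, q, x, y} : Finset α).card = 4 := by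
      rw [Finset.card_insert_of_notMem, Finset.card_insert_of_notMem,
        Finset.card_insert_of_notMem, Finset.card_singleton]
      · simpa using hxy
      · simp only [Finset.mem_insert, Finset.mem_singleton, not_or]
        exact ⟨hqx, Ne.symm k3⟩
      · simp only [Finset.mem_insert, Finset.mem_singleton, not_or]
        exact ⟨hpq, Ne.symm h3, hpy⟩
    rw [e1, e4, hdeg a haF] at e3
    exact e3
  have hB : ∀ a ∈ C, ∀ b ∈ C, a ≠ b →
      (Z.filter (fun z => adj a z ∧ adj b z)).card + 2 = s := by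
    intro a ha b hb hab
    have hnab := h.Cn_free hp hq hpq ha hb
    rw [hC, mem_Cn] at ha hb
    obtain ⟨haF, hpa, hqa⟩ := ha
    obtain ⟨hbF, hpb, hqb⟩ := hb
    have hap := h.symm _ _ hpa
    have haq := h.symm _ _ hqa
    have hbp := h.symm _ _ hpb
    have hbq := h.symm _ _ hqb
    have e1 : Cn adj F a b \ {p, q} = Z.filter (fun z => adj a z ∧ adj b z) := by
      ext z
      simp only [hZ, Finset.mem_filter, Finset.mem_sdiff, Finset.mem_insert,
        Finset.mem_singleton, mem_Cn]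
      constructor
      · rintro ⟨⟨hzF, haz, hbz⟩, hz⟩
        refine ⟨⟨hzF, ?_, ?_, ?_, ?_⟩, haz, hbz⟩
        · (clear * - hz; tauto)
        · (clear * - hz; tauto)
        · intro hpz
          exact hab (h.unique hp hzF haF hbF hpz hpa (h.symm _ _ haz) hpb (h.symm _ _ hbz))
        · intro hqz
          exact hab (h.unique hq hzF haF hbF hqz hqa (h.symm _ _ haz) hqb (h.symm _ _ hbz))
      · rintro ⟨⟨hzF, z1, z2, z3, z4⟩, haz, hbz⟩
        exact ⟨⟨hzF, haz, hbz⟩, by (clear * - z1 z2; tauto)⟩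
    have e2 : ({p, q} : Finset α) ⊆ Cn adj F a b := by
      intro z hz
      simp only [Finset.mem_insert, Finset.mem_singleton] at hz
      rw [mem_Cn]
      rcases hz with rfl | rfl
      · exact ⟨hp, hap, hbp⟩
      · exact ⟨hq, haq, hbq⟩
    have e3 := Finset.card_sdiff_add_card_eq_card e2
    rw [e1, Finset.card_pair hpq, hCn a haF b hbF hab hnab] at e3
    exact e3
  -- the two sums
  set n : α → ℤ := fun z => ∑ a ∈ C, if adj a z then 1 else 0 with hn'
  have S1 : ∑ z ∈ Z, n z = s * (2 * s - 4) := by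
    simp only [hn']
    rw [Finset.sum_comm]
    have : ∀ a ∈ C, (∑ z ∈ Z, if adj a z then (1 : ℤ) else 0) = 2 * s - 4 := by
      intro a ha
      rw [← Finset.sum_filter, Finset.sum_const, nsmul_eq_mul, mul_one]
      have := hA a ha
      have h2 : ((Z.filter (fun z => adj a z)).card : ℤ) + 4 = 2 * s := by exact_mod_cast this
      linarith only [this]
    rw [Finset.sum_congr rfl this, Finset.sum_const, nsmul_eq_mul, hCs]
  have S2 : ∑ z ∈ Z, n z ^ 2 = s * ((2 * s - 4) + (s - 1) * (s - 2)) := by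
    have e1 : ∀ z ∈ Z, n z ^ 2 = ∑ a ∈ C, ∑ b ∈ C, if adj a z ∧ adj b z then (1 : ℤ) else 0 := by
      intro z _
      simp only [hn']
      rw [sq, Finset.sum_mul_sum]
      refine Finset.sum_congr rfl fun a _ => Finset.sum_congr rfl fun b _ => ?_
      by_cases h1 : adj a z <;> by_cases h2 : adj b z <;> simp [h1, h2]
    rw [Finset.sum_congr rfl e1, Finset.sum_comm]
    have : ∀ a ∈ C, (∑ z ∈ Z, ∑ b ∈ C, if adj a z ∧ adj b z then (1 : ℤ) else 0) =
        (2 * s - 4) + (s - 1) * (s - 2) := by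
      intro a ha
      rw [Finset.sum_comm, ← Finset.add_sum_erase C _ ha]
      congr 1
      · have e2 : ∀ z ∈ Z, (if adj a z ∧ adj a z then (1 : ℤ) else 0) =
            if adj a z then (1 : ℤ) else 0 := by
          intro z _; simp
        rw [Finset.sum_congr rfl e2, ← Finset.sum_filter, Finset.sum_const, nsmul_eq_mul, mul_one]
        have := hA a ha
        have h2 : ((Z.filter (fun z => adj a z)).card : ℤ) + 4 = 2 * s := by exact_mod_cast this
        linarith only [this]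
      · have e2 : ∀ b ∈ C.erase a, (∑ z ∈ Z, if adj a z ∧ adj b z then (1 : ℤ) else 0) =
            s - 2 := by
          intro b hb
          rw [Finset.mem_erase] at hb
          rw [← Finset.sum_filter, Finset.sum_const, nsmul_eq_mul, mul_one]
          have := hB a ha b hb.2 (Ne.symm hb.1)
          have h2 : ((Z.filter (fun z => adj a z ∧ adj b z)).card : ℤ) + 2 = s := by
            exact_mod_cast this
          linarith only [this]
        rw [Finset.sum_congr rfl e2, Finset.sum_const, nsmul_eq_mul]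
        have e3 : ((C.erase a).card : ℤ) = s - 1 := by
          have := Finset.card_erase_add_one ha
          rw [hCs] at this
          have h4 : ((C.erase a).card : ℤ) + 1 = s := by exact_mod_cast this
          linarith only [this]
        rw [e3]
    rw [Finset.sum_congr rfl this, Finset.sum_const, nsmul_eq_mul, hCs]
  have CS := sq_sum_le_card_mul_sum_sq (s := Z) (f := n)
  rw [S1, S2] at CS
  have hZi : (Z.card : ℤ) = 3 * s - 5 := by
    have : (Z.card : ℤ) + 5 = 3 * s := by exact_mod_cast hZc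
    linarith only [hZc]
  rw [hZi] at CS
  by_contra hlt
  push Not at hlt
  have hs6 : (6 : ℤ) ≤ s := by exact_mod_cast hlt
  obtain ⟨t, ht⟩ : ∃ t : ℤ, t = (s : ℤ) := ⟨_, rfl⟩
  rw [← ht] at CS hs6
  -- (t (2t-4))^2 <= (3t-5) t ((2t-4) + (t-1)(t-2)) fails for t >= 6
  have h1 : (3 * t - 5) * (t * ((2 * t - 4) + (t - 1) * (t - 2))) - (t * (2 * t - 4)) ^ 2 =
      - (t * (t - 2) * ((t - 1) * (t - 5))) := by ring
  have h2 : 0 < t * (t - 2) * ((t - 1) * (t - 5)) := by
    apply mul_pos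
    · apply mul_pos <;> linarith only [hs6]
    · apply mul_pos <;> linarith only [hs6]
  linarith only [CS, h2]

/-- the general counting bound -/
theorem card_le_closed (h : PS (· ∈ F) adj)
    (hE : Free adj F → F.card ≤ 27) {K : ℕ} (hK13 : 13 ≤ K)
    (hK : ∀ p ∈ F, ∀ M ⊆ Nb adj F p, Free adj M → M.card ≤ K) : F.card ≤ 2 * K + 1 := by
  classical
  by_cases hfree : Free adj F
  · have := hE hfree; omega
  simp only [Free] at hfree
  push Not at hfree
  obtain ⟨a, ha, b, hb, -, hab⟩ := hfree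
  by_cases hstar : ∃ p ∈ F, ∀ q ∈ F, q ≠ p → adj p q
  · obtain ⟨p, hp, hall⟩ := hstar
    have e1 : F ⊆ insert p (Nb adj F p) := by
      intro q hq
      rw [Finset.mem_insert, mem_Nb]
      by_cases hqp : q = p
      · exact Or.inl hqp
      · exact Or.inr ⟨hq, hall q hq hqp⟩
    have e2 := Finset.card_le_card e1
    have e3 := Finset.card_insert_le p (Nb adj F p)
    have e4 := h.nbr_le hp (Nb adj F p) (fun q hq => by
      rw [mem_Nb] at hq; exact hq) (hK p hp)
    omega
  push Not at hstar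
  -- regularity
  have hreg0 : ∀ x ∈ F, ∀ y ∈ F, ¬ adj x y → (Nb adj F x).card = (Nb adj F y).card := by
    intro x hx y hy hn
    by_cases hxy : x = y
    · rw [hxy]
    · rw [h.deg_eq hx hy hxy hn, h.deg_eq hy hx (Ne.symm hxy) (fun hh => hn (h.symm _ _ hh)),
        Cn_comm]
  have hreg1 : ∀ x ∈ F, ∀ y ∈ F, adj x y → (Nb adj F x).card = (Nb adj F y).card := by
    intro x hx y hy hxy
    by_cases hcom : ∃ z ∈ F, ¬ adj x z ∧ ¬ adj y z
    · obtain ⟨z, hz, h1, h2⟩ := hcom
      rw [hreg0 x hx z hz h1, hreg0 y hy z hz h2]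
    push Not at hcom
    obtain ⟨c, hc, hcx, hcy, hxc, hyc, hq⟩ := h.third x y hx hy hxy
    -- nothing outside the line is adjacent to c
    have hc' : ∀ q ∈ F, q ≠ x → q ≠ y → ¬ adj c q := by
      intro q hqF h1 h2 hcq
      have h3 : q ≠ c := by rintro rfl; exact h.irr _ hc hcq
      have := hq q hqF h1 h2 h3
      have s1 := h.symm c q hcq
      have s2 : ¬ adj x q := fun hh => by have := h.symm _ _ hh; (clear K hK13 hK a ha b hb hab hstar hreg0 hx hy hxy hcom; tauto)
      have s3 := h.symm _ _ (hcom q hqF s2)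
      (clear * - hE this s3 s1; tauto)
    have hxx : (Nb adj F x).card = (Nb adj F c).card := by
      obtain ⟨r, hr, hrx, hnr⟩ := hstar x hx
      have hry : r ≠ y := by rintro rfl; exact hnr hxy
      have hcr := hc' r hr hrx hry
      rw [hreg0 x hx r hr hnr, hreg0 c hc r hr hcr]
    have hyy : (Nb adj F y).card = (Nb adj F c).card := by
      obtain ⟨r, hr, hry, hnr⟩ := hstar y hy
      have hrx : r ≠ x := by rintro rfl; exact hnr (h.symm _ _ hxy)
      have hcr := hc' r hr hrx hry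
      rw [hreg0 y hy r hr hnr, hreg0 c hc r hr hcr]
    rw [hxx, hyy]
  have hreg : ∀ x ∈ F, ∀ y ∈ F, (Nb adj F x).card = (Nb adj F y).card := by
    intro x hx y hy
    by_cases hxy : adj x y
    · exact hreg1 x hx y hy hxy
    · exact hreg0 x hx y hy hxy
  obtain ⟨q, hq, hqa, hnq⟩ := hstar a ha
  have hdega := h.deg_eq ha hq (Ne.symm hqa) hnq
  set s := (Cn adj F a q).card with hs
  have hdeg : ∀ x ∈ F, (Nb adj F x).card = 2 * s := by
    intro x hx
    rw [hreg x hx a ha, hdega]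
  obtain ⟨c, hc, hca, hcb, hac, hbc, -⟩ := h.third a b ha hb hab
  have hline := h.line_count ha hb hc hab hac hbc
  rw [hdeg a ha, hdeg b hb, hdeg c hc] at hline
  have hs5 : s ≤ 5 := h.higman hdeg ha hq (Ne.symm hqa) hnq (by omega)
  omega

end PS

end Vale.Agent.P287
end
end

section

section

set_option maxSynthPendingDepth 3

namespace Vale.Agent.P287

open Module

theorem det_change (B : Tri6) (c c' w w' : Fin 3 → V6) (H G : Matrix (Fin 3) (Fin 3) ℂ)
    (hc : ∀ a, c' a = ∑ i, H a i • c i) (hw : ∀ b, w' b = ∑ j, G b j • w j) (z : V6) :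
    Matrix.det (Matrix.of fun a b => B (c' a) z (w' b)) =
      H.det * Matrix.det (Matrix.of fun a b => B (c a) z (w b)) * G.det := by
  have h : (Matrix.of fun a b => B (c' a) z (w' b)) =
      H * (Matrix.of fun a b => B (c a) z (w b)) * G.transpose := by
    ext a b
    rw [Matrix.mul_apply]
    simp only [Matrix.mul_apply, Matrix.of_apply, Matrix.transpose_apply, hc, hw,
      Fin.sum_univ_three, map_add, map_smul, LinearMap.add_apply, LinearMap.smul_apply,
      smul_eq_mul]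
    ring
  rw [h, Matrix.det_mul, Matrix.det_mul, Matrix.det_transpose]

/-- coordinates on a plane adapted to one of its vectors -/
theorem exists_coords3 {P : Submodule ℂ V6} (hP : finrank ℂ P = 3) {e : V6} (he : e ∈ P)
    (he0 : e ≠ 0) : ∃ p0 ∈ P, ∃ p1 ∈ P, ∃ y : V6 →ₗ[ℂ] E3,
      (∀ x ∈ P, pt p0 p1 e (y x) = x) ∧ (∀ z : E3, pt p0 p1 e z = 0 → z = 0) := by
  obtain ⟨y2', h2'⟩ := Submodule.exists_dual_map_eq_bot_of_notMem (p := (⊥ : Submodule ℂ V6))
    (x := e) (by simpa only [Submodule.mem_bot, ne_eq] using he0) inferInstance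
  set y2 : V6 →ₗ[ℂ] ℂ := (y2' e)⁻¹ • y2' with hy2
  have h2 : y2 e = 1 := by simp [hy2, h2'.1]
  set N : Submodule ℂ V6 := P ⊓ LinearMap.ker y2 with hN
  have hN2 : finrank ℂ N = 2 := by
    have := finrank_inf_ker (M := P) (l := y2) ⟨e, he, by rw [h2]; exact one_ne_zero⟩
    rw [hP] at this
    show finrank ℂ (P ⊓ LinearMap.ker y2 : Submodule ℂ V6) = 2
    omega
  set bN := Module.finBasisOfFinrankEq ℂ N hN2 with hbN
  obtain ⟨g0, hg0⟩ := LinearMap.exists_extend (bN.coord 0)
  obtain ⟨g1, hg1⟩ := LinearMap.exists_extend (bN.coord 1)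
  have g0' : ∀ x : N, g0 x = bN.repr x 0 := by
    intro x
    have := congrArg (fun g : N →ₗ[ℂ] ℂ => g x) hg0
    simpa only [Fin.isValue, LinearMap.coe_comp, Submodule.coe_subtype, Function.comp_apply,     Basis.coord_apply] using this
  have g1' : ∀ x : N, g1 x = bN.repr x 1 := by
    intro x
    have := congrArg (fun g : N →ₗ[ℂ] ℂ => g x) hg1
    simpa only [Fin.isValue, LinearMap.coe_comp, Submodule.coe_subtype, Function.comp_apply,     Basis.coord_apply] using this
  set p0 : V6 := ((bN 0 : N) : V6) with hp0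
  set p1 : V6 := ((bN 1 : N) : V6) with hp1
  have m0 : p0 ∈ N := (bN 0).2
  have m1 : p1 ∈ N := (bN 1).2
  set pr : V6 →ₗ[ℂ] V6 := LinearMap.id - y2.smulRight e with hpr
  have hpra : ∀ x, pr x = x - y2 x • e := fun x => rfl
  have hprN : ∀ x ∈ P, pr x ∈ N := by
    intro x hx
    refine ⟨P.sub_mem hx (P.smul_mem _ he), ?_⟩
    show y2 (x - y2 x • e) = 0
    rw [map_sub, map_smul, h2]; simp
  refine ⟨p0, m0.1, p1, m1.1, LinearMap.pi ![g0.comp pr, g1.comp pr, y2], ?_, ?_⟩
  · intro x hx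
    rw [pt_apply]
    simp only [LinearMap.pi_apply, Matrix.cons_val_zero, Matrix.cons_val_one, Matrix.cons_val,
      LinearMap.comp_apply]
    have h1 := bN.sum_repr ⟨pr x, hprN x hx⟩
    rw [Fin.sum_univ_two] at h1
    have h2 := congrArg (fun z : N => (z : V6)) h1
    simp only [Submodule.coe_add, Submodule.coe_smul] at h2
    have e0 := g0' ⟨pr x, hprN x hx⟩
    have e1 := g1' ⟨pr x, hprN x hx⟩
    simp only at e0 e1
    rw [e0, e1, h2, hpra]
    abel
  · intro z hz
    rw [pt_apply] at hz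
    have hz2 : z 2 = 0 := by
      have := congrArg y2 hz
      rw [map_add, map_add, map_smul, map_smul, map_smul, h2, show y2 p0 = 0 from m0.2,
        show y2 p1 = 0 from m1.2, map_zero] at this
      simpa using this
    rw [hz2, zero_smul, add_zero] at hz
    have hind := Fintype.linearIndependent_iff.mp bN.linearIndependent ![z 0, z 1] (by
      rw [Fin.sum_univ_two]
      apply Subtype.ext
      simpa only [Fin.isValue, Matrix.cons_val_zero, Matrix.cons_val_one, Matrix.cons_val_fin_one,     Submodule.coe_add, SetLike.val_smul, ZeroMemClass.coe_zero] using hz)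
    ext i
    fin_cases i
    · exact hind 0
    · exact hind 1
    · exact hz2

/-- frame of a plane relative to a common complement -/
structure Frame (B : Tri6) (c : Fin 3 → V6) (ρ χ : Fin 3 → (V6 →ₗ[ℂ] ℂ))
    (P : Submodule ℂ V6) (p : Fin 3 → V6) : Prop where
  pl : Pl B P
  mem : ∀ b, p b ∈ P
  rho : ∀ b b', ρ b (p b') = if b' = b then 1 else 0

structure Compl3 (c : Fin 3 → V6) (ρ χ : Fin 3 → (V6 →ₗ[ℂ] ℂ)) : Prop where
  rc : ∀ b a, ρ b (c a) = 0
  xc : ∀ b a, χ b (c a) = if a = b then 1 else 0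
  dec : ∀ x, (∀ b, ρ b x = 0) → x = ∑ a, χ a x • c a

/-- projection to the plane along the complement -/
noncomputable def theta (ρ : Fin 3 → (V6 →ₗ[ℂ] ℂ)) (w : Fin 3 → V6) : V6 →ₗ[ℂ] V6 :=
  ∑ b, (ρ b).smulRight (w b)

theorem theta_apply (ρ : Fin 3 → (V6 →ₗ[ℂ] ℂ)) (w : Fin 3 → V6) (x : V6) :
    theta ρ w x = ∑ b, ρ b x • w b := by
  simp only [theta, LinearMap.sum_apply, LinearMap.coe_smulRight]

theorem Frame.eq_theta {B : Tri6} {c : Fin 3 → V6} {ρ χ : Fin 3 → (V6 →ₗ[ℂ] ℂ)}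
    {P : Submodule ℂ V6} {p : Fin 3 → V6} (hF : Frame B c ρ χ P p)
    {x : V6} (hx : x ∈ P) : theta ρ p x = x := by
  rw [theta_apply]
  have hli : LinearIndependent ℂ p := by
    rw [Fintype.linearIndependent_iff]
    intro g hg i
    have := congrArg (ρ i) hg
    simp only [map_sum, map_smul, hF.rho, smul_eq_mul, map_zero] at this
    simpa using this
  have hspan : Submodule.span ℂ (Set.range p) = P := by
    apply Submodule.eq_of_le_of_finrank_le
    · rw [Submodule.span_le]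
      rintro _ ⟨b, rfl⟩
      exact hF.mem b
    · rw [finrank_span_eq_card hli, hF.pl.rk]; simp
  rw [← hspan] at hx
  obtain ⟨g, rfl⟩ := (Submodule.mem_span_range_iff_exists_fun ℂ).mp hx
  refine Finset.sum_congr rfl fun b _ => ?_
  congr 1
  simp only [map_sum, map_smul, hF.rho, smul_eq_mul]
  simp

/-- the residue form of a plane -/
noncomputable def om (B : Tri6) (c : Fin 3 → V6) (ρ : Fin 3 → (V6 →ₗ[ℂ] ℂ)) (w : Fin 3 → V6)
    (x : V6) : ℂ :=
  Matrix.det (Matrix.of fun a b => B (c a) (x + theta ρ w x) (w b))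

noncomputable def dd (B : Tri6) (c : Fin 3 → V6) (p : Fin 3 → V6) (x : V6) : ℂ :=
  Matrix.det (Matrix.of fun a b => B (c a) x (p b))

theorem om_self {B : Tri6} {c : Fin 3 → V6} {ρ χ : Fin 3 → (V6 →ₗ[ℂ] ℂ)}
    {P : Submodule ℂ V6} {p : Fin 3 → V6} (hF : Frame B c ρ χ P p) {x : V6} (hx : x ∈ P) :
    om B c ρ p x = 8 * dd B c p x := by
  unfold om dd
  rw [hF.eq_theta hx, Matrix.det_fin_three, Matrix.det_fin_three]
  simp only [Matrix.of_apply, map_add, LinearMap.add_apply]
  ring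

set_option maxHeartbeats 2000000 in
theorem restrict_main {B : Tri6} (hB : Good B) {c : Fin 3 → V6} {ρ χ : Fin 3 → (V6 →ₗ[ℂ] ℂ)}
    (hC : Compl3 c ρ χ) {P W : Submodule ℂ V6} {p w : Fin 3 → V6}
    (hP : Frame B c ρ χ P p) (hW : Frame B c ρ χ W w)
    (hPW : finrank ℂ (P ⊓ W : Submodule ℂ V6) = 1) :
    (∃ lam : Fin 3 → (V6 →ₗ[ℂ] ℂ), ∀ x ∈ P,
      om B c ρ w x = 2 * dd B c p x + ∑ a, lam a x * B x x (c a)) ∧
    (∀ lam : Fin 3 → (V6 →ₗ[ℂ] ℂ), ¬ ∀ x ∈ P, dd B c p x = ∑ a, lam a x * B x x (c a)) := by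
  obtain ⟨e, heI, he0⟩ : ∃ e ∈ P ⊓ W, e ≠ 0 := by
    obtain ⟨x, hx, hx'⟩ := exists_notMem_of_finrank_lt (U := ⊥)
      (W := (P ⊓ W : Submodule ℂ V6)) (by simp; omega)
    exact ⟨x, hx, by intro h; apply hx'; simp only [h, zero_mem]⟩
  obtain ⟨p0, mp0, p1, mp1, y, hy, hinj⟩ := exists_coords3 hP.pl.rk heI.1 he0
  set w0 := theta ρ w p0 with hw0
  set w1 := theta ρ w p1 with hw1
  have mw : ∀ x, theta ρ w x ∈ W := by
    intro x
    rw [theta_apply]
    exact W.sum_mem fun b _ => W.smul_mem _ (hW.mem b)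
  have hrt : ∀ b x, ρ b (theta ρ w x) = ρ b x := by
    intro b x
    rw [theta_apply]
    simp only [map_sum, map_smul, hW.rho, smul_eq_mul]
    simp
  -- the difference lies in the complement
  have hdiff : ∀ x, theta ρ w x - x = ∑ a, χ a (theta ρ w x - x) • c a := by
    intro x
    apply hC.dec
    intro b
    rw [map_sub, hrt, sub_self]
  have hte : theta ρ w e = e := hW.eq_theta heI.2
  -- multiples of e
  have hmul : ∀ x ∈ P ⊓ W, ∃ a : ℂ, x = a • e := by
    intro x hx
    have hle : Submodule.span ℂ {e} ≤ P ⊓ W := by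
      rw [Submodule.span_singleton_le_iff_mem]; exact heI
    have heq : Submodule.span ℂ {e} = P ⊓ W :=
      Submodule.eq_of_le_of_finrank_le hle (by rw [finrank_span_singleton he0]; omega)
    rw [← heq] at hx
    obtain ⟨a, ha⟩ := Submodule.mem_span_singleton.mp hx
    exact ⟨a, ha.symm⟩
  have hcind : LinearIndependent ℂ c := by
    rw [Fintype.linearIndependent_iff]
    intro g hg i
    have := congrArg (χ i) hg
    simp only [map_sum, map_smul, hC.xc, smul_eq_mul, map_zero] at this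
    simpa using this
  have hspan3 : finrank ℂ (Submodule.span ℂ (Set.range c)) = 3 := by
    rw [finrank_span_eq_card hcind]; simp
  obtain ⟨c2, hc2, hc2'⟩ := exists_notMem_of_finrank_lt
    (U := Submodule.span ℂ {w0 - p0, w1 - p1}) (W := Submodule.span ℂ (Set.range c))
    (by have := finrank_span_pair_le (w0 - p0) (w1 - p1); omega)
  obtain ⟨g, hg⟩ := (Submodule.mem_span_range_iff_exists_fun ℂ).mp hc2
  set c' : Fin 3 → V6 := ![w0 - p0, w1 - p1, c2] with hc'
  set p' : Fin 3 → V6 := ![p0, p1, e] with hp'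
  set w' : Fin 3 → V6 := ![w0, w1, e] with hw'
  set H : Matrix (Fin 3) (Fin 3) ℂ := Matrix.of ![fun a => χ a (w0 - p0),
    fun a => χ a (w1 - p1), g] with hH
  set G : Matrix (Fin 3) (Fin 3) ℂ := Matrix.of fun b j => ρ j (p' b) with hG
  have hcH : ∀ a, c' a = ∑ i, H a i • c i := by
    intro a
    fin_cases a
    · exact hdiff p0
    · exact hdiff p1
    · exact hg.symm
  have mp' : ∀ b, p' b ∈ P := by
    intro b
    fin_cases b
    · exact mp0
    · exact mp1
    · exact heI.1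
  have hpG : ∀ b, p' b = ∑ j, G b j • p j := by
    intro b
    have := hP.eq_theta (mp' b)
    rw [theta_apply] at this
    exact this.symm
  have hwG : ∀ b, w' b = ∑ j, G b j • w j := by
    intro b
    have h1 : w' b = theta ρ w (p' b) := by
      fin_cases b
      · rfl
      · rfl
      · exact hte.symm
    rw [h1, theta_apply]
    rfl
  have hGdet : G.det ≠ 0 := by
    intro h0
    obtain ⟨v, hv0, hv⟩ := Matrix.exists_vecMul_eq_zero_iff.mpr h0
    apply hv0
    apply hinj
    have e1 : pt p0 p1 e v = ∑ b, v b • p' b := by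
      rw [pt_apply, Fin.sum_univ_three]; rfl
    rw [e1]
    have e2 : ∑ b, v b • p' b = ∑ j, (Matrix.vecMul v G) j • p j := by
      simp only [hpG, Matrix.vecMul, dotProduct, Finset.smul_sum, Finset.sum_smul, smul_smul]
      rw [Finset.sum_comm]
    rw [e2, hv]
    simp
  have hHdet : H.det ≠ 0 := by
    intro h0
    obtain ⟨v, hv0, hv⟩ := Matrix.exists_vecMul_eq_zero_iff.mpr h0
    apply hv0
    have e2 : ∑ b, v b • c' b = ∑ j, (Matrix.vecMul v H) j • c j := by
      simp only [hcH, Matrix.vecMul, dotProduct, Finset.smul_sum, Finset.sum_smul, smul_smul]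
      rw [Finset.sum_comm]
    rw [hv] at e2
    simp only [Pi.zero_apply, zero_smul, Finset.sum_const_zero] at e2
    rw [Fin.sum_univ_three] at e2
    have e3 : v 0 • (w0 - p0) + v 1 • (w1 - p1) + v 2 • c2 = 0 := e2
    have v2 : v 2 = 0 := by
      by_contra hne
      apply hc2'
      have : c2 = (-((v 2)⁻¹ * v 0)) • (w0 - p0) + (-((v 2)⁻¹ * v 1)) • (w1 - p1) := by
        have e4 : v 2 • c2 = -(v 0 • (w0 - p0) + v 1 • (w1 - p1)) :=
          eq_neg_of_add_eq_zero_right e3
        calc c2 = (v 2)⁻¹ • (v 2 • c2) := by rw [smul_smul, inv_mul_cancel₀ hne, one_smul]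
          _ = _ := by
            rw [e4, smul_neg, smul_add, smul_smul, smul_smul, neg_add, neg_smul, neg_smul]
      rw [this]
      exact Submodule.add_mem _ (Submodule.smul_mem _ _ (Submodule.subset_span (by simp)))
        (Submodule.smul_mem _ _ (Submodule.subset_span (by simp only [Set.mem_insert_iff, Set.mem_singleton_iff, or_true])))
    rw [v2, zero_smul, add_zero] at e3
    have e5 : theta ρ w (v 0 • p0 + v 1 • p1) = v 0 • p0 + v 1 • p1 := by
      rw [map_add, map_smul, map_smul, ← hw0, ← hw1]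
      rw [smul_sub, smul_sub] at e3
      have : v 0 • w0 + v 1 • w1 - (v 0 • p0 + v 1 • p1) = 0 := by
        rw [← e3]; abel
      exact sub_eq_zero.mp this
    obtain ⟨a, ha⟩ := hmul (v 0 • p0 + v 1 • p1)
      ⟨P.add_mem (P.smul_mem _ mp0) (P.smul_mem _ mp1), by rw [← e5]; exact mw _⟩
    have e6 := hinj ![v 0, v 1, -a] (by
      rw [pt_apply]
      simp only [Matrix.cons_val_zero, Matrix.cons_val_one, Matrix.cons_val]
      rw [ha]; simp)
    have a0 := congrFun e6 0
    have a1 := congrFun e6 1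
    simp only [Matrix.cons_val_zero, Matrix.cons_val_one, Pi.zero_apply] at a0 a1
    ext i
    fin_cases i
    · exact a0
    · exact a1
    · exact v2
  -- vanishing on primed vectors implies vanishing on the complement
  have hvan : ∀ x ∈ P, (∀ a, B x x (c' a) = 0) → x = 0 := by
    intro x hx ha
    by_contra hx0
    obtain ⟨v, hv⟩ := hB.smooth x hx0
    apply hv
    have hβ : H.mulVec (fun i => B x x (c i)) = 0 := by
      ext a
      have := ha a
      rw [hcH a, map_sum] at this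
      simp only [map_smul, smul_eq_mul] at this
      exact this
    have hβ0 := Matrix.eq_zero_of_mulVec_eq_zero hHdet hβ
    have h1 : v = theta ρ p v + ∑ a, χ a (v - theta ρ p v) • c a := by
      have : v - theta ρ p v = ∑ a, χ a (v - theta ρ p v) • c a := by
        apply hC.dec
        intro b
        rw [map_sub, theta_apply]
        simp only [map_sum, map_smul, hP.rho, smul_eq_mul]
        simp
      rw [← this]; abel
    have h2 : theta ρ p v ∈ P := by
      rw [theta_apply]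
      exact P.sum_mem fun b _ => P.smul_mem _ (hP.mem b)
    rw [h1, map_add, hP.pl.iso x hx x hx _ h2, map_sum, zero_add]
    apply Finset.sum_eq_zero
    intro a _
    rw [map_smul, show B x x (c a) = 0 from congrFun hβ0 a, smul_zero]
  have hκ : B e e c2 ≠ 0 := by
    intro h0
    apply he0
    apply hvan e heI.1
    intro a
    fin_cases a
    · show B e e (w0 - p0) = 0
      rw [map_sub, hW.pl.iso e heI.2 e heI.2 w0 (mw _), hP.pl.iso e heI.1 e heI.1 p0 mp0, sub_zero]
    · show B e e (w1 - p1) = 0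
      rw [map_sub, hW.pl.iso e heI.2 e heI.2 w1 (mw _), hP.pl.iso e heI.1 e heI.1 p1 mp1, sub_zero]
    · exact h0
  obtain ⟨R00, R01, R10, R11, lam, mu, h0, h1, h2, h3⟩ := adapted hB hP.pl.iso hW.pl.iso
    p0 p1 e w0 w1 c2 mp0 mp1 heI.1 (mw _) (mw _) heI.2
  have hthe : ∀ z, theta ρ w (pt p0 p1 e z) = pt w0 w1 e z := by
    intro z
    rw [pt_apply, pt_apply, map_add, map_add, map_smul, map_smul, map_smul, hte]
  constructor
  · refine ⟨fun i => (H.det * G.det)⁻¹ • ∑ a, H a i • ((lam a).comp y), ?_⟩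
    intro x hx
    have k3 := h3 (y x)
    rw [← hthe, hy x hx] at k3
    rw [show (![w0 - p0, w1 - p1, c2] : Fin 3 → V6) = c' from rfl,
      show (![p0, p1, e] : Fin 3 → V6) = p' from rfl,
      show (![w0, w1, e] : Fin 3 → V6) = w' from rfl,
      det_change B c c' w w' H G hcH hwG, det_change B c c' p p' H G hcH hpG] at k3
    have hD : H.det * G.det ≠ 0 := mul_ne_zero hHdet hGdet
    apply mul_left_cancel₀ hD
    unfold om dd
    have e1 : ∀ a, B x x (c' a) = ∑ i, H a i * B x x (c i) := by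
      intro a
      rw [hcH a, map_sum]
      simp only [map_smul, smul_eq_mul]
    simp only [e1] at k3
    simp only [LinearMap.smul_apply, LinearMap.sum_apply, LinearMap.comp_apply, smul_eq_mul]
    have e4 : (H.det * G.det) * (2 * Matrix.det (Matrix.of fun a b => B (c a) x (p b)) +
        ∑ i, (H.det * G.det)⁻¹ * (∑ a, H a i * lam a (y x)) * B x x (c i)) =
        2 * (H.det * Matrix.det (Matrix.of fun a b => B (c a) x (p b)) * G.det) +
        ∑ i, (∑ a, H a i * lam a (y x)) * B x x (c i) := by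
      rw [mul_add, Finset.mul_sum]
      congr 1
      · ring
      · refine Finset.sum_congr rfl fun i _ => ?_
        rw [← mul_assoc, ← mul_assoc, mul_inv_cancel₀ hD, one_mul]
    rw [e4]
    have e5 : (H.det * G.det) * Matrix.det (Matrix.of fun a b =>
        B (c a) (x + theta ρ w x) (w b)) =
        H.det * Matrix.det (Matrix.of fun a b => B (c a) (x + theta ρ w x) (w b)) * G.det := by
      ring
    rw [e5, k3]
    congr 1
    simp only [Finset.mul_sum, Finset.sum_mul]
    rw [Finset.sum_comm]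
    refine Finset.sum_congr rfl fun i _ => Finset.sum_congr rfl fun a _ => ?_
    ring
  · intro lam' hlam'
    have hinv : ∀ i, c i = ∑ a, H⁻¹ i a • c' a := by
      intro i
      have hHu : IsUnit H.det := isUnit_iff_ne_zero.mpr hHdet
      have e1 : H⁻¹ * H = 1 := Matrix.nonsing_inv_mul H hHu
      have e2 : ∑ a, H⁻¹ i a • c' a = ∑ j, ((H⁻¹ * H) i j) • c j := by
        simp only [hcH, Finset.smul_sum, smul_smul, Matrix.mul_apply, Finset.sum_smul]
        rw [Finset.sum_comm]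
      rw [e2, e1]
      simp [Matrix.one_apply]
    set GG : Fin 3 → (E3 →ₗ[ℂ] E3 →ₗ[ℂ] ℂ) := fun a =>
      (B (c' a)).compl₁₂ (pt p0 p1 e) (pt p0 p1 e) with hGG
    have GGa : ∀ a z z', GG a z z' = B (c' a) (pt p0 p1 e z) (pt p0 p1 e z') :=
      fun a z z' => rfl
    have GGb : ∀ a z, GG a z z = B (pt p0 p1 e z) (pt p0 p1 e z) (c' a) := by
      intro a z
      rw [GGa, hB.s12, hB.s23]
    have mpt : ∀ z, pt p0 p1 e z ∈ P := by
      intro z
      rw [pt_apply]
      exact P.add_mem (P.add_mem (P.smul_mem _ mp0) (P.smul_mem _ mp1)) (P.smul_mem _ heI.1)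
    refine socle (G := GG) (fun a x y => by rw [GGa, GGa, hB.s23]) ?_ R00 R01 R10 R11 ?_ ?_
      (fun a => (B e e c2)⁻¹ • (((H.det * G.det) • ∑ i, H⁻¹ i a • ((lam' i).comp (pt p0 p1 e)))
        - mu a)) ?_
    · intro z hz
      apply hinj
      apply hvan _ (mpt z)
      intro a
      rw [← GGb]; exact hz a
    · intro z
      rw [GGb]; exact h0 z
    · intro z
      rw [GGb]; exact h1 z
    · intro z
      have k2 := h2 z
      rw [show (![w0 - p0, w1 - p1, c2] : Fin 3 → V6) = c' from rfl,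
        show (![p0, p1, e] : Fin 3 → V6) = p' from rfl,
        det_change B c c' p p' H G hcH hpG] at k2
      have k4 := hlam' _ (mpt z)
      unfold dd at k4
      rw [k4] at k2
      have e1 : ∀ i, B (pt p0 p1 e z) (pt p0 p1 e z) (c i) =
          ∑ a, H⁻¹ i a * B (pt p0 p1 e z) (pt p0 p1 e z) (c' a) := by
        intro i
        conv_lhs => rw [hinv i]
        rw [map_sum]
        simp only [map_smul, smul_eq_mul]
      simp only [e1] at k2
      simp only [GGb, LinearMap.smul_apply, LinearMap.sub_apply, LinearMap.sum_apply,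
        LinearMap.comp_apply, smul_eq_mul]
      apply mul_left_cancel₀ hκ
      rw [Finset.mul_sum]
      have e2 : ∀ a, B e e c2 * ((B e e c2)⁻¹ * (H.det * G.det * ∑ i, H⁻¹ i a *
          lam' i (pt p0 p1 e z) - mu a z) * B (pt p0 p1 e z) (pt p0 p1 e z) (c' a)) =
          H.det * G.det * (∑ i, H⁻¹ i a * lam' i (pt p0 p1 e z)) *
            B (pt p0 p1 e z) (pt p0 p1 e z) (c' a) -
          mu a z * B (pt p0 p1 e z) (pt p0 p1 e z) (c' a) := by
        intro a
        rw [← mul_assoc, ← mul_assoc, mul_inv_cancel₀ hκ, one_mul, sub_mul]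
      rw [Finset.sum_congr rfl fun a _ => e2 a, Finset.sum_sub_distrib]
      have e3 : ∑ a, H.det * G.det * (∑ i, H⁻¹ i a * lam' i (pt p0 p1 e z)) *
          B (pt p0 p1 e z) (pt p0 p1 e z) (c' a) =
          H.det * (∑ i, lam' i (pt p0 p1 e z) * ∑ a, H⁻¹ i a *
            B (pt p0 p1 e z) (pt p0 p1 e z) (c' a)) * G.det := by
        simp only [Finset.mul_sum, Finset.sum_mul]
        rw [Finset.sum_comm]
        refine Finset.sum_congr rfl fun i _ => Finset.sum_congr rfl fun a _ => ?_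
        ring
      rw [e3, k2]
      ring

end Vale.Agent.P287
end
end

section

section

set_option maxSynthPendingDepth 3

namespace Vale.Agent.P287

open Module

theorem jac_polar {B : Tri6} (hB : Good B) (A : V6 →ₗ[ℂ] V6) (h : ∀ x, B x x (A x) = 0) :
    ∀ x y z, B (A x) y z + B x (A y) z + B x y (A z) = 0 := by
  have h1 : ∀ x y, 2 * B x y (A y) + B y y (A x) = 0 := by
    intro x y
    have e1 := h (x + y)
    have e2 := h (x - y)
    have e3 := h x
    simp only [map_add, map_sub, LinearMap.add_apply, LinearMap.sub_apply] at e1 e2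
    have a1 := hB.s12 y x (A y)
    linear_combination (1 / 2) * e1 + (1 / 2) * e2 - e3 - a1
  intro x y z
  have e1 := h1 x (y + z)
  have e2 := h1 x y
  have e3 := h1 x z
  simp only [map_add, LinearMap.add_apply] at e1
  have a1 : B (A x) y z = B y z (A x) := by rw [hB.s12, hB.s23]
  have a2 : B x (A y) z = B x z (A y) := by rw [hB.s23]
  have a3 := hB.s12 z y (A x)
  rw [a1, a2]
  linear_combination (1 / 2) * e1 - (1 / 2) * e2 - (1 / 2) * e3 - (1 / 2) * a3

theorem jac_eigen {B : Tri6} (hB : Good B) (A : Module.End ℂ V6) (h : ∀ x, B x x (A x) = 0)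
    {μ : ℂ} (hμ : A.HasEigenvalue μ) : A.HasEigenvalue (-2 * μ) := by
  obtain ⟨x, hx⟩ := hμ.exists_hasEigenvector
  have hAx := hx.apply_eq_smul
  obtain ⟨y, hy⟩ := hB.smooth x hx.2
  by_contra hcon
  have hinj : Function.Injective (A - (-2 * μ) • (1 : Module.End ℂ V6)) := by
    rw [injective_iff_map_eq_zero]
    intro v hv
    by_contra hv0
    apply hcon
    apply Module.End.hasEigenvalue_of_hasEigenvector (x := v)
    refine ⟨?_, hv0⟩
    rw [Module.End.mem_eigenspace_iff]
    simp only [LinearMap.sub_apply, LinearMap.smul_apply, Module.End.one_apply] at hv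
    exact sub_eq_zero.mp hv
  have hsurj : Function.Surjective (A - (-2 * μ) • (1 : Module.End ℂ V6)) :=
    LinearMap.injective_iff_surjective.mp hinj
  obtain ⟨w, hw⟩ := hsurj y
  apply hy
  rw [← hw]
  simp only [LinearMap.sub_apply, LinearMap.smul_apply, Module.End.one_apply, map_sub, map_smul,
    smul_eq_mul]
  have e := jac_polar hB A h x x w
  rw [hAx] at e
  simp only [map_smul, LinearMap.smul_apply, smul_eq_mul] at e
  linear_combination e

theorem jac_eigen_zero {B : Tri6} (hB : Good B) (A : Module.End ℂ V6)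
    (h : ∀ x, B x x (A x) = 0) {μ : ℂ} (hμ : A.HasEigenvalue μ) : μ = 0 := by
  by_contra h0
  have hall : ∀ k : ℕ, A.HasEigenvalue ((-2) ^ k * μ) := by
    intro k
    induction k with
    | zero => simpa only [pow_zero, one_mul, Order.lt_one_iff, End.hasUnifEigenvalue_iff_hasUnifEigenvalue_one] using hμ
    | succ k ih =>
      have := jac_eigen hB A h ih
      rwa [pow_succ', mul_assoc]
  have hfin : Set.Finite {ν | A.HasEigenvalue ν} := A.finite_hasEigenvalue
  have hinj : Function.Injective (fun k : ℕ => (-2 : ℂ) ^ k * μ) := by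
    intro a b hab
    simp only at hab
    have h1 := mul_right_cancel₀ h0 hab
    have h2 := congrArg (fun z : ℂ => ‖z‖) h1
    simp only [norm_pow, norm_neg, Complex.norm_ofNat] at h2
    exact pow_right_injective₀ (by norm_num) (by norm_num) h2
  exact Set.infinite_of_injective_forall_mem hinj hall hfin

theorem jac_nilpotent {B : Tri6} (hB : Good B) (A : Module.End ℂ V6)
    (h : ∀ x, B x x (A x) = 0) : IsNilpotent A := by
  apply ((LinearMap.charpoly_nilpotent_tfae A).out 0 2).mpr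
  have htop := Module.End.iSup_maxGenEigenspace_eq_top A
  have hle : ⨆ μ, A.maxGenEigenspace μ ≤ A.maxGenEigenspace 0 := by
    apply iSup_le
    intro μ
    by_cases hμ : μ = 0
    · rw [hμ]
    · have hker : ∀ v, (A - μ • (1 : Module.End ℂ V6)) v = 0 → v = 0 := by
        intro v hv
        by_contra hv0
        apply hμ
        apply jac_eigen_zero hB A h
        apply Module.End.hasEigenvalue_of_hasEigenvector (x := v)
        refine ⟨?_, hv0⟩
        rw [Module.End.mem_eigenspace_iff]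
        simp only [LinearMap.sub_apply, LinearMap.smul_apply, Module.End.one_apply] at hv
        exact sub_eq_zero.mp hv
      have key : ∀ (k : ℕ) (x : V6), ((A - μ • (1 : Module.End ℂ V6)) ^ k) x = 0 → x = 0 := by
        intro k
        induction k with
        | zero => intro x hk; simpa using hk
        | succ k ih =>
          intro x hk
          rw [pow_succ, Module.End.mul_apply] at hk
          exact hker x (ih _ hk)
      intro x hx
      rw [Module.End.mem_maxGenEigenspace] at hx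
      obtain ⟨k, hk⟩ := hx
      rw [key k x hk]
      exact Submodule.zero_mem _
  intro m
  have hm : m ∈ A.maxGenEigenspace 0 := hle (by rw [htop]; exact Submodule.mem_top)
  rw [Module.End.mem_maxGenEigenspace] at hm
  obtain ⟨k, hk⟩ := hm
  exact ⟨k, by simpa only [zero_smul, sub_zero] using hk⟩

theorem jac_inj {B : Tri6} (hB : Good B) (A : Module.End ℂ V6)
    (h : ∀ x, B x x (A x) = 0) : A = 0 := by
  classical
  have hnil := jac_nilpotent hB A h
  by_contra hA
  -- m + 1 is the nilpotency index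
  set N := Nat.find hnil with hN
  have hN0 : A ^ N = 0 := Nat.find_spec hnil
  have hN1 : N ≠ 0 := by
    intro h0
    rw [h0, pow_zero] at hN0
    exact one_ne_zero hN0
  obtain ⟨m, hm⟩ := Nat.exists_eq_succ_of_ne_zero hN1
  have hm0 : A ^ m ≠ 0 := Nat.find_min hnil (by omega)
  have hm1 : m ≠ 0 := by
    intro h0
    rw [hm, h0] at hN0
    exact hA (by simpa using hN0)
  obtain ⟨z, hz⟩ : ∃ z, (A ^ m) z ≠ 0 := by
    by_contra hcon
    push Not at hcon
    exact hm0 (LinearMap.ext fun v => hcon v)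
  obtain ⟨u, hu⟩ := hB.smooth _ hz
  -- operators on bilinear forms
  set P1 : Module.End ℂ (V6 →ₗ[ℂ] V6 →ₗ[ℂ] ℂ) := LinearMap.lcomp ℂ _ A with hP1
  set P2 : Module.End ℂ (V6 →ₗ[ℂ] V6 →ₗ[ℂ] ℂ) := LinearMap.compRight ℂ (LinearMap.lcomp ℂ ℂ A)
    with hP2
  have p1 : ∀ β x y, P1 β x y = β (A x) y := fun β x y => rfl
  have p2 : ∀ β x y, P2 β x y = β x (A y) := fun β x y => rfl
  have hcomm : Commute P1 P2 := by
    apply LinearMap.ext
    intro β
    apply LinearMap.ext₂
    intro x y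
    rfl
  have p1k : ∀ k β x y, (P1 ^ k) β x y = β ((A ^ k) x) y := by
    intro k
    induction k with
    | zero => intro β x y; simp only [pow_zero, End.one_apply]
    | succ k ih =>
      intro β x y
      rw [pow_succ, Module.End.mul_apply, ih, p1, pow_succ', Module.End.mul_apply]
  have p2k : ∀ k β x y, (P2 ^ k) β x y = β x ((A ^ k) y) := by
    intro k
    induction k with
    | zero => intro β x y; simp only [pow_zero, End.one_apply]
    | succ k ih =>
      intro β x y
      rw [pow_succ, Module.End.mul_apply, ih, p2, pow_succ', Module.End.mul_apply]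
  have hstep : ∀ w, (P1 + P2) (B w) = -(B (A w)) := by
    intro w
    apply LinearMap.ext₂
    intro x y
    rw [LinearMap.add_apply, LinearMap.add_apply, LinearMap.add_apply, p1, p2]
    have := jac_polar hB A h w x y
    simp only [LinearMap.neg_apply]
    linear_combination this
  have hpow : ∀ k w, ((P1 + P2) ^ k) (B w) = (-1 : ℂ) ^ k • B ((A ^ k) w) := by
    intro k
    induction k with
    | zero => intro w; simp only [pow_zero, End.one_apply, one_smul]
    | succ k ih =>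
      intro w
      rw [pow_succ, Module.End.mul_apply, hstep, map_neg, ih, ← Module.End.mul_apply, ← pow_succ,
        pow_succ (-1 : ℂ), mul_neg_one, neg_smul]
  have h2m := hpow (2 * m) u
  have hA2m : (A ^ (2 * m)) = 0 := by
    have : 2 * m = N + (m - 1) := by omega
    rw [this, pow_add, hN0, zero_mul]
  rw [hA2m, LinearMap.zero_apply, map_zero, smul_zero, hcomm.add_pow'] at h2m
  have h3 := congrArg (fun β : V6 →ₗ[ℂ] V6 →ₗ[ℂ] ℂ => β z z) h2m
  simp only [LinearMap.sum_apply, LinearMap.smul_apply, Module.End.mul_apply, p1k, p2k,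
    LinearMap.zero_apply] at h3
  rw [Finset.sum_eq_single (m, m)] at h3
  · simp only [nsmul_eq_mul] at h3
    have hch : ((2 * m).choose m : ℂ) ≠ 0 := by
      exact_mod_cast (Nat.choose_pos (by omega)).ne'
    have h4 := (mul_eq_zero.mp h3).resolve_left hch
    apply hu
    rw [hB.s23, hB.s12]
    exact h4
  · rintro ⟨i, j⟩ hij hne
    have hij := Finset.HasAntidiagonal.mem_antidiagonal.mp hij
    simp only at hij
    by_cases hi : N ≤ i
    · have : A ^ i = 0 := by
        rw [← Nat.sub_add_cancel hi, pow_add, hN0, mul_zero]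
      simp only [this, LinearMap.zero_apply, map_zero, nsmul_zero]
    · have hj : N ≤ j := by
        by_contra hj
        apply hne
        have h1 : i ≤ m := by omega
        have h2 : j ≤ m := by omega
        have h3 : i = m := by omega
        have h4 : j = m := by omega
        rw [h3, h4]
      have : A ^ j = 0 := by
        rw [← Nat.sub_add_cancel hj, pow_add, hN0, mul_zero]
      simp only [this, LinearMap.zero_apply, map_zero, nsmul_zero]
  · intro hnot
    exact absurd (Finset.HasAntidiagonal.mem_antidiagonal.mpr (two_mul m).symm) hnot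

end Vale.Agent.P287
end
end

section

section

set_option maxSynthPendingDepth 3

namespace Vale.Agent.P287

open MvPolynomial

theorem eval_aeval' {σ τ : Type*} (φ : σ → MvPolynomial τ ℂ) (t : τ → ℂ)
    (p : MvPolynomial σ ℂ) :
    eval t (aeval φ p) = eval (fun i => eval t (φ i)) p := by
  induction p using MvPolynomial.induction_on with
  | C a => simp only [aeval_eq_bind₁, algHom_C, algebraMap_eq, eval_C]
  | add p q hp hq => rw [map_add, map_add, map_add, hp, hq]
  | mul_X p i hp => rw [map_mul, map_mul, map_mul, hp, aeval_X, eval_X]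

/-- the linear form as a polynomial -/
noncomputable def lin (L : (Fin 6 → ℂ) →ₗ[ℂ] ℂ) : MvPolynomial (Fin 6) ℂ :=
  ∑ m, C (L (Pi.single m 1)) * X m

theorem eval_lin (L : (Fin 6 → ℂ) →ₗ[ℂ] ℂ) (x : Fin 6 → ℂ) : eval x (lin L) = L x := by
  classical
  have : x = ∑ m, x m • (Pi.single m (1 : ℂ) : Fin 6 → ℂ) := by
    ext j
    simp [Finset.sum_apply, Pi.single_apply]
  conv_rhs => rw [this]
  simp only [lin, mul_comm, map_sum, map_mul, eval_X, eval_C, map_smul, smul_eq_mul]

theorem lin_hom (L : (Fin 6 → ℂ) →ₗ[ℂ] ℂ) : (lin L).IsHomogeneous 1 := by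
  unfold lin
  exact IsHomogeneous.sum _ _ _ fun i _ => isHomogeneous_C_mul_X _ _

/-- trilinear expression as a polynomial -/
noncomputable def tri {τ : Type*} (c : Fin 3 → Fin 3 → Fin 3 → ℂ)
    (p q r : Fin 3 → MvPolynomial τ ℂ) : MvPolynomial τ ℂ :=
  ∑ i, ∑ j, ∑ k, C (c i j k) * (p i * (q j * r k))

theorem eval_tri {τ : Type*} (c : Fin 3 → Fin 3 → Fin 3 → ℂ)
    (p q r : Fin 3 → MvPolynomial τ ℂ) (t : τ → ℂ) :
    eval t (tri c p q r) = ∑ i, ∑ j, ∑ k, c i j k * (eval t (p i) * (eval t (q j) *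
      eval t (r k))) := by
  simp only [tri, map_sum, map_mul, eval_C]

theorem tri_hom {τ : Type*} (c : Fin 3 → Fin 3 → Fin 3 → ℂ)
    (p q r : Fin 3 → MvPolynomial τ ℂ) {d : ℕ} (hp : ∀ i, (p i).IsHomogeneous d)
    (hq : ∀ i, (q i).IsHomogeneous d) (hr : ∀ i, (r i).IsHomogeneous d) :
    (tri c p q r).IsHomogeneous (3 * d) := by
  unfold tri
  refine IsHomogeneous.sum _ _ _ fun i _ => IsHomogeneous.sum _ _ _ fun j _ =>
    IsHomogeneous.sum _ _ _ fun k _ => ?_
  have h1 := ((hp i).mul ((hq j).mul (hr k)))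
  have h2 := (isHomogeneous_C τ (c i j k)).mul h1
  have e : 0 + (d + (d + d)) = 3 * d := by ring
  rwa [e] at h2

theorem polar_sum (B : Tri6)
    (u v w : Fin 3 → (Fin 6 → ℂ)) (a b c : Fin 3 → ℂ) :
    ∑ i, ∑ j, ∑ k, (3 * B (u i) (v j) (w k)) * (a i * (b j * c k)) =
      3 * B (∑ i, a i • u i) (∑ i, b i • v i) (∑ i, c i • w i) := by
  simp only [Fin.sum_univ_three, map_add, LinearMap.add_apply, map_smul, LinearMap.smul_apply,
    smul_eq_mul]
  ring

/-- coordinates adapted to two disjoint planes -/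
theorem exists_coords {W1 W2 : Submodule ℂ V6} (h1 : Module.finrank ℂ W1 = 3)
    (h2 : Module.finrank ℂ W2 = 3) (hd : W1 ⊓ W2 = ⊥) :
    ∃ (u w : Fin 3 → V6) (S T : Fin 3 → (V6 →ₗ[ℂ] ℂ)),
      (∀ i, u i ∈ W1) ∧ (∀ i, w i ∈ W2) ∧
      (∀ x, x = ∑ i, S i x • u i + ∑ i, T i x • w i) ∧
      (∀ i j, S i (u j) = if j = i then 1 else 0) ∧ (∀ i j, S i (w j) = 0) ∧
      (∀ i j, T i (u j) = 0) ∧ (∀ i j, T i (w j) = if j = i then 1 else 0) := by
  have hc : IsCompl W1 W2 := by
    refine ⟨disjoint_iff.mpr hd, codisjoint_iff.mpr ?_⟩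
    apply Submodule.eq_top_of_finrank_eq
    have := Submodule.finrank_sup_add_finrank_inf_eq W1 W2
    rw [hd, finrank_bot, h1, h2] at this
    simp at this
    simp [this]
  let bu := Module.finBasisOfFinrankEq ℂ W1 h1
  let bw := Module.finBasisOfFinrankEq ℂ W2 h2
  let b := (bu.prod bw).map (Submodule.prodEquivOfIsCompl W1 W2 hc)
  have hbl : ∀ i, b (Sum.inl i) = bu i := by intro i; simp only [Module.Basis.map_apply, Module.Basis.prod_apply, LinearMap.coe_inl, LinearMap.coe_inr, Sum.elim_inl, Function.comp_apply, Submodule.coe_prodEquivOfIsCompl', ZeroMemClass.coe_zero, add_zero, b]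
  have hbr : ∀ i, b (Sum.inr i) = bw i := by intro i; simp only [Module.Basis.map_apply, Module.Basis.prod_apply, LinearMap.coe_inl, LinearMap.coe_inr, Sum.elim_inr, Function.comp_apply, Submodule.coe_prodEquivOfIsCompl', ZeroMemClass.coe_zero, zero_add, b]
  refine ⟨fun i => bu i, fun i => bw i, fun i => b.coord (Sum.inl i),
    fun i => b.coord (Sum.inr i), fun i => (bu i).2, fun i => (bw i).2, ?_, ?_, ?_, ?_, ?_⟩
  · intro x
    have := b.sum_repr x
    rw [Fintype.sum_sum_type] at this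
    simp only [hbl, hbr] at this
    simpa only [Module.Basis.coord_apply] using this.symm
  · intro i j
    show b.coord (Sum.inl i) (bu j : V6) = _
    rw [← hbl j]
    simp [Module.Basis.coord_apply, Finsupp.single_apply]
  · intro i j
    show b.coord (Sum.inl i) (bw j : V6) = _
    rw [← hbr j]
    simp [Module.Basis.coord_apply]
  · intro i j
    show b.coord (Sum.inr i) (bu j : V6) = _
    rw [← hbl j]
    simp [Module.Basis.coord_apply]
  · intro i j
    show b.coord (Sum.inr i) (bw j : V6) = _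
    rw [← hbr j]
    simp [Module.Basis.coord_apply, Finsupp.single_apply]

set_option maxHeartbeats 1600000 in
theorem rational_of_coords {f : MvPolynomial (Fin 6) ℂ} {B : Tri6} (hB : IsPolar f B)
    (hg : Good B) {W1 W2 : Submodule ℂ V6} (i1 : Iso B W1) (i2 : Iso B W2)
    (u w : Fin 3 → V6) (S T : Fin 3 → (V6 →ₗ[ℂ] ℂ))
    (hu : ∀ i, u i ∈ W1) (hw : ∀ i, w i ∈ W2)
    (hx : ∀ x, x = ∑ i, S i x • u i + ∑ i, T i x • w i)
    (hSu : ∀ i j, S i (u j) = if j = i then 1 else 0) (hSw : ∀ i j, S i (w j) = 0)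
    (hTu : ∀ i j, T i (u j) = 0) (hTw : ∀ i j, T i (w j) = if j = i then 1 else 0) :
    IsRational f := by
  set cα : Fin 3 → Fin 3 → Fin 3 → ℂ := fun i j k => 3 * B (u i) (u j) (w k) with hcα
  set cβ : Fin 3 → Fin 3 → Fin 3 → ℂ := fun i j k => 3 * B (u i) (w j) (w k) with hcβ
  set A : Fin 3 → MvPolynomial (Fin 5) ℂ := ![X 0, X 1, X 2] with hA
  set D : Fin 3 → MvPolynomial (Fin 5) ℂ := ![X 0, X 3, X 4] with hD
  set P : MvPolynomial (Fin 5) ℂ := tri cα A A D with hP
  set Q : MvPolynomial (Fin 5) ℂ := tri cβ A D D with hQ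
  set φ : Fin 6 → MvPolynomial (Fin 5) ℂ := fun m =>
    ∑ i, C (u i m) * (Q * A i) - ∑ i, C (w i m) * (P * D i) with hφ
  set s : Fin 3 → MvPolynomial (Fin 6) ℂ := fun i => lin (S i) with hs
  set t : Fin 3 → MvPolynomial (Fin 6) ℂ := fun i => lin (T i) with ht
  set ψ : Fin 5 → MvPolynomial (Fin 6) ℂ :=
    ![s 0 * t 0, s 1 * t 0, s 2 * t 0, s 0 * t 1, s 0 * t 2] with hψ
  set g : MvPolynomial (Fin 5) ℂ := -(P * Q * X 0) with hgdef
  set h : MvPolynomial (Fin 6) ℂ := (s 0) ^ 2 * (t 0) ^ 2 * tri cβ s t t with hh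
  have hA1 : ∀ i, (A i).IsHomogeneous 1 := by
    intro i; fin_cases i <;> exact isHomogeneous_X _ _
  have hD1 : ∀ i, (D i).IsHomogeneous 1 := by
    intro i; fin_cases i <;> exact isHomogeneous_X _ _
  have hP3 : P.IsHomogeneous 3 := tri_hom cα A A D hA1 hA1 hD1
  have hQ3 : Q.IsHomogeneous 3 := tri_hom cβ A D D hA1 hD1 hD1
  -- evaluation of the two families
  have isoU : ∀ a : Fin 3 → ℂ, ∑ i, a i • u i ∈ W1 := fun a =>
    W1.sum_mem fun i _ => W1.smul_mem _ (hu i)
  have isoW : ∀ a : Fin 3 → ℂ, ∑ i, a i • w i ∈ W2 := fun a =>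
    W2.sum_mem fun i _ => W2.smul_mem _ (hw i)
  have ePt : ∀ τ : Fin 5 → ℂ, eval τ P = 3 * B (∑ i, (![τ 0, τ 1, τ 2] : Fin 3 → ℂ) i • u i)
      (∑ i, (![τ 0, τ 1, τ 2] : Fin 3 → ℂ) i • u i)
      (∑ i, (![τ 0, τ 3, τ 4] : Fin 3 → ℂ) i • w i) := by
    intro τ
    rw [hP, eval_tri, ← polar_sum]
    simp only [hcα, hA, Fin.isValue, hD, Fin.sum_univ_three, Matrix.cons_val_zero, eval_X, Matrix.cons_val_one, Matrix.cons_val]
  have eQt : ∀ τ : Fin 5 → ℂ, eval τ Q = 3 * B (∑ i, (![τ 0, τ 1, τ 2] : Fin 3 → ℂ) i • u i)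
      (∑ i, (![τ 0, τ 3, τ 4] : Fin 3 → ℂ) i • w i)
      (∑ i, (![τ 0, τ 3, τ 4] : Fin 3 → ℂ) i • w i) := by
    intro τ
    rw [hQ, eval_tri, ← polar_sum]
    simp only [hcβ, hA, Fin.isValue, hD, Fin.sum_univ_three, Matrix.cons_val_zero, eval_X, Matrix.cons_val_one, Matrix.cons_val]
  have eφ : ∀ τ : Fin 5 → ℂ, (fun m => eval τ (φ m)) =
      (eval τ Q) • (∑ i, (![τ 0, τ 1, τ 2] : Fin 3 → ℂ) i • u i) -
      (eval τ P) • (∑ i, (![τ 0, τ 3, τ 4] : Fin 3 → ℂ) i • w i) := by
    intro τ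
    ext m
    simp only [hφ, hA, Fin.isValue, Fin.sum_univ_three, Matrix.cons_val_zero, Matrix.cons_val_one, Matrix.cons_val, hD, map_sub, map_add, map_mul, eval_C, eval_X, Nat.succ_eq_add_one, Nat.reduceAdd, smul_add, Pi.sub_apply, Pi.add_apply, Pi.smul_apply, smul_eq_mul]
    ring
  have symf : ∀ U ∈ W1, ∀ W ∈ W2, ∀ q p : ℂ, q = 3 * B U W W → p = 3 * B U U W →
      B (q • U - p • W) (q • U - p • W) (q • U - p • W) = 0 := by
    intro U hU W hW q p hq hp
    have e1 := i1 U hU U hU U hU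
    have e2 := i2 W hW W hW W hW
    have a1 := hg.s12 U W U
    have a2 := hg.s23 U W U
    have a3 := hg.s12 U W W
    have a4 := hg.s23 W U W
    simp only [map_sub, map_smul, LinearMap.sub_apply, LinearMap.smul_apply, smul_eq_mul]
    rw [e1, e2, ← a4, ← a3, ← a1, a2, hq, hp]
    ring
  have hTwo : ∀ x : V6, eval x f = 3 * B (∑ i, S i x • u i) (∑ i, S i x • u i)
      (∑ i, T i x • w i) + 3 * B (∑ i, S i x • u i) (∑ i, T i x • w i) (∑ i, T i x • w i) := by
    intro x
    rw [hB.diag]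
    conv_lhs => rw [hx x]
    set U := ∑ i, S i x • u i
    set W := ∑ i, T i x • w i
    have hU : U ∈ W1 := isoU _
    have hW : W ∈ W2 := isoW _
    have e1 := i1 U hU U hU U hU
    have e2 := i2 W hW W hW W hW
    have a1 := hg.s12 U W U
    have a2 := hg.s23 U W U
    have a3 := hg.s12 U W W
    have a4 := hg.s23 W U W
    simp only [map_add, LinearMap.add_apply]
    rw [e1, e2, ← a4, ← a3, ← a1, a2]
    ring
  have eSu : ∀ (i : Fin 3) (a : Fin 3 → ℂ), S i (∑ j, a j • u j) = a i := by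
    intro i a
    simp [map_sum, hSu]
  have eSw : ∀ (i : Fin 3) (a : Fin 3 → ℂ), S i (∑ j, a j • w j) = 0 := by
    intro i a
    simp only [map_sum, map_smul, hSw, smul_eq_mul, mul_zero, Finset.sum_const_zero]
  have eTu : ∀ (i : Fin 3) (a : Fin 3 → ℂ), T i (∑ j, a j • u j) = 0 := by
    intro i a
    simp [map_sum, hTu]
  have eTw : ∀ (i : Fin 3) (a : Fin 3 → ℂ), T i (∑ j, a j • w j) = a i := by
    intro i a
    simp [map_sum, hTw]
  have es : ∀ (i : Fin 3) (x : V6), eval x (s i) = S i x := fun i x => eval_lin _ _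
  have et : ∀ (i : Fin 3) (x : V6), eval x (t i) = T i x := fun i x => eval_lin _ _
  have sφ : ∀ (i : Fin 3) (τ : Fin 5 → ℂ), S i (fun m => eval τ (φ m)) =
      eval τ Q * (![τ 0, τ 1, τ 2] : Fin 3 → ℂ) i := by
    intro i τ
    rw [eφ, map_sub, map_smul, map_smul, eSu, eSw]
    simp
  have tφ : ∀ (i : Fin 3) (τ : Fin 5 → ℂ), T i (fun m => eval τ (φ m)) =
      -(eval τ P * (![τ 0, τ 3, τ 4] : Fin 3 → ℂ) i) := by
    intro i τ
    rw [eφ, map_sub, map_smul, map_smul, eTu, eTw]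
    simp
  have hβ : ∀ x : V6, eval x (tri cβ s t t) = 3 * B (∑ i, S i x • u i) (∑ i, T i x • w i)
      (∑ i, T i x • w i) := by
    intro x
    rw [eval_tri, ← polar_sum]
    simp only [es, et, hcβ]
  -- the common zero locus of nothing: a point where everything is nonzero
  have hα : ∀ x : V6, eval x (tri cα s s t) = 3 * B (∑ i, S i x • u i) (∑ i, S i x • u i)
      (∑ i, T i x • w i) := by
    intro x
    rw [eval_tri, ← polar_sum]
    simp only [es, et, hcα]
  have hu0 : u 0 ≠ 0 := by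
    intro h0
    have := hSu 0 0
    rw [h0] at this
    simp at this
  have hw0 : w 0 ≠ 0 := by
    intro h0
    have := hTw 0 0
    rw [h0] at this
    simp at this
  have n1 : tri cα s s t ≠ 0 := by
    obtain ⟨y, hy⟩ := hg.smooth _ hu0
    intro h0
    apply hy
    have e1 := hα (u 0 + ∑ i, T i y • w i)
    rw [h0] at e1
    have e2 : ∀ i, S i (u 0 + ∑ i, T i y • w i) = S i (u 0) := by
      intro i; rw [map_add, eSw, add_zero]
    have e3 : ∀ i, T i (u 0 + ∑ i, T i y • w i) = T i y := by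
      intro i; rw [map_add, eTw, hTu, zero_add]
    simp only [e2, e3, map_zero] at e1
    have e4 : ∑ i, S i (u 0) • u i = u 0 := by
      simp only [Fin.isValue, hSu, ite_smul, one_smul, zero_smul, Finset.sum_ite_eq, Finset.mem_univ, ↓reduceIte]
    rw [e4] at e1
    have e5 : B (u 0) (u 0) (∑ i, T i y • w i) = 0 := by
      have : (3 : ℂ) ≠ 0 := by norm_num
      exact (mul_eq_zero.mp e1.symm).resolve_left this
    rw [hx y, map_add, e5, add_zero]
    exact i1 _ (hu 0) _ (hu 0) _ (isoU _)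
  have n2 : tri cβ s t t ≠ 0 := by
    obtain ⟨y, hy⟩ := hg.smooth _ hw0
    intro h0
    apply hy
    have e1 := hβ (w 0 + ∑ i, S i y • u i)
    rw [h0] at e1
    have e2 : ∀ i, T i (w 0 + ∑ i, S i y • u i) = T i (w 0) := by
      intro i; rw [map_add, eTu, add_zero]
    have e3 : ∀ i, S i (w 0 + ∑ i, S i y • u i) = S i y := by
      intro i; rw [map_add, eSu, hSw, zero_add]
    simp only [e2, e3, map_zero] at e1
    have e4 : ∑ i, T i (w 0) • w i = w 0 := by
      simp only [Fin.isValue, hTw, ite_smul, one_smul, zero_smul, Finset.sum_ite_eq, Finset.mem_univ, ↓reduceIte]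
    rw [e4] at e1
    have e5 : B (∑ i, S i y • u i) (w 0) (w 0) = 0 := by
      have : (3 : ℂ) ≠ 0 := by norm_num
      exact (mul_eq_zero.mp e1.symm).resolve_left this
    have e6 : B (w 0) (w 0) (∑ i, S i y • u i) = 0 := by
      rw [hg.s23, hg.s12]; exact e5
    rw [hx y, map_add, e6, zero_add]
    exact i2 _ (hw 0) _ (hw 0) _ (isoW _)
  have n3 : s 0 ≠ 0 := by
    intro h0
    have := es 0 (u 0)
    rw [h0, hSu] at this
    simp at this
  have n4 : t 0 ≠ 0 := by
    intro h0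
    have := et 0 (w 0)
    rw [h0, hTw] at this
    simp at this
  have hne : ∃ τ : Fin 5 → ℂ, eval τ P ≠ 0 ∧ eval τ Q ≠ 0 ∧ τ 0 ≠ 0 := by
    have hprod : tri cα s s t * tri cβ s t t * (s 0 * t 0) ≠ 0 :=
      mul_ne_zero (mul_ne_zero n1 n2) (mul_ne_zero n3 n4)
    obtain ⟨x, hx0⟩ : ∃ x, eval x (tri cα s s t * tri cβ s t t * (s 0 * t 0)) ≠ 0 := by
      by_contra hcon
      push Not at hcon
      exact hprod (MvPolynomial.funext fun x => by rw [hcon x, map_zero])
    simp only [map_mul, hα, hβ, es, et] at hx0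
    have m1 := left_ne_zero_of_mul (left_ne_zero_of_mul hx0)
    have m2 := right_ne_zero_of_mul (left_ne_zero_of_mul hx0)
    have m3 := left_ne_zero_of_mul (right_ne_zero_of_mul hx0)
    have m4 := right_ne_zero_of_mul (right_ne_zero_of_mul hx0)
    have eU : ∑ i, (![1, S 1 x / S 0 x, S 2 x / S 0 x] : Fin 3 → ℂ) i • u i =
        (S 0 x)⁻¹ • ∑ i, S i x • u i := by
      simp only [Nat.succ_eq_add_one, Nat.reduceAdd, Fin.isValue, div_eq_inv_mul, Fin.sum_univ_three, Matrix.cons_val_zero, one_smul, Matrix.cons_val_one, Matrix.cons_val, smul_add, smul_smul, ne_eq, m3, not_false_eq_true, inv_mul_cancel₀]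
    have eW : ∑ i, (![1, T 1 x / T 0 x, T 2 x / T 0 x] : Fin 3 → ℂ) i • w i =
        (T 0 x)⁻¹ • ∑ i, T i x • w i := by
      simp only [Nat.succ_eq_add_one, Nat.reduceAdd, Fin.isValue, div_eq_inv_mul, Fin.sum_univ_three, Matrix.cons_val_zero, one_smul, Matrix.cons_val_one, Matrix.cons_val, smul_add, smul_smul, ne_eq, m4, not_false_eq_true, inv_mul_cancel₀]
    refine ⟨![1, S 1 x / S 0 x, S 2 x / S 0 x, T 1 x / T 0 x, T 2 x / T 0 x], ?_, ?_, ?_⟩
    · rw [ePt]
      have : (3 : ℂ) * B ((S 0 x)⁻¹ • ∑ i, S i x • u i) ((S 0 x)⁻¹ • ∑ i, S i x • u i)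
          ((T 0 x)⁻¹ • ∑ i, T i x • w i) ≠ 0 := by
        simp only [map_smul, LinearMap.smul_apply, smul_eq_mul]
        have k1 := inv_ne_zero m3
        have k2 := inv_ne_zero m4
        intro h0
        apply mul_ne_zero (mul_ne_zero (mul_ne_zero k1 k1) k2) m1
        rw [← h0]; ring
      rw [← eU, ← eW] at this
      simpa only [Nat.succ_eq_add_one, Nat.reduceAdd, Fin.isValue, Matrix.cons_val_zero, Matrix.cons_val_one,     Matrix.cons_val, map_sum, map_smul, LinearMap.coe_sum, LinearMap.coe_smul, Finset.sum_apply, Pi.smul_apply,     smul_eq_mul, ne_eq, mul_eq_zero, OfNat.ofNat_ne_zero, false_or] using this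
    · rw [eQt]
      have : (3 : ℂ) * B ((S 0 x)⁻¹ • ∑ i, S i x • u i) ((T 0 x)⁻¹ • ∑ i, T i x • w i)
          ((T 0 x)⁻¹ • ∑ i, T i x • w i) ≠ 0 := by
        simp only [map_smul, LinearMap.smul_apply, smul_eq_mul]
        have k1 := inv_ne_zero m3
        have k2 := inv_ne_zero m4
        intro h0
        apply mul_ne_zero (mul_ne_zero (mul_ne_zero k1 k2) k2) m2
        rw [← h0]; ring
      rw [← eU, ← eW] at this
      simpa only [Nat.succ_eq_add_one, Nat.reduceAdd, Fin.isValue, Matrix.cons_val_zero, Matrix.cons_val_one,     Matrix.cons_val, map_sum, map_smul, LinearMap.coe_sum, LinearMap.coe_smul, Finset.sum_apply, Pi.smul_apply,     smul_eq_mul, ne_eq, mul_eq_zero, OfNat.ofNat_ne_zero, false_or] using this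
    · simp
  obtain ⟨τ, hτP, hτQ, hτ0⟩ := hne
  refine ⟨4, 2, φ, ψ, g, h, ?_, ?_, ?_, ?_, ?_, ?_, ?_⟩
  · intro m
    refine IsHomogeneous.sub ?_ ?_
    · refine IsHomogeneous.sum _ _ _ fun i _ => ?_
      exact (isHomogeneous_C _ _).mul (hQ3.mul (hA1 i))
    · refine IsHomogeneous.sum _ _ _ fun i _ => ?_
      exact (isHomogeneous_C _ _).mul (hP3.mul (hD1 i))
  · intro j
    fin_cases j <;> exact (lin_hom _).mul (lin_hom _)
  · apply MvPolynomial.funext
    intro τ
    rw [eval_aeval', map_zero, hB.diag, eφ]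
    exact symf _ (isoU _) _ (isoW _) _ _ (eQt τ) (ePt τ)
  · intro h0
    have := congrArg (eval τ) h0
    simp only [hgdef, map_neg, map_mul, eval_X, map_zero, neg_eq_zero] at this
    exact mul_ne_zero (mul_ne_zero hτP hτQ) hτ0 this
  · rintro ⟨r, hr⟩
    have e0 := congrArg (eval (fun m => eval τ (φ m))) hr
    have hz : eval (fun m => eval τ (φ m)) f = 0 := by
      rw [hB.diag, eφ]
      exact symf _ (isoU _) _ (isoW _) _ _ (eQt τ) (ePt τ)
    rw [map_mul (eval _) f r, hz, zero_mul] at e0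
    simp only [hh, map_mul, map_pow] at e0
    rw [es, et, hβ] at e0
    simp only [sφ, tφ] at e0
    have e3 : ∑ i, (eval τ Q * (![τ 0, τ 1, τ 2] : Fin 3 → ℂ) i) • u i =
        eval τ Q • ∑ i, (![τ 0, τ 1, τ 2] : Fin 3 → ℂ) i • u i := by
      rw [Finset.smul_sum]
      exact Finset.sum_congr rfl fun i _ => by rw [smul_smul]
    have e4 : ∑ i, (-(eval τ P * (![τ 0, τ 3, τ 4] : Fin 3 → ℂ) i)) • w i =
        -(eval τ P • ∑ i, (![τ 0, τ 3, τ 4] : Fin 3 → ℂ) i • w i) := by
      rw [Finset.smul_sum, ← Finset.sum_neg_distrib]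
      exact Finset.sum_congr rfl fun i _ => by rw [neg_smul, smul_smul]
    rw [e3, e4] at e0
    have e5 := eQt τ
    set U := ∑ i, (![τ 0, τ 1, τ 2] : Fin 3 → ℂ) i • u i
    set W := ∑ i, (![τ 0, τ 3, τ 4] : Fin 3 → ℂ) i • w i
    simp only [Matrix.cons_val_zero, map_smul, map_neg, LinearMap.smul_apply, LinearMap.neg_apply, smul_eq_mul] at e0
    have e6 : (eval τ Q * τ 0) ^ 2 * (eval τ P * τ 0) ^ 2 *
        ((eval τ Q) ^ 2 * (eval τ P) ^ 2) = 0 := by
      rw [← e0]
      conv_lhs => rw [e5]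
      conv_rhs => rw [e5]
      ring
    have e7 : (eval τ Q * τ 0) ^ 2 * (eval τ P * τ 0) ^ 2 *
        ((eval τ Q) ^ 2 * (eval τ P) ^ 2) ≠ 0 :=
      mul_ne_zero (mul_ne_zero (pow_ne_zero _ (mul_ne_zero hτQ hτ0))
        (pow_ne_zero _ (mul_ne_zero hτP hτ0)))
        (mul_ne_zero (pow_ne_zero _ hτQ) (pow_ne_zero _ hτP))
    exact e7 e6
  · intro j
    apply MvPolynomial.funext
    intro τ
    rw [eval_aeval']
    fin_cases j <;>
      simp [hψ, es, et, sφ, tφ, hgdef] <;> ring
  · intro m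
    refine ⟨-((s 0) ^ 2 * (t 0) ^ 2 * ∑ j, C (w j m) * t j), ?_⟩
    apply MvPolynomial.funext
    intro x
    rw [map_sub, eval_aeval']
    have key : ∀ i, eval x (ψ i) = (![S 0 x * T 0 x, S 1 x * T 0 x, S 2 x * T 0 x,
        S 0 x * T 1 x, S 0 x * T 2 x] : Fin 5 → ℂ) i := by
      intro i
      fin_cases i <;> simp [hψ, es, et]
    have e1 : eval (fun i => eval x (ψ i)) (φ m) =
        ((eval (fun i => eval x (ψ i)) Q) • (∑ i, (![S 0 x * T 0 x, S 1 x * T 0 x,
          S 2 x * T 0 x] : Fin 3 → ℂ) i • u i) -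
        (eval (fun i => eval x (ψ i)) P) • (∑ i, (![S 0 x * T 0 x, S 0 x * T 1 x,
          S 0 x * T 2 x] : Fin 3 → ℂ) i • w i)) m := by
      have := congrFun (eφ (fun i => eval x (ψ i))) m
      rw [this]
      simp only [key, Fin.isValue, Nat.succ_eq_add_one, Nat.reduceAdd, Matrix.cons_val_zero, Matrix.cons_val_one, Matrix.cons_val, Pi.sub_apply, Pi.smul_apply, Finset.sum_apply, smul_eq_mul]
    have e2 : (∑ i, (![S 0 x * T 0 x, S 1 x * T 0 x, S 2 x * T 0 x] : Fin 3 → ℂ) i • u i) =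
        T 0 x • ∑ i, S i x • u i := by
      simp only [Nat.succ_eq_add_one, Nat.reduceAdd, Fin.isValue, mul_comm, Fin.sum_univ_three, Matrix.cons_val_zero, Matrix.cons_val_one, Matrix.cons_val, smul_add, smul_smul]
    have e3 : (∑ i, (![S 0 x * T 0 x, S 0 x * T 1 x, S 0 x * T 2 x] : Fin 3 → ℂ) i • w i) =
        S 0 x • ∑ i, T i x • w i := by
      simp only [Nat.succ_eq_add_one, Nat.reduceAdd, Fin.isValue, Fin.sum_univ_three, Matrix.cons_val_zero, Matrix.cons_val_one, Matrix.cons_val, smul_add, smul_smul]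
    have e4 : eval (fun i => eval x (ψ i)) Q = 3 * B (T 0 x • ∑ i, S i x • u i)
        (S 0 x • ∑ i, T i x • w i) (S 0 x • ∑ i, T i x • w i) := by
      rw [eQt, ← e2, ← e3]
      simp only [Nat.succ_eq_add_one, Nat.reduceAdd, Fin.isValue, key, Matrix.cons_val_zero, Matrix.cons_val_one, Matrix.cons_val, map_sum, map_smul, LinearMap.coe_sum, LinearMap.coe_smul, Finset.sum_apply, Pi.smul_apply, smul_eq_mul]
    have e5 : eval (fun i => eval x (ψ i)) P = 3 * B (T 0 x • ∑ i, S i x • u i)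
        (T 0 x • ∑ i, S i x • u i) (S 0 x • ∑ i, T i x • w i) := by
      rw [ePt, ← e2, ← e3]
      simp only [Nat.succ_eq_add_one, Nat.reduceAdd, Fin.isValue, key, Matrix.cons_val_zero, Matrix.cons_val_one, Matrix.cons_val, map_sum, map_smul, LinearMap.coe_sum, LinearMap.coe_smul, Finset.sum_apply, Pi.smul_apply, smul_eq_mul]
    rw [e1, e2, e3, e4, e5]
    have e6 : eval x h = (S 0 x) ^ 2 * (T 0 x) ^ 2 * (3 * B (∑ i, S i x • u i)
        (∑ i, T i x • w i) (∑ i, T i x • w i)) := by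
      simp only [hh, map_mul, map_pow, es, et, hβ]
    have e7 : eval x (∑ j, C (w j m) * t j) = (∑ i, T i x • w i) m := by
      simp only [mul_comm, map_sum, map_mul, et, eval_C, Finset.sum_apply, Pi.smul_apply, smul_eq_mul]
    have e8 : x m = (∑ i, S i x • u i) m + (∑ i, T i x • w i) m := by
      conv_lhs => rw [hx x]
      rfl
    rw [map_mul, e6, eval_X, map_mul, map_neg, map_mul, map_mul, e7, hTwo]
    simp only [map_pow, es, et]
    rw [e8]
    set U := ∑ i, S i x • u i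
    set W := ∑ i, T i x • w i
    simp only [map_smul, LinearMap.smul_apply, smul_eq_mul, Pi.sub_apply, Pi.smul_apply]
    ring

theorem rational_of_disjoint {f : MvPolynomial (Fin 6) ℂ} (hf : IsSmoothCubic f)
    {W1 W2 : Submodule ℂ V6} (h1 : IsPlane f W1) (h2 : IsPlane f W2) (hd : W1 ⊓ W2 = ⊥) :
    IsRational f := by
  obtain ⟨B, hB⟩ := exists_polar hf.1
  obtain ⟨u, w, S, T, hu, hw, hx, hSu, hSw, hTu, hTw⟩ := exists_coords h1.1 h2.1 hd
  exact rational_of_coords hB (hB.good hf) (h1.iso hB hf) (h2.iso hB hf) u w S T hu hw hx hSu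
    hSw hTu hTw

end Vale.Agent.P287
end
end

section

section

set_option maxSynthPendingDepth 3

namespace Vale.Agent.P287

open Module

/-- cubic monomials in six variables -/
def mon6 (s : Sym (Fin 6) 3) : V6 → ℂ := fun x => ((s : Multiset (Fin 6)).map x).prod

noncomputable def Cub : Submodule ℂ (V6 → ℂ) := Submodule.span ℂ (Set.range mon6)

instance : FiniteDimensional ℂ Cub := FiniteDimensional.span_of_finite ℂ (Set.finite_range mon6)

theorem finrank_Cub : finrank ℂ Cub ≤ 56 := by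
  have h : Set.finrank ℂ (Set.range mon6) ≤ Fintype.card (Sym (Fin 6) 3) :=
    finrank_range_le_card mon6
  have hc : Fintype.card (Sym (Fin 6) 3) = 56 := by
    rw [Sym.card_sym_eq_choose]
    simp only [Fintype.card_fin, Nat.reduceAdd, Nat.add_one_sub_one, Nat.choose, add_zero]
  rw [hc] at h
  exact h

theorem mon_mem (i j k : Fin 6) : (fun x : V6 => x i * x j * x k) ∈ Cub := by
  apply Submodule.subset_span
  refine ⟨⟨{i, j, k}, rfl⟩, ?_⟩
  funext x
  simp [mon6, mul_assoc]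

theorem tri_mem (c : Fin 6 → Fin 6 → Fin 6 → ℂ) :
    (fun x : V6 => ∑ i, ∑ j, ∑ k, c i j k * (x i * x j * x k)) ∈ Cub := by
  have : (fun x : V6 => ∑ i, ∑ j, ∑ k, c i j k * (x i * x j * x k)) =
      ∑ i, ∑ j, ∑ k, c i j k • (fun x : V6 => x i * x j * x k) := by
    funext x
    simp only [Finset.sum_apply, Pi.smul_apply, smul_eq_mul]
  rw [this]
  exact Cub.sum_mem fun i _ => Cub.sum_mem fun j _ => Cub.sum_mem fun k _ =>
    Cub.smul_mem _ (mon_mem i j k)

theorem vec_sum (x : V6) : x = ∑ i, x i • (Pi.single i (1 : ℂ) : V6) := by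
  classical
  ext j
  simp [Finset.sum_apply, Pi.single_apply]

theorem lin_sum (l : V6 →ₗ[ℂ] ℂ) (x : V6) : l x = ∑ i, x i * l (Pi.single i 1) := by
  conv_lhs => rw [vec_sum x]
  simp only [map_sum, map_smul, smul_eq_mul]

theorem lin3_mem (l m n : V6 →ₗ[ℂ] ℂ) : (fun x => l x * m x * n x) ∈ Cub := by
  have := tri_mem (fun i j k => l (Pi.single i 1) * m (Pi.single j 1) * n (Pi.single k 1))
  convert this using 1
  funext x
  rw [lin_sum l x, lin_sum m x, lin_sum n x, Finset.sum_mul_sum, Finset.sum_mul]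
  refine Finset.sum_congr rfl fun i _ => ?_
  rw [Finset.sum_mul]
  refine Finset.sum_congr rfl fun j _ => ?_
  rw [Finset.mul_sum]
  refine Finset.sum_congr rfl fun k _ => ?_
  ring

theorem jac_mem (B : Tri6) (A : V6 →ₗ[ℂ] V6) : (fun x => B x x (A x)) ∈ Cub := by
  have := tri_mem (fun i j k => B (Pi.single i 1) (Pi.single j 1) (A (Pi.single k 1)))
  convert this using 1
  funext x
  have e1 : B x x (A x) = ∑ i, x i * B (Pi.single i 1) x (A x) := by
    have := lin_sum ((B.flip x).flip (A x)) x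
    simpa only [LinearMap.flip_apply] using this
  have e2 : ∀ i, B (Pi.single i 1) x (A x) =
      ∑ j, x j * B (Pi.single i 1) (Pi.single j 1) (A x) := by
    intro i
    have := lin_sum ((B (Pi.single i 1)).flip (A x)) x
    simpa only [LinearMap.flip_apply] using this
  have e3 : ∀ i j, B (Pi.single i 1) (Pi.single j 1) (A x) =
      ∑ k, x k * B (Pi.single i 1) (Pi.single j 1) (A (Pi.single k 1)) := by
    intro i j
    have := lin_sum ((B (Pi.single i 1) (Pi.single j 1)).comp A) x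
    simpa only [LinearMap.coe_comp, Function.comp_apply] using this
  rw [e1]
  refine Finset.sum_congr rfl fun i _ => ?_
  rw [e2, Finset.mul_sum]
  refine Finset.sum_congr rfl fun j _ => ?_
  rw [e3, Finset.mul_sum, Finset.mul_sum]
  refine Finset.sum_congr rfl fun k _ => ?_
  ring

theorem om_mem (B : Tri6) (c : Fin 3 → V6) (ρ : Fin 3 → (V6 →ₗ[ℂ] ℂ)) (w : Fin 3 → V6) :
    om B c ρ w ∈ Cub := by
  set M : Fin 3 → Fin 3 → (V6 →ₗ[ℂ] ℂ) := fun a b =>
    ((B (c a)).flip (w b)).comp (LinearMap.id + theta ρ w) with hM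
  have h : om B c ρ w = (fun x => M 0 0 x * M 1 1 x * M 2 2 x) -
      (fun x => M 0 0 x * M 1 2 x * M 2 1 x) - (fun x => M 0 1 x * M 1 0 x * M 2 2 x) +
      (fun x => M 0 1 x * M 1 2 x * M 2 0 x) + (fun x => M 0 2 x * M 1 0 x * M 2 1 x) -
      (fun x => M 0 2 x * M 1 1 x * M 2 0 x) := by
    funext x
    unfold om
    rw [Matrix.det_fin_three]
    rfl
  rw [h]
  exact Cub.sub_mem (Cub.add_mem (Cub.add_mem (Cub.sub_mem (Cub.sub_mem (lin3_mem _ _ _)
    (lin3_mem _ _ _)) (lin3_mem _ _ _)) (lin3_mem _ _ _)) (lin3_mem _ _ _)) (lin3_mem _ _ _)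

/-- a common complement of finitely many planes -/
theorem exists_common_compl {n : ℕ} (Ws : Fin n → Submodule ℂ V6)
    (h3 : ∀ i, finrank ℂ (Ws i) = 3) :
    ∃ U : Submodule ℂ V6, finrank ℂ U ≤ 3 ∧ ∀ i, Ws i ⊔ U = ⊤ := by
  have step : ∀ (M : Submodule ℂ V6) (d : ℕ), d < 6 → (∀ i, finrank ℂ (Ws i ⊔ M : Submodule ℂ V6) = d) →
      ∃ v : V6, ∀ i, finrank ℂ (Ws i ⊔ (M ⊔ Submodule.span ℂ {v}) : Submodule ℂ V6) = d + 1 := by
    intro M d hd hM
    obtain ⟨v, hv⟩ := Submodule.exists_forall_notMem_of_forall_ne_top (K := ℂ)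
      (fun i => Ws i ⊔ M) (by
        intro i htop
        have := hM i
        rw [htop, finrank_top, finrank_V6] at this
        omega)
    refine ⟨v, fun i => ?_⟩
    rw [← sup_assoc]
    have hlt : Ws i ⊔ M < Ws i ⊔ M ⊔ Submodule.span ℂ {v} := by
      refine lt_of_le_of_ne le_sup_left fun heq => hv i ?_
      rw [heq]
      exact Submodule.mem_sup_right (Submodule.mem_span_singleton_self v)
    have h1 := Submodule.finrank_lt_finrank_of_lt hlt
    have h2 := Submodule.finrank_add_le_finrank_add_finrank (Ws i ⊔ M) (Submodule.span ℂ {v})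
    have h4 := finrank_span_singleton_le v
    have h5 := hM i
    omega
  obtain ⟨v0, h0⟩ := step ⊥ 3 (by norm_num) (fun i => by rw [sup_bot_eq]; exact h3 i)
  obtain ⟨v1, h1⟩ := step _ 4 (by norm_num) h0
  obtain ⟨v2, h2⟩ := step _ 5 (by norm_num) h1
  refine ⟨_, ?_, fun i => Submodule.eq_top_of_finrank_eq (by rw [finrank_V6]; exact h2 i)⟩
  have a0 := finrank_span_singleton_le v0
  have a1 := finrank_span_singleton_le v1
  have a2 := finrank_span_singleton_le v2
  have b0 := Submodule.finrank_add_le_finrank_add_finrank (⊥ : Submodule ℂ V6)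
    (Submodule.span ℂ {v0})
  have b1 := Submodule.finrank_add_le_finrank_add_finrank (⊥ ⊔ Submodule.span ℂ {v0})
    (Submodule.span ℂ {v1})
  have b2 := Submodule.finrank_add_le_finrank_add_finrank
    (⊥ ⊔ Submodule.span ℂ {v0} ⊔ Submodule.span ℂ {v1}) (Submodule.span ℂ {v2})
  have b3 : finrank ℂ (⊥ : Submodule ℂ V6) = 0 := finrank_bot ℂ V6
  omega

theorem exists_frame {B : Tri6} {c : Fin 3 → V6} {ρ χ : Fin 3 → (V6 →ₗ[ℂ] ℂ)}
    (hC : Compl3 c ρ χ) {U : Submodule ℂ V6} (hcU : ∀ a, c a ∈ U) {W : Submodule ℂ V6}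
    (hW : Pl B W) (hWU : W ⊓ U = ⊥) : ∃ p : Fin 3 → V6, Frame B c ρ χ W p := by
  set f : W →ₗ[ℂ] (Fin 3 → ℂ) := (LinearMap.pi ρ).domRestrict W with hf
  have hinj : Function.Injective f := by
    rw [injective_iff_map_eq_zero]
    intro x hx
    have hx' : ∀ b, ρ b (x : V6) = 0 := fun b => congrFun hx b
    have hxU : (x : V6) ∈ U := by
      rw [hC.dec _ hx']
      exact U.sum_mem fun a _ => U.smul_mem _ (hcU a)
    have : (x : V6) ∈ W ⊓ U := ⟨x.2, hxU⟩
    rw [hWU, Submodule.mem_bot] at this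
    exact Subtype.ext this
  have hsurj : Function.Surjective f :=
    (LinearMap.injective_iff_surjective_of_finrank_eq_finrank (by rw [hW.rk]; simp)).mp hinj
  choose q hq using fun b : Fin 3 => hsurj (Pi.single b (1 : ℂ))
  refine ⟨fun b => (q b : V6), hW, fun b => (q b).2, fun b b' => ?_⟩
  have h1 := congrFun (hq b') b
  have h2 : f (q b') b = ρ b (q b' : V6) := rfl
  rw [h2] at h1
  rw [h1, Pi.single_apply]
  by_cases h : b' = b
  · simp [h]
  · simp [h, Ne.symm h]

/-- the linear map whose injectivity gives the bound -/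
noncomputable def Psi (B : Tri6) (c : Fin 3 → V6) (ρ : Fin 3 → (V6 →ₗ[ℂ] ℂ)) {n : ℕ}
    (p : Fin n → Fin 3 → V6) : ((V6 →ₗ[ℂ] V6) × (Fin n → ℂ)) →ₗ[ℂ] (V6 → ℂ) where
  toFun Ag := (fun x => B x x (Ag.1 x)) + ∑ i, Ag.2 i • om B c ρ (p i)
  map_add' := by
    intro a b
    funext x
    simp only [Prod.fst_add, Prod.snd_add, LinearMap.add_apply, map_add, Pi.add_apply,
      Finset.sum_apply, Pi.smul_apply, smul_eq_mul, add_mul, Finset.sum_add_distrib]
    ring
  map_smul' := by
    intro r a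
    funext x
    simp only [Prod.smul_fst, Prod.smul_snd, LinearMap.smul_apply, map_smul, Pi.add_apply,
      Finset.sum_apply, Pi.smul_apply, smul_eq_mul, RingHom.id_apply, mul_add, Finset.mul_sum,
      mul_assoc]

theorem edge_free {B : Tri6} (hB : Good B) {n : ℕ} (Ws : Fin n → Submodule ℂ V6)
    (hpl : ∀ i, Pl B (Ws i))
    (hpt : ∀ i j, i ≠ j → finrank ℂ (Ws i ⊓ Ws j : Submodule ℂ V6) = 1) : n ≤ 20 := by
  classical
  by_cases hn : n ≤ 1
  · omega
  push Not at hn
  obtain ⟨U, hU3, hU⟩ := exists_common_compl Ws fun i => (hpl i).rk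
  have hdim : ∀ i, finrank ℂ (Ws i ⊓ U : Submodule ℂ V6) + 6 = 3 + finrank ℂ U := by
    intro i
    have := Submodule.finrank_sup_add_finrank_inf_eq (Ws i) U
    rw [hU i, finrank_top, finrank_V6, (hpl i).rk] at this
    omega
  have i0 : Fin n := ⟨0, by omega⟩
  have hUr : finrank ℂ U = 3 := by have := hdim i0; omega
  have hdisj : ∀ i, Ws i ⊓ U = ⊥ := fun i => Submodule.finrank_eq_zero.mp (by
    have := hdim i; omega)
  obtain ⟨u, c, S, T, hu, hcU, hx, hSu, hSc, hTu, hTc⟩ := exists_coords (hpl i0).rk hUr (hdisj i0)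
  have hC : Compl3 c S T := by
    refine ⟨hSc, fun b a => hTc b a, fun x hx0 => ?_⟩
    have := hx x
    simp only [hx0, zero_smul, Finset.sum_const_zero, zero_add] at this
    exact this
  choose p hp using fun i => exists_frame hC hcU (hpl i) (hdisj i)
  have hinj : Function.Injective (Psi B c S p) := by
    rw [injective_iff_map_eq_zero]
    rintro ⟨A, γ⟩ hAg
    have hval : ∀ x, B x x (A x) + ∑ i, γ i * om B c S (p i) x = 0 := by
      intro x
      have := congrFun hAg x
      simpa only [Psi, LinearMap.coe_mk, AddHom.coe_mk, Pi.add_apply, Finset.sum_apply, Pi.smul_apply, smul_eq_mul,     Pi.zero_apply] using this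
    -- the coefficient relations
    have hcoef : ∀ j, 8 * γ j + 2 * ∑ i ∈ Finset.univ.erase j, γ i = 0 := by
      intro j
      by_contra hne
      obtain ⟨k, hk⟩ : ∃ k : Fin n, k ≠ j := by
        by_contra hcon
        push Not at hcon
        have h1 := hcon ⟨0, by omega⟩
        have h2 := hcon ⟨1, by omega⟩
        rw [← h2] at h1
        simp at h1
      have hNK := (restrict_main hB hC (hp j) (hp k) (hpt j k hk.symm)).2
      have hR : ∀ i, ∃ lam : Fin 3 → (V6 →ₗ[ℂ] ℂ), i ≠ j → ∀ x ∈ Ws j,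
          om B c S (p i) x = 2 * dd B c (p j) x + ∑ a, lam a x * B x x (c a) := by
        intro i
        by_cases hij : i = j
        · exact ⟨0, fun h => absurd hij h⟩
        · obtain ⟨lam, hlam⟩ := (restrict_main hB hC (hp j) (hp i) (hpt j i (Ne.symm hij))).1
          exact ⟨lam, fun _ => hlam⟩
      choose lam hlam using hR
      set s := 8 * γ j + 2 * ∑ i ∈ Finset.univ.erase j, γ i with hs
      set μ : Fin 3 → (V6 →ₗ[ℂ] ℂ) := fun a =>
        -(s⁻¹ • ((T a).comp ((LinearMap.id - theta S (p j)).comp A) +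
          ∑ i ∈ Finset.univ.erase j, γ i • lam i a)) with hμ
      apply hNK μ
      intro x hxW
      have e1 : B x x (A x) = ∑ a, T a (A x - theta S (p j) (A x)) * B x x (c a) := by
        have h1 : A x = theta S (p j) (A x) + ∑ a, T a (A x - theta S (p j) (A x)) • c a := by
          have : A x - theta S (p j) (A x) = ∑ a, T a (A x - theta S (p j) (A x)) • c a := by
            apply hC.dec
            intro b
            rw [map_sub, theta_apply]
            simp only [map_sum, map_smul, (hp j).rho, smul_eq_mul]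
            simp
          rw [← this]; abel
        have h2 : theta S (p j) (A x) ∈ Ws j := by
          rw [theta_apply]
          exact (Ws j).sum_mem fun b _ => (Ws j).smul_mem _ ((hp j).mem b)
        conv_lhs => rw [h1]
        rw [map_add, (hpl j).iso x hxW x hxW _ h2, zero_add, map_sum]
        refine Finset.sum_congr rfl fun a _ => ?_
        rw [map_smul, smul_eq_mul]
      have e2 : ∑ i, γ i * om B c S (p i) x = s * dd B c (p j) x +
          ∑ a, (∑ i ∈ Finset.univ.erase j, γ i * lam i a x) * B x x (c a) := by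
        rw [← Finset.add_sum_erase _ _ (Finset.mem_univ j), om_self (hp j) hxW]
        have h3 : ∑ i ∈ Finset.univ.erase j, γ i * om B c S (p i) x =
            ∑ i ∈ Finset.univ.erase j, (γ i * (2 * dd B c (p j) x) +
              γ i * ∑ a, lam i a x * B x x (c a)) := by
          refine Finset.sum_congr rfl fun i hi => ?_
          rw [hlam i (Finset.ne_of_mem_erase hi) x hxW]; ring
        rw [h3, Finset.sum_add_distrib, ← Finset.sum_mul]
        have h4 : ∑ i ∈ Finset.univ.erase j, γ i * ∑ a, lam i a x * B x x (c a) =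
            ∑ a, (∑ i ∈ Finset.univ.erase j, γ i * lam i a x) * B x x (c a) := by
          simp only [Finset.mul_sum, Finset.sum_mul]
          rw [Finset.sum_comm]
          refine Finset.sum_congr rfl fun a _ => Finset.sum_congr rfl fun i _ => ?_
          ring
        rw [h4, hs]
        ring
      have e3 := hval x
      rw [e1, e2] at e3
      have e4 : ∑ a, μ a x * B x x (c a) =
          -(s⁻¹ * (∑ a, T a (A x - theta S (p j) (A x)) * B x x (c a) +
            ∑ a, (∑ i ∈ Finset.univ.erase j, γ i * lam i a x) * B x x (c a))) := by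
        rw [← Finset.sum_add_distrib, Finset.mul_sum, ← Finset.sum_neg_distrib]
        refine Finset.sum_congr rfl fun a _ => ?_
        simp only [hμ, LinearMap.neg_apply, LinearMap.smul_apply, LinearMap.add_apply,
          LinearMap.comp_apply, LinearMap.sum_apply, smul_eq_mul, LinearMap.sub_apply,
          LinearMap.id_apply]
        ring
      rw [e4]
      apply mul_left_cancel₀ hne
      rw [mul_neg, ← mul_assoc, mul_inv_cancel₀ hne, one_mul]
      linear_combination e3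
    have hγ : ∀ j, γ j = 0 := by
      set Sg := ∑ i, γ i with hSg
      have h6 : ∀ j, 6 * γ j + 2 * Sg = 0 := by
        intro j
        have := hcoef j
        have h7 : Sg = γ j + ∑ i ∈ Finset.univ.erase j, γ i := by
          rw [hSg, Finset.add_sum_erase _ _ (Finset.mem_univ j)]
        rw [h7]; linear_combination this
      have h8 : (6 + 2 * (n : ℂ)) * Sg = 0 := by
        have : ∑ j : Fin n, (6 * γ j + 2 * Sg) = 0 := Finset.sum_eq_zero fun j _ => h6 j
        rw [Finset.sum_add_distrib, ← Finset.mul_sum, Finset.sum_const, Finset.card_univ,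
          Fintype.card_fin, nsmul_eq_mul] at this
        linear_combination this
      have h9 : (6 + 2 * (n : ℂ)) ≠ 0 := by
        have : ((6 + 2 * n : ℕ) : ℂ) ≠ 0 := Nat.cast_ne_zero.mpr (by omega)
        push_cast at this
        exact this
      have h10 : Sg = 0 := (mul_eq_zero.mp h8).resolve_left h9
      intro j
      have := h6 j
      rw [h10] at this
      have h11 : (6 : ℂ) * γ j = 0 := by linear_combination this
      exact (mul_eq_zero.mp h11).resolve_left (by norm_num)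
    have hA : A = 0 := jac_inj hB A fun x => by
      have := hval x
      simp only [hγ, zero_mul, Finset.sum_const_zero, add_zero] at this
      exact this
    have hγ' : γ = 0 := funext hγ
    rw [hA, hγ']
    rfl
  have hrange : LinearMap.range (Psi B c S p) ≤ Cub := by
    rintro _ ⟨⟨A, γ⟩, rfl⟩
    exact Cub.add_mem (jac_mem B A) (Cub.sum_mem fun i _ => Cub.smul_mem _ (om_mem B c S (p i)))
  have h1 := LinearMap.finrank_range_of_inj hinj
  have h2 := Submodule.finrank_mono hrange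
  have h3 := finrank_Cub
  have h4 : finrank ℂ ((V6 →ₗ[ℂ] V6) × (Fin n → ℂ)) = 36 + n := by
    rw [Module.finrank_prod, Module.finrank_linearMap, finrank_V6]
    simp only [Nat.reduceMul, finrank_fintype_fun_eq_card, Fintype.card_fin, Nat.add_left_cancel_iff]
  omega

end Vale.Agent.P287
end
end

section

section

set_option maxSynthPendingDepth 3

namespace Vale.Agent.P287

open Module

theorem isPlane_iff {f : MvPolynomial (Fin 6) ℂ} {B : Tri6} (hB : IsPolar f B)
    (hf : IsSmoothCubic f) (W : Submodule ℂ V6) : IsPlane f W ↔ Pl B W := by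
  constructor
  · intro h
    exact ⟨h.1, h.iso hB hf⟩
  · intro h
    refine ⟨h.rk, fun x hx => ?_⟩
    rw [hB.diag]
    exact h.iso x hx x hx x hx

theorem ps_of_pair {B : Tri6} (hB : Good B)
    (hpair : ∀ W W', Pl B W → Pl B W' → W ⊓ W' ≠ ⊥) : PS (Pl B) Adj :=
  ⟨fun _ _ h => h.symm, fun _ h => not_adj_self h, fun _ _ h1 h2 h12 => by
    obtain ⟨c, h3, n1, n2, a1, a2, hq⟩ := exists_third' hB hpair h1 h2 h12
    exact ⟨c, h3, n1, n2, a1, a2, fun q hq' m1 m2 m3 => hq q hq' m1 m2 m3⟩⟩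

theorem free_le {B : Tri6} (hB : Good B)
    (hpair : ∀ W W', Pl B W → Pl B W' → W ⊓ W' ≠ ⊥) (M : Finset (Submodule ℂ V6))
    (hM : ∀ a ∈ M, Pl B a) (hfree : Free Adj M) : M.card ≤ 20 := by
  classical
  obtain ⟨e⟩ : Nonempty (Fin M.card ≃ M) := ⟨M.equivFin.symm⟩
  refine edge_free hB (fun i => (e i : Submodule ℂ V6)) (fun i => hM _ (e i).2) ?_
  intro i j hij
  have hne : (e i : Submodule ℂ V6) ≠ (e j : Submodule ℂ V6) := by
    intro h
    exact hij (e.injective (Subtype.ext h))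
  exact meet_point hpair (hM _ (e i).2) (hM _ (e j).2) hne (hfree _ (e i).2 _ (e j).2 hne)

end Vale.Agent.P287
end
end

section

section

set_option maxSynthPendingDepth 3

namespace Vale.Agent.P287

open Module

theorem planes_finite {B : Tri6} (hB : Good B)
    (hpair : ∀ W W', Pl B W → Pl B W' → W ⊓ W' ≠ ⊥) : {W | Pl B W}.Finite := by
  classical
  by_contra hinf
  obtain ⟨t, hts, htc⟩ := Set.Infinite.exists_subset_card_eq hinf 118
  have := (ps_of_pair hB hpair).card_le_117 (free_le hB hpair) t (fun a ha => hts ha)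
  omega

theorem ps_closed {B : Tri6} (hB : Good B)
    (hpair : ∀ W W', Pl B W → Pl B W' → W ⊓ W' ≠ ⊥) :
    PS (· ∈ (planes_finite hB hpair).toFinset) Adj := by
  have h := ps_of_pair hB hpair
  have hm : ∀ W, W ∈ (planes_finite hB hpair).toFinset ↔ Pl B W := by
    intro W
    rw [Set.Finite.mem_toFinset, Set.mem_ofPred_eq]
  refine ⟨h.symm, fun a ha => h.irr a ((hm a).1 ha), fun a b ha hb hab => ?_⟩
  obtain ⟨c, h3, n1, n2, a1, a2, hq⟩ := h.third a b ((hm a).1 ha) ((hm b).1 hb) hab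
  exact ⟨c, (hm c).2 h3, n1, n2, a1, a2, fun q hq' m1 m2 m3 => hq q ((hm q).1 hq') m1 m2 m3⟩

/-- pairwise meeting planes of a smooth cubic fourfold: the number is bounded in terms of a bound
for the number of lines through a point of the polar space -/
theorem ncard_le {B : Tri6} (hB : Good B)
    (hpair : ∀ W W', Pl B W → Pl B W' → W ⊓ W' ≠ ⊥) {K : ℕ} (hK13 : 13 ≤ K)
    (hK : ∀ W, Pl B W → ∀ M : Finset (Submodule ℂ V6), (∀ Q ∈ M, Pl B Q ∧ Adj W Q) →
      Free Adj M → M.card ≤ K) : {W | Pl B W}.ncard ≤ 2 * K + 1 := by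
  classical
  rw [Set.ncard_eq_toFinset_card _ (planes_finite hB hpair)]
  have hm : ∀ W, W ∈ (planes_finite hB hpair).toFinset ↔ Pl B W := by
    intro W
    rw [Set.Finite.mem_toFinset, Set.mem_ofPred_eq]
  refine (ps_closed hB hpair).card_le_closed ?_ hK13 ?_
  · intro hfree
    exact (free_le hB hpair _ (fun a ha => (hm a).1 ha) hfree).trans (by norm_num)
  · intro p hp M hM hfree
    refine hK p ((hm p).1 hp) M (fun Q hQ => ?_) hfree
    have := hM hQ
    rw [mem_Nb] at this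
    exact ⟨(hm Q).1 this.1, this.2⟩

/-- a smooth cubic fourfold containing at least 42 planes contains two disjoint planes -/
theorem exists_disjoint42 {f : MvPolynomial (Fin 6) ℂ} (hf : IsSmoothCubic f)
    (h : 42 ≤ {W | IsPlane f W}.encard) :
    ∃ W W', IsPlane f W ∧ IsPlane f W' ∧ W ⊓ W' = ⊥ := by
  classical
  obtain ⟨B, hB⟩ := exists_polar hf.1
  have hg := hB.good hf
  by_contra hcon
  push Not at hcon
  have hpair : ∀ W W', Pl B W → Pl B W' → W ⊓ W' ≠ ⊥ := by
    intro W W' h1 h2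
    exact hcon W W' ((isPlane_iff hB hf W).2 h1) ((isPlane_iff hB hf W').2 h2)
  have hS : {W | IsPlane f W} = {W | Pl B W} := by
    ext W
    exact isPlane_iff hB hf W
  rw [hS] at h
  have h1 := ncard_le hg hpair (K := 20) (by norm_num) (fun W hW M hM hfree =>
    free_le hg hpair M (fun a ha => (hM a ha).1) hfree)
  have h2 := (planes_finite hg hpair).cast_ncard_eq
  rw [← h2] at h
  have h3 : 42 ≤ {W | Pl B W}.ncard := by exact_mod_cast h
  omega

end Vale.Agent.P287
end
end
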